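import Vale.Agent.P354XE.Defs
import Vale.Agent.P354RC.Pull

/-!
Patching of vacuum metrics given on open sets of one chart, time cones, and transport of a metric
by an injective local diffeomorphism.
-/

open scoped ContDiff
open Set Filter Topology

noncomputable section

namespace Vale.Agent.P354YO

open Vale.Agent.P354n (R4 IsConn mink)
open Vale.Agent.P354I (X Dat pd)
open Vale.Agent.P354R (Met Vac Pull)
open Vale.Agent.P354RC (Rp rp_of_met k2 surj_of_inj)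
open Vale.Agent.P354XE

variable {g g' g1 g2 : Tw} {D D' D1 D2 U F1 F2 : Set R4} {Y Y' X1 X2 : R4 → R4} {p : R4}

/-! ### Cones -/

theorem mink_pos {u w : R4} (hu : mink u u < 0) (hw : mink w w ≤ 0) (h : mink u w < 0) :
    0 < u.1 * w.1 := by
  obtain ⟨a, b, c, d⟩ := u
  obtain ⟨e, f, k, l⟩ := w
  simp only [mink, P354n.cu, P354n.cv, P354n.c1, P354n.c2] at hu hw h ⊢
  by_contra hn
  have h0 : a * e ≤ 0 := not_lt.1 hn
  have h1 : (b * f + c * k + d * l) ^ 2 ≤ (b * b + c * c + d * d) * (f * f + k * k + l * l) := by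
    nlinarith [sq_nonneg (b * k - c * f), sq_nonneg (b * l - d * f), sq_nonneg (c * l - d * k)]
  have h2 : (b * b + c * c + d * d) * (f * f + k * k + l * l) ≤ (a * a) * (e * e) :=
    mul_le_mul (by linarith) (by linarith) (by nlinarith [sq_nonneg f, sq_nonneg k, sq_nonneg l])
      (mul_self_nonneg a)
  nlinarith

theorem mink_neg {u w : R4} (hu : mink u u < 0) (hw : mink w w ≤ 0) (h : 0 < u.1 * w.1) :
    mink u w < 0 := by
  obtain ⟨a, b, c, d⟩ := u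
  obtain ⟨e, f, k, l⟩ := w
  simp only [mink, P354n.cu, P354n.cv, P354n.c1, P354n.c2] at hu hw h ⊢
  by_contra hn
  have h0 : a * e ≤ b * f + c * k + d * l := by linarith [not_lt.1 hn]
  have h1 : (b * f + c * k + d * l) ^ 2 ≤ (b * b + c * c + d * d) * (f * f + k * k + l * l) := by
    nlinarith [sq_nonneg (b * k - c * f), sq_nonneg (b * l - d * f), sq_nonneg (c * l - d * k)]
  have he : 0 < e * e := mul_self_pos.2 fun h' => by simp [h'] at h
  have h2 : (b * b + c * c + d * d) * (f * f + k * k + l * l) ≤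
      (b * b + c * c + d * d) * (e * e) :=
    mul_le_mul_of_nonneg_left (by linarith) (by nlinarith [sq_nonneg b, sq_nonneg c, sq_nonneg d])
  have h3 : (b * b + c * c + d * d) * (e * e) < (a * a) * (e * e) :=
    mul_lt_mul_of_pos_right (by linarith) he
  nlinarith

/-- The time cone is transitive. -/
theorem cone_trans (l : Lor g D Y) (hp : p ∈ D) {u v w : R4} (hu : g p u u < 0) (hv : g p v v < 0)
    (hw : g p w w ≤ 0) (h1 : g p u v < 0) (h2 : g p v w < 0) : g p u w < 0 := by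
  obtain ⟨L, -, -, e⟩ := l.sig p hp
  rw [e] at hu hv hw h1 h2 ⊢
  have k1 := mink_pos hu hv.le h1
  have k2 := mink_pos hv hw h2
  refine mink_neg hu hw ?_
  have k3 : 0 < (L v).1 * (L v).1 := mul_self_pos.2 fun h' => by simp [h'] at k2
  nlinarith [mul_pos k1 k2]

theorem met_comb (m : Met g D) (hp : p ∈ D) (a b : ℝ) (u v w : R4) :
    g p w (a • u + b • v) = a * g p w u + b * g p w v := by
  rw [(m.lin p hp w).map_add, (m.lin p hp w).map_smul, (m.lin p hp w).map_smul]; rfl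

theorem met_comb' (m : Met g D) (hp : p ∈ D) (a b : ℝ) (u v w : R4) :
    g p (a • u + b • v) w = a * g p u w + b * g p v w := by
  rw [m.symm p hp, met_comb m hp, m.symm p hp w, m.symm p hp w]

theorem met_smul (m : Met g D) (hp : p ∈ D) (a : ℝ) (u w : R4) : g p (a • u) w = a * g p u w := by
  rw [m.symm p hp, (m.lin p hp w).map_smul, m.symm p hp w]; rfl

/-- A linear form with spacelike kernel has one sign on a time cone. -/
theorem cone_pos (m : Met g D) (hp : p ∈ D) {f : R4 → ℝ} (hf : IsLinearMap ℝ f)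
    (sp : ∀ v ≠ 0, f v = 0 → 0 < g p v v) {u v : R4} (hu : g p u u < 0) (hv : g p v v < 0)
    (h : g p u v < 0) (h0 : 0 < f u) : 0 < f v := by
  by_contra hn
  have h1 : 0 ≤ -f v := by linarith [not_lt.1 hn]
  have e : g p (f u • v + (-f v) • u) (f u • v + (-f v) • u) < 0 := by
    rw [met_comb m hp, met_comb' m hp, met_comb' m hp, m.symm p hp v u]
    nlinarith [mul_pos h0 (mul_pos h0 (neg_pos.2 hv)), mul_nonneg h1 (mul_pos h0 (neg_pos.2 h)).le,
      mul_nonneg h1 (mul_nonneg h1 (neg_pos.2 hu).le)]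
  refine lt_asymm e (sp _ (fun h' => ?_) ?_)
  · rw [h', (m.lin p hp 0).map_zero] at e
    exact lt_irrefl _ e
  · rw [hf.map_add, hf.map_smul, hf.map_smul, smul_eq_mul, smul_eq_mul]; ring

/-! ### Locality -/

theorem lor_mono (l : Lor g D Y) (h : IsOpen D') (s : D' ⊆ D) : Lor g D' Y :=
  ⟨h, ⟨fun y hy => l.met.lin y (s hy), fun y hy => l.met.symm y (s hy),
    fun y hy => l.met.nondeg y (s hy), fun a b => (l.met.smooth a b).mono s⟩,
    l.vac.imp fun _ k y hy => k y (s hy), fun y hy => l.sig y (s hy), fun y hy => l.tl y (s hy),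
    l.cont.mono s⟩

/-- To be a vacuum metric is a local property. -/
theorem lor_local (hD : IsOpen D) (h : ∀ p ∈ D, ∃ g' D' Y', Lor g' D' Y' ∧ p ∈ D' ∧ g =ᶠ[𝓝 p] g')
    (tl : ∀ p ∈ D, g p (Y p) (Y p) < 0) (c : ContinuousOn Y D) : Lor g D Y := by
  have m : Met g D := by
    refine ⟨fun y hy => ?_, fun y hy => ?_, fun y hy => ?_, fun a b y hy => ?_⟩ <;>
      obtain ⟨g', D', Y', l, hy', e⟩ := h y hy
    · rw [e.eq_of_nhds]; exact l.met.lin y hy'
    · rw [e.eq_of_nhds]; exact l.met.symm y hy'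
    · rw [e.eq_of_nhds]; exact l.met.nondeg y hy'
    · exact (((l.met.smooth a b).contDiffAt (l.isOpen.mem_nhds hy')).congr_of_eventuallyEq
        (e.mono fun z hz => by rw [hz])).contDiffWithinAt
  refine ⟨hD, m, ?_, fun y hy => ?_, tl, c⟩
  · obtain ⟨k, r⟩ := rp_of_met hD m
    refine r.vac.2 fun y hy => ?_
    obtain ⟨g', D', Y', l, hy', e⟩ := h y hy
    obtain ⟨O, hO, oO, yO⟩ := mem_nhds_iff.1 (inter_mem (inter_mem (hD.mem_nhds hy)
      (l.isOpen.mem_nhds hy')) e)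
    have r1 := r.mono oO fun z hz => (hO hz).1.1
    have r2 : Rp g' k O := ⟨oO, fun z hz a b => by
      rw [← r1.eq z hz, show g z = g' z from (hO hz).2], r1.sm, r1.symm, r1.nd⟩
    exact r2.vac.1 (lor_mono l oO fun z hz => (hO hz).1.2).vac y yO
  · obtain ⟨g', D', Y', l, hy', e⟩ := h y hy
    rw [e.eq_of_nhds]; exact l.sig y hy'

theorem met_cont (m : Met g D) (hD : IsOpen D) (hp : p ∈ D) {u v : R4 → R4}
    (hu : ContinuousAt u p) (hv : ContinuousAt v p) : ContinuousAt (fun x => g x (u x) (v x)) p := by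
  obtain ⟨k, r⟩ := rp_of_met hD m
  refine (((r.at hp).continuousAt.clm_apply hu).clm_apply hv).congr ?_
  filter_upwards [hD.mem_nhds hp] with z hz using (r.eq z hz _ _).symm

theorem ne_of_tl (l : Lor g D Y) (hp : p ∈ D) : Y p ≠ 0 := fun h => by
  have := l.tl p hp
  rw [h, (l.met.lin p hp 0).map_zero] at this
  exact lt_irrefl _ this

/-- A multiple of the time orientation, positive on D and zero outside, which is continuous. -/
theorem exists_cut (l : Lor g D Y) : ∃ c : R4 → ℝ, (∀ p, 0 ≤ c p) ∧ (∀ p, p ∈ D ↔ 0 < c p) ∧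
    Continuous fun p => c p • Y p := by
  obtain ⟨f, hf, cf, rf⟩ := l.isOpen.exists_contDiff_support_eq (n := 0)
  have f0 : ∀ p, 0 ≤ f p := fun p => (rf ⟨p, rfl⟩).1
  refine ⟨fun p => f p * ‖Y p‖⁻¹, fun p => mul_nonneg (f0 p) (by positivity), fun p =>
    ⟨fun hp => mul_pos ((f0 p).lt_of_ne' (by rw [← hf] at hp; exact hp))
      (inv_pos.2 (norm_pos_iff.2 (ne_of_tl l hp))), fun hp => ?_⟩,
    continuous_iff_continuousAt.2 fun p => ?_⟩
  · rw [← hf]
    exact fun h => by simp [h] at hp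
  · by_cases hp : p ∈ D
    · have k := l.cont.continuousAt (l.isOpen.mem_nhds hp)
      exact (cf.continuous.continuousAt.mul (k.norm.inv₀ (norm_ne_zero_iff.2 (ne_of_tl l hp)))).smul k
    · have z : f p = 0 := by
        rw [← hf] at hp
        exact Function.notMem_support.1 hp
      have t : Tendsto f (𝓝 p) (𝓝 0) := z ▸ cf.continuous.continuousAt.tendsto
      have : Tendsto (fun p => (f p * ‖Y p‖⁻¹) • Y p) (𝓝 p) (𝓝 0) := by
        refine squeeze_zero_norm (fun x => ?_) t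
        rw [norm_smul, Real.norm_of_nonneg (mul_nonneg (f0 x) (by positivity)), mul_assoc]
        exact mul_le_of_le_one_right (f0 x) (inv_mul_le_one_of_le₀ le_rfl (norm_nonneg _))
      simpa [ContinuousAt, z] using this

/-- Patching on the union of two open sets. -/
theorem patch2 (l1 : Lor g1 D1 X1) (l2 : Lor g2 D2 X2)
    (ag : ∀ p ∈ D1, p ∈ D2 → g2 p = g1 p ∧ g1 p (X1 p) (X2 p) < 0) :
    ∃ g Y, Lor g (D1 ∪ D2) Y ∧ (∀ p ∈ D1, g p = g1 p) ∧ (∀ p ∈ D2, g p = g2 p) ∧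
      ∀ p, ∃ a b : ℝ, 0 ≤ a ∧ 0 ≤ b ∧ (p ∈ D1 ↔ 0 < a) ∧ (p ∈ D2 ↔ 0 < b) ∧
        Y p = a • X1 p + b • X2 p := by
  classical
  obtain ⟨a, a0, a1, a2⟩ := exists_cut l1
  obtain ⟨b, b0, b1, b2⟩ := exists_cut l2
  have e1 : ∀ p ∈ D1, (if p ∈ D1 then g1 p else g2 p) = g1 p := fun p hp => if_pos hp
  have e2 : ∀ p ∈ D2, (if p ∈ D1 then g1 p else g2 p) = g2 p := fun p hp => by
    split_ifs with h
    exacts [(ag p h hp).1.symm, rfl]
  refine ⟨fun p => if p ∈ D1 then g1 p else g2 p, fun p => a p • X1 p + b p • X2 p,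
    lor_local (l1.isOpen.union l2.isOpen) (fun p hp => ?_) (fun p hp => ?_)
      (a2.add b2).continuousOn, e1, e2, fun p => ⟨a p, b p, a0 p, b0 p, a1 p, b1 p, rfl⟩⟩
  · rcases hp with hp | hp
    · exact ⟨g1, D1, X1, l1, hp, mem_of_superset (l1.isOpen.mem_nhds hp) e1⟩
    · exact ⟨g2, D2, X2, l2, hp, mem_of_superset (l2.isOpen.mem_nhds hp) e2⟩
  · have z : ∀ {c : ℝ}, 0 ≤ c → ¬0 < c → c = 0 := fun h h' => le_antisymm (not_lt.1 h') h
    by_cases h1 : p ∈ D1 <;> by_cases h2 : p ∈ D2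
    · have k := l2.tl p h2
      rw [(ag p h1 h2).1] at k
      have ha := (a1 p).1 h1
      have hb := (b1 p).1 h2
      simp only [e1 p h1, met_comb l1.met h1, met_comb' l1.met h1, l1.met.symm p h1 (X2 p) (X1 p)]
      nlinarith [mul_pos ha (mul_pos ha (neg_pos.2 (l1.tl p h1))), mul_pos hb (mul_pos hb (neg_pos.2 k)),
        mul_pos ha (mul_pos hb (neg_pos.2 (ag p h1 h2).2))]
    · have ha := (a1 p).1 h1
      simp only [e1 p h1, met_comb l1.met h1, met_comb' l1.met h1, z (b0 p) (mt (b1 p).2 h2)]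
      nlinarith [mul_pos ha (mul_pos ha (neg_pos.2 (l1.tl p h1)))]
    · have hb := (b1 p).1 h2
      simp only [e2 p h2, met_comb l2.met h2, met_comb' l2.met h2, z (a0 p) (mt (a1 p).2 h1)]
      nlinarith [mul_pos hb (mul_pos hb (neg_pos.2 (l2.tl p h2)))]
    · exact (hp.elim h1 h2).elim

/-- s is a relatively closed part of U. -/
def RC (U s : Set R4) : Prop := s ⊆ U ∧ IsOpen (U \ s)

theorem RC.disj (c : RC U F1) (h : F2 ⊆ U) (d : Disjoint F1 F2) : Disjoint (closure F1) F2 :=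
  ((disjoint_sdiff_right (s := F1) (t := U)).closure_left c.2).mono_right
    (show F2 ⊆ U \ F1 from fun _ hp => ⟨h hp, fun h' => disjoint_left.1 d h' hp⟩)

theorem RC.union (c1 : RC U F1) (c2 : RC U F2) : RC U (F1 ∪ F2) :=
  ⟨union_subset c1.1 c2.1, by rw [← sdiff_inter_sdiff]; exact c1.2.inter c2.2⟩

/-- Gluing along relatively closed sets. -/
theorem glue2 (hU : IsOpen U) (c1 : RC U F1) (c2 : RC U F2) (l1 : Lor g1 D1 X1) (l2 : Lor g2 D2 X2)
    (s1 : F1 ⊆ D1) (s2 : F2 ⊆ D2)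
    (ag : ∀ p ∈ F1, p ∈ F2 → g2 =ᶠ[𝓝 p] g1 ∧ g1 p (X1 p) (X2 p) < 0) :
    ∃ D g Y, Lor g D Y ∧ F1 ∪ F2 ⊆ D ∧
      (∀ p ∈ F1, g =ᶠ[𝓝 p] g1 ∧ g p (Y p) (X1 p) < 0 ∧ (p ∉ D2 → ∃ c : ℝ, 0 < c ∧ Y p = c • X1 p)) ∧
      ∀ p ∈ F2, g =ᶠ[𝓝 p] g2 ∧ ∃ c : ℝ, 0 < c ∧ Y p = c • X2 p := by
  obtain ⟨O, hO⟩ : ∃ O, O = interior {p | g2 p = g1 p ∧ g1 p (X1 p) (X2 p) < 0} := ⟨_, rfl⟩
  have oO : IsOpen O := hO ▸ isOpen_interior
  have O1 : O ⊆ {p | g2 p = g1 p ∧ g1 p (X1 p) (X2 p) < 0} := hO ▸ interior_subset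
  have O2 : ∀ p ∈ F1, p ∈ F2 → p ∈ O := fun p h1 h2 => hO ▸ mem_interior_iff_mem_nhds.2
    ((ag p h1 h2).1.and ((met_cont l1.met l1.isOpen (s1 h1)
      (l1.cont.continuousAt (l1.isOpen.mem_nhds (s1 h1)))
      (l2.cont.continuousAt (l2.isOpen.mem_nhds (s2 h2)))).eventually_lt continuousAt_const
        (ag p h1 h2).2))
  have c3 : RC U (F1 \ O) := ⟨fun _ hp => c1.1 hp.1, by
    rw [sdiff_sdiff_right']; exact c1.2.union (hU.inter oO)⟩
  have d : Disjoint (F1 \ O) F2 := disjoint_left.2 fun p h1 h2 => h1.2 (O2 p h1.1 h2)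
  obtain ⟨P, Q, oP, oQ, sP, sQ, dd⟩ := separatedNhds_iff_disjoint.2
    (completely_normal (c3.disj c2.1 d) (c2.disj c3.1 d.symm).symm)
  have o1 : IsOpen (D1 ∩ (P ∪ O) ∩ (U \ F2)) := (l1.isOpen.inter (oP.union oO)).inter c2.2
  have o2 : IsOpen (D2 ∩ Q) := l2.isOpen.inter oQ
  have ov : ∀ p ∈ D1 ∩ (P ∪ O) ∩ (U \ F2), p ∈ D2 ∩ Q → p ∈ O := fun p h1 h2 =>
    h1.1.2.resolve_left fun h => disjoint_left.1 dd h h2.2
  obtain ⟨g, Y, l, e1, e2, k⟩ := patch2 (lor_mono l1 o1 fun _ h => h.1.1)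
    (lor_mono l2 o2 fun _ h => h.1) fun p h1 h2 => O1 (ov p h1 h2)
  have m1 : ∀ p ∈ F1, p ∉ F2 → p ∈ D1 ∩ (P ∪ O) ∩ (U \ F2) := fun p h1 h2 =>
    ⟨⟨s1 h1, (em (p ∈ O)).symm.imp_left fun h => sP ⟨h1, h⟩⟩, c1.1 h1, h2⟩
  have m2 : ∀ p ∈ F2, p ∈ D2 ∩ Q := fun p h => ⟨s2 h, sQ h⟩
  have z : ∀ {c : ℝ}, 0 ≤ c → ¬0 < c → c = 0 := fun h h' => le_antisymm (not_lt.1 h') h
  have r2 : ∀ p ∈ F2, g =ᶠ[𝓝 p] g2 ∧ ∃ c : ℝ, 0 < c ∧ Y p = c • X2 p := fun p hp => by
    obtain ⟨a, b, a0, -, a1, b1, e⟩ := k p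
    refine ⟨mem_of_superset (o2.mem_nhds (m2 p hp)) e2, b, b1.1 (m2 p hp), ?_⟩
    rw [e, z a0 (mt a1.2 fun h => h.2.2 hp), zero_smul, zero_add]
  refine ⟨_, g, Y, l, fun p hp => (em (p ∈ F2)).symm.imp (fun h => m1 p (hp.resolve_right h) h)
    (m2 p), fun p hp => ?_, r2⟩
  by_cases h2 : p ∈ F2
  · obtain ⟨e, c, hc, e'⟩ := r2 p h2
    have e3 := e.trans (ag p hp h2).1
    refine ⟨e3, ?_, fun h => (h (s2 h2)).elim⟩
    rw [e3.eq_of_nhds, e', met_smul l1.met (s1 hp), l1.met.symm p (s1 hp)]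
    exact mul_neg_of_pos_of_neg hc (ag p hp h2).2
  · obtain ⟨a, b, -, b0, a1, b1, e⟩ := k p
    have ha := a1.1 (m1 p hp h2)
    refine ⟨mem_of_superset (o1.mem_nhds (m1 p hp h2)) e1, ?_, fun h => ⟨a, ha, ?_⟩⟩
    · rw [e1 p (m1 p hp h2), e, met_comb' l1.met (s1 hp), l1.met.symm p (s1 hp) (X2 p)]
      have k1 := mul_neg_of_pos_of_neg ha (l1.tl p (s1 hp))
      by_cases hb : 0 < b
      · linarith [mul_neg_of_pos_of_neg hb (O1 (ov p (m1 p hp h2) (b1.2 hb))).2]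
      · rw [z b0 hb]; linarith
    · rw [e, z b0 (mt b1.2 fun h' => h h'.1), zero_smul, add_zero]

/-! ### Induced data -/

theorem ind_congr {J : X → R4} {d : Dat} (l : Lor g D Y) (h : Ind g' Y' J d)
    (e : ∀ y ≠ 0, J y ∈ D ∧ g =ᶠ[𝓝 (J y)] g' ∧ g (J y) (Y' (J y)) (Y' (J y)) < 0 ∧
      g (J y) (Y (J y)) (Y' (J y)) < 0) : Ind g Y J d := fun y hy => by
  obtain ⟨G, n, k1, k2, k3, k4⟩ := h y hy
  obtain ⟨m, e1, e2, e3⟩ := e y hy
  have e4 : ∀ a b c, P354n.deriv (fun z => g z a b) (J y) c = P354n.deriv (fun z => g' z a b) (J y) c :=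
    fun a b c => EventuallyEq.lineDeriv_eq (e1.mono fun z hz => by simp only [hz])
  rw [← e1.eq_of_nhds] at k2 k3 k4
  refine ⟨G, n, fun a b c => by rw [e4, e4, e4, e1.eq_of_nhds]; exact k1 a b c, k2, ?_, k4⟩
  exact cone_trans l m (by rw [k2]; norm_num) e2 (l.tl _ m).le k3 (by rwa [l.met.symm _ m])

/-! ### Transport -/

/-- The pull back of a vacuum metric by a local diffeomorphism. -/
theorem lor_pull {f : R4 → R4} (l : Lor g D Y) (o : IsOpen D') (sm : ContDiffOn ℝ ∞ f D')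
    (mp : MapsTo f D' D) (inj : ∀ p ∈ D', Function.Injective (fderiv ℝ f p))
    (c : ContinuousOn Y' D') (e : ∀ p ∈ D', fderiv ℝ f p (Y' p) = Y (f p)) :
    Lor (pb f g) D' Y' := by
  have P : Pull f (pb f g) D' g D := ⟨o, l.isOpen, l.met, sm, mp, inj, fun _ _ _ _ => rfl⟩
  refine ⟨o, k2.1 _ _ _ _ _ P, k2.2.1 _ _ _ _ _ P l.vac, fun p hp => ?_, fun p hp => ?_, c⟩
  · obtain ⟨L, k1, k2, k3⟩ := l.sig _ (mp hp)
    exact ⟨fun v => L (fderiv ℝ f p v), ⟨fun a b => by rw [map_add, k1.map_add],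
      fun a b => by rw [map_smul, k1.map_smul]⟩, k2.comp (inj p hp), fun v w => k3 _ _⟩
  · simp only [pb, e p hp]
    exact l.tl _ (mp hp)

/-- The inverse of an injective local diffeomorphism. -/
theorem exists_inv {f : R4 → R4} (o : IsOpen D) (sm : ContDiffOn ℝ ∞ f D) (i : InjOn f D)
    (inj : ∀ p ∈ D, Function.Injective (fderiv ℝ f p)) :
    ∃ h : R4 → R4, (∀ p ∈ D, h (f p) = p) ∧ ContDiffOn ℝ ∞ h (f '' D) ∧
      ∀ p ∈ D, map f (𝓝 p) = 𝓝 (f p) := by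
  have key : ∀ p ∈ D, map f (𝓝 p) = 𝓝 (f p) ∧
      ContDiffAt ℝ ∞ (Function.invFunOn f D) (f p) := fun p hp => by
    have k := sm.contDiffAt (o.mem_nhds hp)
    let A : R4 ≃L[ℝ] R4 := ContinuousLinearEquiv.ofBijective (fderiv ℝ f p)
      (LinearMap.ker_eq_bot.2 (inj p hp)) (LinearMap.range_eq_top.2 (surj_of_inj (inj p hp)))
    have d : HasFDerivAt f (A : R4 →L[ℝ] R4) p := (k.differentiableAt (by simp)).hasFDerivAt
    have s := k.hasStrictFDerivAt' d (by simp)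
    refine ⟨s.map_nhds_eq_of_equiv, (k.to_localInverse d (by simp)).congr_of_eventuallyEq ?_⟩
    rw [← s.map_nhds_eq_of_equiv, EventuallyEq, eventually_map]
    filter_upwards [o.mem_nhds hp, s.eventually_left_inverse] with x hx e
    exact (i.leftInvOn_invFunOn hx).trans e.symm
  exact ⟨_, fun p hp => i.leftInvOn_invFunOn hp, fun _ ⟨p, hp, e⟩ =>
    e ▸ (key p hp).2.contDiffWithinAt, fun p hp => (key p hp).1⟩

/-- The push forward of a vacuum metric by an injective local diffeomorphism. -/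
theorem lor_push {f : R4 → R4} (l : Lor g D Y) (sm : ContDiffOn ℝ ∞ f D) (i : InjOn f D)
    (inj : ∀ p ∈ D, Function.Injective (fderiv ℝ f p)) :
    ∃ g' Y', Lor g' (f '' D) Y' ∧ (∀ p ∈ D, map f (𝓝 p) = 𝓝 (f p)) ∧
      ∀ p ∈ D, pb f g' p = g p ∧ Y' (f p) = fderiv ℝ f p (Y p) := by
  obtain ⟨h, li, sh, mp⟩ := exists_inv l.isOpen sm i inj
  have o : IsOpen (f '' D) := isOpen_iff_mem_nhds.2 fun _ ⟨p, hp, e⟩ =>
    e ▸ (mp p hp) ▸ image_mem_map (l.isOpen.mem_nhds hp)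
  have c : ∀ p ∈ D, ∀ v, fderiv ℝ h (f p) (fderiv ℝ f p v) = v := fun p hp v => by
    have k1 := (sm.contDiffAt (l.isOpen.mem_nhds hp)).differentiableAt (by simp)
    have k2 := (sh.contDiffAt (o.mem_nhds ⟨p, hp, rfl⟩)).differentiableAt (by simp)
    have k3 : h ∘ f =ᶠ[𝓝 p] id := mem_of_superset (l.isOpen.mem_nhds hp) li
    have := k3.fderiv_eq (𝕜 := ℝ)
    rw [fderiv_comp p k2 k1, fderiv_id] at this
    exact congrArg (fun A : R4 →L[ℝ] R4 => A v) this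
  have mh : MapsTo h (f '' D) D := fun _ ⟨p, hp, e⟩ => by rw [← e, li p hp]; exact hp
  refine ⟨pb h g, fun x => fderiv ℝ f (h x) (Y (h x)), lor_pull l o sh mh ?_ ?_ ?_, mp,
    fun p hp => ⟨?_, by simp only [li p hp]⟩⟩
  · rintro _ ⟨p, hp, rfl⟩ a b e
    obtain ⟨a, rfl⟩ := surj_of_inj (inj p hp) a
    obtain ⟨b, rfl⟩ := surj_of_inj (inj p hp) b
    rw [c p hp, c p hp] at e
    rw [e]
  · exact (((sm.continuousOn_fderiv_of_isOpen l.isOpen (by simp)).clm_apply l.cont).comp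
      sh.continuousOn mh :)
  · rintro _ ⟨p, hp, rfl⟩
    simp only [li p hp, c p hp]
  · funext a b
    simp only [pb, li p hp, c p hp]

end Vale.Agent.P354YO
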