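import Vale.Agent.P354YO.Patch
import Vale.Agent.P354XA.Fr

/-!
Gluing of the core and of the two ends in the Kruskal chart.
-/

open scoped ContDiff
open Set Filter Topology

noncomputable section

namespace Vale.Agent.P354YO

open Vale.Agent.P354n (R4)
open Vale.Agent.P354I (X Dat rm rp)
open Vale.Agent.P354RC (surj_of_inj)
open Vale.Agent.P354XE
open Vale.Agent.P354XA (linL pb_lin hor rd_cont)

variable {M a r1 θ θ1 R s δ ε : ℝ} {N : ℕ} {g g' : Tw} {Y Y' : R4 → R4} {p : R4} {W : Set R4}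

/-! ### The estimates depend on germs only -/

theorem wd_congr {f f' : R4 → ℝ} (h : f =ᶠ[𝓝 p] f') :
    ∀ α : List (Fin 5), wd M a α f =ᶠ[𝓝 p] wd M a α f'
  | [] => h
  | i :: α => (wd_congr h α).fderiv.mono fun x (hx : fderiv ℝ _ x = fderiv ℝ _ x) => by
    simp only [wd, hx]

theorem wb_congr {f f' : R4 → ℝ} {c c' : ℝ} (h : f =ᶠ[𝓝 p] f') (b : Wb M a N f p c c') :
    Wb M a N f' p c c' := fun α hα => by
  rw [← (wd_congr h α).eq_of_nhds, ← (wd_congr (wd_congr h [0]) α).eq_of_nhds]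
  exact b α hα

theorem bd_congr {c : ℝ} (h : g =ᶠ[𝓝 p] g') (b : Bd N g p c) : Bd N g' p c := fun k hk v w => by
  have e : (fun x => g x v w) =ᶠ[𝓝 p] fun x => g' x v w := h.mono fun x hx => by simp only [hx]
  rw [← (e.iteratedFDeriv ℝ k).eq_of_nhds]
  exact b k hk v w

theorem dt_congr (h : g =ᶠ[𝓝 p] g') : (fun x v w => fderiv ℝ (fun x => g x v w) x eT) =ᶠ[𝓝 p]
    fun x v w => fderiv ℝ (fun x => g' x v w) x eT :=
  h.eventuallyEq_nhds.mono fun x hx => by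
    funext v w
    have e : (fun x => g x v w) =ᶠ[𝓝 x] fun x => g' x v w := hx.mono fun x hx => by simp only [hx]
    simp only [e.fderiv_eq]

theorem far_congr {β : Fin 3 → R4 → ℝ} (h : g =ᶠ[𝓝 p] g') (b : Far M a s δ ε N g β p) :
    Far M a s δ ε N g' β p := by
  have e : ftt M a g β =ᶠ[𝓝 p] ftt M a g' β := h.mono fun x hx => by simp only [ftt, hx]
  exact ⟨(b.gauge.and h).mono fun x hx => hx.2 ▸ hx.1, b.smooth,
    fun i => wb_congr (h.mono fun x hx => by simp only [hx]) (b.la i), b.shift, wb_congr e b.tt,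
    fun i hi => wb_congr (wd_congr e [i]) (b.tt' i hi),
    fun i => wb_congr (h.mono fun x hx => by simp only [hx]) (b.ta i),
    fun i j => wb_congr (h.mono fun x hx => by simp only [hx]) (b.aa i j)⟩

theorem pb_congr {f : R4 → R4} (hf : ContinuousAt f p) (h : g =ᶠ[𝓝 (f p)] g') :
    pb f g =ᶠ[𝓝 p] pb f g' :=
  (hf.eventually h).mono fun x hx => by
    funext v w
    simp only [pb, show g (f x) = g' (f x) from hx]

/-- The estimates on an end depend on the germ of g along the end and on the time cone. -/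
theorem isEnd_congr {q q' : Par} {β : Fin 3 → R4 → ℝ} (l : Lor g W Y) (sub : En M a r1 θ ⊆ W)
    (spc : ∀ p ∈ En M a r1 θ, rd p ≤ R + 2 → ∀ v ≠ 0, v.1 = 0 → 0 < g p v v)
    (h : ∀ p ∈ En M a r1 θ, g =ᶠ[𝓝 p] g' ∧ g p (Y' p) (Y' p) < 0 ∧ g p (Y' p) (Y p) < 0)
    (b : IsEnd M a r1 θ R s δ ε N g Y q q' β) : IsEnd M a r1 θ R s δ ε N g' Y' q q' β := by
  refine ⟨b.par, fun p hp hr => ?_, fun p hp hr => ?_, fun p hp hr => ?_⟩
  · obtain ⟨k1, k2, k3⟩ := b.near p hp hr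
    obtain ⟨e1, e2, e3⟩ := h p hp
    exact ⟨cone_pos l.met (sub hp) (f := Prod.fst) ⟨fun _ _ => rfl, fun _ _ => rfl⟩ (spc p hp hr)
      (l.tl p (sub hp)) e2 (by rwa [l.met.symm p (sub hp)]) k1,
      bd_congr (e1.mono fun x hx => by simp only [Pi.sub_apply, hx]) k2, bd_congr (dt_congr e1) k3⟩
  · exact bd_congr ((pb_congr (linL q).continuous.continuousAt (h _ hp).1).mono fun x hx => by
      simp only [Pi.sub_apply]; exact congrArg (· - _) hx) (b.conv p hp hr)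
  · obtain ⟨k1, k2⟩ := b.far p hp hr
    obtain ⟨e1, e2, e3⟩ := h _ hp
    refine ⟨?_, far_congr (pb_congr (linL q').continuous.continuousAt e1) k2⟩
    rw [← e1.eq_of_nhds]
    exact cone_trans l (sub hp) e2 (l.tl _ (sub hp))
      ((pb_lin q' g p _ _).symm.trans k2.gauge.self_of_nhds.1).le e3 k1

/-! ### The charts -/

theorem inj_of_left {f h : R4 → R4} (hf : DifferentiableAt ℝ f p) (hh : DifferentiableAt ℝ h (f p))
    (e : ∀ᶠ x in 𝓝 p, h (f x) = x) : Function.Injective (fderiv ℝ f p) := by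
  have k3 : h ∘ f =ᶠ[𝓝 p] id := e
  have := k3.fderiv_eq (𝕜 := ℝ)
  rw [fderiv_comp p hh hf, fderiv_id] at this
  exact Function.LeftInverse.injective (g := fderiv ℝ h (f p))
    fun v => congrArg (fun A : R4 →L[ℝ] R4 => A v) this

/-- The sign of an end. -/
def sg (σ : Bool) : ℝ := bif σ then 1 else -1

/-- The facts about the charts of the ends. -/
structure Chs (M a : ℝ) (σ : Bool) : Prop where
  sm : ∀ p, rm M a < rd p → ContDiffAt ℝ ∞ (ch M a σ) p ∧ Function.Injective (fderiv ℝ (ch M a σ) p)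
  val : ∀ p, rm M a < rd p → xs (ch M a σ p) ≠ 0 ∧ kr M a (ch M a σ p) = rd p ∧
    (ch M a σ p).1 = (kap M a p).1 ∧
    (ch M a σ p).1 + sg σ * kx M a (ch M a σ p) = mf M a (rd p) * Real.exp (ka M a * p.1)
  inj : InjOn (ch M a σ) {p | rm M a < rd p}
  surj : ∀ x, xs x ≠ 0 → rm M a < kr M a x → 0 < x.1 + sg σ * kx M a x →
    ∃ p, rm M a < rd p ∧ ch M a σ p = x

theorem mf_pos {r : ℝ} (h : rm M a < r) : 0 < mf M a r := Real.rpow_pos_of_pos (sub_pos.2 h) _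

theorem mf_mono (hM : |a| < M) {r r' : ℝ} (h : rm M a < r) (h' : r ≤ r') : mf M a r ≤ mf M a r' := by
  obtain ⟨-, h1, h2, -⟩ := hor hM
  exact Real.rpow_le_rpow (sub_pos.2 h).le (by linarith) (div_nonneg h1 (by linarith))

theorem chs (K : KAP) (ha : a ≠ 0) (hM : |a| < M) (σ : Bool) : Chs M a σ := by
  obtain ⟨k1, k2, k3, -⟩ := K M a ha hM
  have o : IsOpen {p | rm M a < rd p} := isOpen_lt continuous_const rd_cont
  have d : ∀ {f : R4 → R4} {p}, ContDiffAt ℝ ∞ f p → DifferentiableAt ℝ f p := fun h =>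
    h.differentiableAt (by simp)
  have ki : ∀ p, rm M a < rd p → ContDiffAt ℝ ∞ (ik M a) (kap M a p) := fun p hp => by
    obtain ⟨-, -, e1, e2, e3⟩ := k1 p hp
    exact (k2 _ e1 (by rwa [e2]) (by rw [e3]; exact mul_pos (mf_pos hp) (Real.exp_pos _))).1
  have kr' : ∀ x, xs x ≠ 0 → kr M a (mir M a x) = kr M a x := fun x hx => by
    simp only [kr, (k3 x hx).2.2.2.1, neg_sq]; rfl
  cases σ
  · refine ⟨fun p hp => ?_, fun p hp => ?_, fun p hp p' hp' e => ?_, fun x h1 h2 h3 => ?_⟩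
    · obtain ⟨e0, -, e1, -⟩ := k1 p hp
      obtain ⟨m0, m1, m2, -⟩ := k3 _ e1
      refine ⟨m0.comp p e0, inj_of_left (h := ik M a ∘ mir M a) (d (m0.comp p e0))
        (d (ContDiffAt.comp _ (by rw [show mir M a (ch M a false p) = _ from m1]; exact ki p hp)
          (k3 _ m2).1)) ?_⟩
      filter_upwards [o.mem_nhds hp] with x hx
      exact (congrArg (ik M a) (k3 _ (k1 x hx).2.2.1).2.1).trans (k1 x hx).2.1
    · obtain ⟨-, -, e1, e2, e3⟩ := k1 p hp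
      obtain ⟨-, -, m2, m3, -⟩ := k3 _ e1
      refine ⟨m2, (kr' _ e1).trans e2, rfl, ?_⟩
      rw [← e3, show kx M a (ch M a false p) = _ from m3, sg, cond_false, neg_mul_neg, one_mul]
      rfl
    · rw [← (k1 p hp).2.1, ← (k1 p' hp').2.1, ← (k3 _ (k1 p hp).2.2.1).2.1,
        ← (k3 _ (k1 p' hp').2.2.1).2.1]
      exact congrArg (fun x => ik M a (mir M a x)) e
    · obtain ⟨-, m1, m2, m3, -⟩ := k3 x h1
      obtain ⟨-, e1, e2⟩ := k2 _ m2 (by rwa [kr' x h1]) (by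
        rw [m3]; simp only [sg, cond_false, neg_mul, one_mul] at h3; exact h3)
      exact ⟨_, by rwa [e2, kr' x h1], (congrArg (mir M a) e1).trans m1⟩
  · refine ⟨fun p hp => ⟨(k1 p hp).1, inj_of_left (d (k1 p hp).1) (d (ki p hp))
      (mem_of_superset (o.mem_nhds hp) fun x hx => (k1 x hx).2.1)⟩, fun p hp => ?_,
      fun p hp p' hp' e => ?_, fun x h1 h2 h3 => ?_⟩
    · obtain ⟨-, -, e1, e2, e3⟩ := k1 p hp
      exact ⟨e1, e2, rfl, by rw [← e3, sg, cond_true, one_mul]; rfl⟩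
    · rw [← (k1 p hp).2.1, ← (k1 p' hp').2.1]
      exact congrArg (ik M a) e
    · obtain ⟨-, e1, e2⟩ := k2 x h1 h2 (by simpa only [sg, cond_true, one_mul] using h3)
      exact ⟨_, by rwa [e2], e1⟩

/-- The open set r > r1 of the Kruskal chart and the images of the ends. -/
def UK (M a r1 : ℝ) : Set R4 := {x | xs x ≠ 0 ∧ r1 < kr M a x}
def EK (M a r1 θ : ℝ) (σ : Bool) : Set R4 :=
  {x | x ∈ D0 M a r1 ∧ θ * mf M a (kr M a x) ≤ x.1 + sg σ * kx M a x}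

theorem Chs.mem {σ : Bool} (c : Chs M a σ) (h1 : rm M a < r1) (hp : r1 < rd p) :
    ch M a σ p ∈ EK M a r1 θ σ ↔ p ∈ En M a r1 θ := by
  obtain ⟨e1, e2, e3, e4⟩ := c.val p (h1.trans hp)
  simp only [EK, D0, En, mem_ofPred_eq, e2, e4]
  rw [e3, mul_comm θ, mul_le_mul_iff_right₀ (mf_pos (h1.trans hp))]
  exact ⟨fun h => ⟨hp, h.2, h.1.2.1⟩, fun h => ⟨⟨e1, h.2.2, hp⟩, h.2.1⟩⟩

theorem Chs.ex {σ : Bool} (c : Chs M a σ) (h1 : rm M a < r1) (h0 : 0 < θ) {x : R4}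
    (hx : x ∈ EK M a r1 θ σ) : ∃ p ∈ En M a r1 θ, ch M a σ p = x := by
  have k := h1.trans hx.1.2.2
  obtain ⟨p, hp, rfl⟩ := c.surj x hx.1.1 k ((mul_pos h0 (mf_pos k)).trans_le hx.2)
  exact ⟨p, (c.mem h1 ((c.val p hp).2.1 ▸ hx.1.2.2)).1 hx, rfl⟩

theorem sets (K : KAP) (ha : a ≠ 0) (hM : |a| < M) (h1 : rm M a < r1) :
    IsOpen (UK M a r1) ∧ RC (UK M a r1) (Bx M a r1 θ) ∧ ∀ σ, RC (UK M a r1) (EK M a r1 θ σ) := by
  obtain ⟨-, -, k3, -⟩ := K M a ha hM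
  have cx : ∀ x, xs x ≠ 0 → ContinuousAt (kx M a) x := fun x hx => (k3 x hx).2.2.2.2.continuousAt
  have cr : ∀ x, xs x ≠ 0 → ContinuousAt (kr M a) x := fun x hx =>
    (continuousAt_const.add ((cx x hx).pow 2)).sub (continuousAt_fst.pow 2)
  have cm : ∀ x ∈ UK M a r1, ContinuousAt (fun x => mf M a (kr M a x)) x := fun x hx =>
    ((cr x hx.1).sub continuousAt_const).rpow_const (Or.inl (sub_pos.2 (h1.trans hx.2)).ne')
  have o : IsOpen (UK M a r1) := isOpen_iff_mem_nhds.2 fun x hx => by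
    refine Eventually.and ?_ (continuousAt_const.eventually_lt (cr x hx.1) hx.2)
    filter_upwards [rd_cont.continuousAt.eventually_ne (norm_ne_zero_iff.2 hx.1)] with y hy
    exact norm_ne_zero_iff.1 hy
  have neg : ∀ x : R4, x.1 < 0 → ∀ᶠ y : R4 in 𝓝 x, y.1 < 0 := fun x hx =>
    continuousAt_fst.eventually_lt continuousAt_const hx
  refine ⟨o, ⟨fun x hx => ⟨hx.1.1, hx.1.2.2⟩, isOpen_iff_mem_nhds.2 fun x hx => ?_⟩,
    fun σ => ⟨fun x hx => ⟨hx.1.1, hx.1.2.2⟩, isOpen_iff_mem_nhds.2 fun x hx => ?_⟩⟩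
  · refine inter_mem (o.mem_nhds hx.1) ?_
    rcases lt_or_ge x.1 0 with h | h
    · exact mem_of_superset (neg x h) fun y hy k => k.1.2.1.not_gt hy
    · have k := not_or.1 fun k => hx.2 ⟨⟨hx.1.1, h, hx.1.2⟩, k⟩
      exact mem_of_superset ((continuousAt_fst.eventually_ne k.1).and
        ((continuousAt_const.mul (cm x hx.1)).eventually_lt (continuousAt_fst.add (cx x hx.1.1).abs)
          (not_le.1 k.2))) fun y hy k => k.2.elim hy.1 hy.2.not_ge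
  · refine inter_mem (o.mem_nhds hx.1) ?_
    rcases lt_or_ge x.1 0 with h | h
    · exact mem_of_superset (neg x h) fun y hy k => k.1.2.1.not_gt hy
    · have k := not_le.1 fun k => hx.2 ⟨⟨hx.1.1, h, hx.1.2⟩, k⟩
      exact mem_of_superset ((continuousAt_fst.add (continuousAt_const.mul (cx x hx.1.1))).eventually_lt
        (continuousAt_const.mul (cm x hx.1)) k) fun y hy k => k.2.not_gt hy

theorem sg_sq (σ : Bool) : sg σ ^ 2 = 1 := by cases σ <;> simp [sg]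

theorem le_abs_sg (σ : Bool) (x : ℝ) : |x| = sg σ * x ∨ |x| = -(sg σ * x) := by
  cases σ <;> rcases abs_choice x with h | h <;> simp [sg, h]

/-- Outside the late part of an end, an end is in the core. -/
theorem core_of (hM : |a| < M) (h1 : rm M a < r1) (h0 : 0 < θ) (h2 : θ ≤ θ1)
    (big : rp M a - r1 ≤ θ * θ1 * mf M a r1 ^ 2) {σ : Bool} {x : R4} (hx : x ∈ EK M a r1 θ σ) :
    x.1 - sg σ * kx M a x < θ1 * mf M a (kr M a x) := by
  have m0 := mf_pos h1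
  have m1 := mf_mono hM h1 hx.1.2.2.le
  have e : (x.1 + sg σ * kx M a x) * (x.1 - sg σ * kx M a x) = rp M a - kr M a x := by
    rw [kr]; linear_combination (-kx M a x ^ 2) * sg_sq σ
  by_contra hn
  have k1 := mul_le_mul hx.2 (not_lt.1 hn) (mul_pos (h0.trans_le h2) (m0.trans_le m1)).le
    ((mul_pos h0 (m0.trans_le m1)).le.trans hx.2)
  have k2 : θ * θ1 * mf M a r1 ^ 2 ≤ θ * θ1 * mf M a (kr M a x) ^ 2 :=
    mul_le_mul_of_nonneg_left (pow_le_pow_left₀ m0.le m1 2) (mul_pos h0 (h0.trans_le h2)).le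
  nlinarith [hx.1.2.2]

/-- One end before the gluing: a vacuum metric near En, with the estimates, which is the metric g0
of the core near the core. -/
structure End1 (M a r1 θ θ1 R s δ ε : ℝ) (N : ℕ) (σ : Bool) (g0 : Tw) (X0 : R4 → R4) (W : Set R4)
    (g : Tw) (Y : R4 → R4) : Prop where
  lor : Lor g W Y
  sub : En M a r1 θ ⊆ W
  est : ∃ q q' β, IsEnd M a r1 θ R s δ ε N g Y q q' β
  spc : ∀ p ∈ En M a r1 θ, rd p ≤ R + 2 → ∀ v ≠ 0, v.1 = 0 → 0 < g p v v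
  agr : ∀ p ∈ En M a r1 θ, ch M a σ p ∈ Bx M a r1 θ1 → g =ᶠ[𝓝 p] pb (ch M a σ) g0 ∧
    g0 (ch M a σ p) (X0 (ch M a σ p)) (fderiv ℝ (ch M a σ) p (Y p)) < 0

/-- An end in the Kruskal chart. -/
theorem End1.push {σ : Bool} {g0 : Tw} {X0 : R4 → R4} (c : Chs M a σ) (h1 : rm M a < r1)
    (h0 : 0 < θ) (h2 : θ ≤ θ1) (e : End1 M a r1 θ θ1 R s δ ε N σ g0 X0 W g Y) :
    ∃ D' g' Y', Lor g' D' Y' ∧ EK M a r1 θ1 σ ⊆ D' ∧
      (∀ x ∈ Bx M a r1 θ1, x ∈ EK M a r1 θ1 σ → g' =ᶠ[𝓝 x] g0 ∧ g0 x (X0 x) (Y' x) < 0) ∧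
      ∀ p ∈ En M a r1 θ, g =ᶠ[𝓝 p] pb (ch M a σ) g' ∧
        Y' (ch M a σ p) = fderiv ℝ (ch M a σ) p (Y p) := by
  have o : IsOpen (W ∩ {p | rm M a < rd p}) :=
    e.lor.isOpen.inter (isOpen_lt continuous_const rd_cont)
  have m : ∀ p ∈ En M a r1 θ, p ∈ W ∩ {p | rm M a < rd p} := fun p hp => ⟨e.sub hp, h1.trans hp.1⟩
  have m1 : En M a r1 θ1 ⊆ En M a r1 θ := fun p hp => ⟨hp.1, h2.trans hp.2.1, hp.2.2⟩
  obtain ⟨g', Y', l, mp, k⟩ := lor_push (f := ch M a σ) (lor_mono e.lor o inter_subset_left)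
    (fun p hp => (c.sm p hp.2).1.contDiffWithinAt) (c.inj.mono inter_subset_right)
    fun p hp => (c.sm p hp.2).2
  refine ⟨_, g', Y', l, fun x hx => ?_, fun x hb hx => ?_, fun p hp =>
    ⟨mem_of_superset (o.mem_nhds (m p hp)) fun x hx => (k x hx).1.symm, (k p (m p hp)).2⟩⟩ <;>
    obtain ⟨p, hp, rfl⟩ := c.ex h1 (h0.trans_le h2) hx
  · exact ⟨p, m p (m1 hp), rfl⟩
  · obtain ⟨e1, e2⟩ := e.agr p (m1 hp) hb
    refine ⟨?_, by rwa [(k p (m p (m1 hp))).2]⟩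
    rw [← mp p (m p (m1 hp)), EventuallyEq, eventually_map]
    filter_upwards [o.mem_nhds (m p (m1 hp)), e1] with x hx e3
    funext v w
    obtain ⟨v, rfl⟩ := surj_of_inj (c.sm x hx.2).2 v
    obtain ⟨w, rfl⟩ := surj_of_inj (c.sm x hx.2).2 w
    exact congrFun (congrFun ((k x hx).1.trans e3) v) w

/-- **KRU**: the core and the two ends give the extension. -/
theorem kru (K : KAP) (ha : a ≠ 0) (hM : |a| < M) (h1 : rm M a < r1) (h1' : r1 < rp M a)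
    (h0 : 0 < θ) (h2 : θ ≤ θ1) (big : rp M a - r1 ≤ θ * θ1 * mf M a r1 ^ 2)
    {d : Dat} {D : Set R4} {g0 : Tw} {X0 : R4 → R4} (l0 : Lor g0 D X0) (sub : Bx M a r1 θ1 ⊆ D)
    (ind : Ind g0 X0 (pt 0) d)
    (box : ∀ p ∈ Bx M a r1 θ, 0 < (X0 p).1 ∧ ∀ v ≠ 0, v.1 = 0 → 0 < g0 p v v)
    (ends : ∀ σ, ∃ W g Y, End1 M a r1 θ θ1 R s δ ε N σ g0 X0 W g Y) :
    ∃ D' g Xf, IsExt M a r1 θ R s δ ε N d D' g Xf ∧ ∀ p ∈ Bx M a r1 θ1, g =ᶠ[𝓝 p] g0 := by
  have c := chs K ha hM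
  obtain ⟨oU, cB, cE⟩ := sets (θ := θ1) K ha hM h1
  choose W ge Ye e using ends
  choose De gp Yp lp sp ag pu using fun σ => (e σ).push (c σ) h1 h0 h2
  have m1 : ∀ σ, EK M a r1 θ1 σ ⊆ EK M a r1 θ σ := fun σ x hx => ⟨hx.1,
    (mul_le_mul_of_nonneg_right h2 (mf_pos (h1.trans hx.1.2.2)).le).trans hx.2⟩
  obtain ⟨D1, g1, X1, l1, s1, a1, b1⟩ := glue2 oU cB (cE true) l0 (lp true) sub (sp true) (ag true)
  obtain ⟨D2, g2, X2, l2, s2, a2, b2⟩ := glue2 oU (cB.union (cE true)) (cE false) l1 (lp false) s1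
    (sp false) fun x h3 h4 => by
      have hb : x ∈ Bx M a r1 θ1 := h3.resolve_right fun h => by
        have k1 := core_of hM h1 h0 h2 big (m1 _ h)
        have k2 := h4.2
        simp only [sg, cond_true, cond_false] at k1 k2
        linarith
      obtain ⟨e1, e2, -⟩ := a1 x hb
      obtain ⟨e3, e4⟩ := ag false x hb h4
      refine ⟨e3.trans e1.symm, ?_⟩
      have t := (lp false).tl x (sp false h4)
      rw [e3.eq_of_nhds] at t
      rw [e1.eq_of_nhds] at e2 ⊢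
      exact cone_trans l0 (sub hb) (e1.eq_of_nhds ▸ l1.tl x (s1 h3)) (l0.tl x (sub hb)) t.le e2 e4
  have kB : ∀ x ∈ Bx M a r1 θ1, g2 =ᶠ[𝓝 x] g0 ∧ g0 x (X2 x) (X2 x) < 0 ∧ g0 x (X2 x) (X0 x) < 0 :=
    fun x hx => by
      obtain ⟨e1, e2, -⟩ := a1 x hx
      obtain ⟨e3, e4, -⟩ := a2 x (Or.inl hx)
      have t := l2.tl x (s2 (Or.inl (Or.inl hx)))
      have t1 := l1.tl x (s1 (Or.inl hx))
      rw [(e3.trans e1).eq_of_nhds] at t e4
      rw [e1.eq_of_nhds] at t1 e2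
      exact ⟨e3.trans e1, t, cone_trans l0 (sub hx) t t1 (l0.tl x (sub hx)).le e4 e2⟩
  have kE : ∀ σ, ∀ x ∈ EK M a r1 θ1 σ, g2 =ᶠ[𝓝 x] gp σ ∧ gp σ x (X2 x) (Yp σ x) < 0 := by
    intro σ x hx
    have t := (lp σ).tl x (sp σ hx)
    cases σ
    · obtain ⟨e1, k, hk, e2⟩ := b2 x hx
      exact ⟨e1, by rw [e2, met_smul (lp _).met (sp _ hx)]; exact mul_neg_of_pos_of_neg hk t⟩
    · obtain ⟨e1, k, hk, e2⟩ := b1 x hx
      obtain ⟨e3, e4, -⟩ := a2 x (Or.inr hx)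
      refine ⟨e3.trans e1, ?_⟩
      rw [(e3.trans e1).eq_of_nhds, e2, ((lp _).met.lin x (sp _ hx) _).map_smul] at e4
      exact neg_of_mul_neg_right e4 hk.le
  have mB : Bx M a r1 θ ⊆ Bx M a r1 θ1 := fun x hx => ⟨hx.1, hx.2.imp_right fun h => h.trans
    (mul_le_mul_of_nonneg_right (by linarith) (mf_pos (h1.trans hx.1.2.2)).le)⟩
  refine ⟨D2, g2, X2, ⟨l2, fun x hx => s2 ?_, ind_congr l2 ind fun y hy => ?_, fun x hx => ?_,
    fun σ => ?_⟩, fun x hx => (kB x hx).1⟩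
  · have m := mul_pos (h0.trans_le h2) (mf_pos (h1.trans hx.2.2))
    by_cases h : x.1 + |kx M a x| ≤ 2 * θ1 * mf M a (kr M a x)
    · exact Or.inl (Or.inl ⟨hx, Or.inr h⟩)
    · rcases abs_choice (kx M a x) with k | k <;> rw [k, not_le] at h
      · exact Or.inl (Or.inr ⟨hx, by simp only [sg, cond_true]; linarith⟩)
      · exact Or.inr ⟨hx, by simp only [sg, cond_false]; linarith⟩
  · have hb : pt 0 y ∈ Bx M a r1 θ1 := ⟨⟨by rwa [P354XA.xs_pt], le_rfl, by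
      rw [kr, show (pt 0 y).1 = 0 from rfl]; nlinarith [sq_nonneg (kx M a (pt 0 y))]⟩, Or.inl rfl⟩
    obtain ⟨e1, -, e3⟩ := kB _ hb
    rw [e1.eq_of_nhds]
    exact ⟨s2 (Or.inl (Or.inl hb)), e1, l0.tl _ (sub hb), e3⟩
  · obtain ⟨e1, e2, e3⟩ := kB x (mB hx)
    rw [e1.eq_of_nhds]
    exact ⟨cone_pos l0.met (sub (mB hx)) (f := Prod.fst) ⟨fun _ _ => rfl, fun _ _ => rfl⟩
      (box x hx).2 (l0.tl x (sub (mB hx))) e2 (by rwa [l0.met.symm x (sub (mB hx))]) (box x hx).1,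
      (box x hx).2⟩
  · obtain ⟨q, q', β, b⟩ := (e σ).est
    have sj : ∀ p, ∃ v, p ∈ En M a r1 θ → fderiv ℝ (ch M a σ) p v = X2 (ch M a σ p) := fun p => by
      by_cases hp : p ∈ En M a r1 θ
      · exact (surj_of_inj ((c σ).sm p (h1.trans hp.1)).2 _).imp fun _ h _ => h
      · exact ⟨0, fun h => (hp h).elim⟩
    choose Y hY using sj
    refine ⟨Y, q, q', β, hY, isEnd_congr (e σ).lor (e σ).sub (e σ).spc (fun p hp => ?_) b⟩
    have ct := ((c σ).sm p (h1.trans hp.1)).1.continuousAt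
    by_cases h : ch M a σ p ∈ EK M a r1 θ1 σ
    · obtain ⟨e1, e2⟩ := kE σ _ h
      obtain ⟨e3, e4⟩ := pu σ p hp
      refine ⟨e3.trans (pb_congr ct e1.symm), ?_⟩
      simp only [e3.eq_of_nhds, pb, hY p hp, ← e4]
      exact ⟨e1.eq_of_nhds ▸ l2.tl _ (s2 (by cases σ; exacts [Or.inr h, Or.inl (Or.inr h)])), e2⟩
    · have hx := ((c σ).mem h1 hp.1).2 hp
      have hb : ch M a σ p ∈ Bx M a r1 θ1 := ⟨hx.1, Or.inr (by
        have k1 := core_of hM h1 h0 h2 big hx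
        have k2 := not_le.1 fun k => h ⟨hx.1, k⟩
        have m := mul_pos (h0.trans_le h2) (mf_pos (h1.trans hx.1.2.2))
        rcases le_abs_sg σ (kx M a (ch M a σ p)) with k | k <;> rw [k] <;> linarith)⟩
      obtain ⟨e1, e2, e3⟩ := kB _ hb
      obtain ⟨e4, e5⟩ := (e σ).agr p hp hb
      refine ⟨e4.trans (pb_congr ct e1.symm), ?_⟩
      have t := (e σ).lor.tl p ((e σ).sub hp)
      simp only [e4.eq_of_nhds, pb, hY p hp] at t ⊢
      exact ⟨e2, cone_trans l0 (sub hb) e2 (l0.tl _ (sub hb)) t.le e3 e5⟩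

end Vale.Agent.P354YO
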