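import Vale.Agent.P354YO.Kru
import Vale.Agent.P354XA.Near
import Vale.Agent.P354XD.Base
import Vale.Agent.P354YI.Jet
import Vale.Agent.P354YR.Met

/-!
Bounds for pull backs of fields of bilinear forms by maps close to the identity.
-/

set_option maxSynthPendingDepth 3

open scoped ContDiff
open Set Filter Topology

noncomputable section

namespace Vale.Agent.P354YO

open Vale.Agent.P354n (R4)
open Vale.Agent.P354 (Bilin)
open Vale.Agent.P354RC (B2 bs cv sum_bs)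
open Vale.Agent.P354XD (tb)
open Vale.Agent.P354XE
open Vale.Agent.P354XA (gin_bil rd_cont rd_cd)
open Vale.Agent.P354YI
open Vale.Agent.P354YR (s_gin xs_ne)

variable {g k l : Tw} {p : R4} {N : ℕ} {c c' M a : ℝ}

/-- The field is bilinear near p and smooth at p. -/
structure Sb (g : Tw) (p : R4) : Prop where
  bl : ∀ᶠ y in 𝓝 p, Bilin (g y)
  sm : ∀ v w, ContDiffAt ℝ ∞ (fun x => g x v w) p

theorem bil_sub {B B' : R4 → R4 → ℝ} (h : Bilin B) (h' : Bilin B') : Bilin (B - B') := by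
  constructor <;> intros <;> simp only [Pi.sub_apply, h.add_left, h.add_right, h.smul_left,
    h.smul_right, h'.add_left, h'.add_right, h'.smul_left, h'.smul_right] <;> ring

theorem Sb.sub (h : Sb g p) (h' : Sb k p) : Sb (g - k) p :=
  ⟨(h.bl.and h'.bl).mono fun _ e => bil_sub e.1 e.2, fun v w => (h.sm v w).sub (h'.sm v w)⟩

theorem Sb.congr (h : Sb g p) (e : k =ᶠ[𝓝 p] g) : Sb k p :=
  ⟨(h.bl.and e).mono fun _ e => e.2 ▸ e.1,
    fun v w => (h.sm v w).congr_of_eventuallyEq (e.mono fun x hx => by simp only [hx])⟩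

theorem sb_gin (h : 0 < rd p) : Sb (gin M a) p :=
  ⟨.of_forall (gin_bil M a), s_gin contDiffAt_id (xs_ne h) contDiffAt_const contDiffAt_const⟩

theorem sb_lor {D : Set R4} {Y : R4 → R4} (h : Lor g D Y) (hp : p ∈ D) : Sb g p :=
  ⟨mem_of_superset (h.isOpen.mem_nhds hp) fun _ hy => P354XA.met_bil h.met hy,
    fun v w => (h.met.smooth v w).contDiffAt (h.isOpen.mem_nhds hp)⟩

theorem tb_ap (h : Bilin (g p)) (v w : R4) : tb g p v w = g p v w := by
  conv_rhs => rw [← sum_bs v, ← sum_bs w]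
  simp only [tb, smul_apply, ContinuousLinearMap.smulRight_apply, smul_eq_mul,
    Fin.sum_univ_four, h.add_left, h.add_right, h.smul_left, h.smul_right, add_apply]
  ring

theorem Sb.cd (h : Sb g p) : ContDiffAt ℝ ∞ (tb g) p :=
  ContDiffAt.sum fun _ _ => ContDiffAt.sum fun _ _ => (h.sm _ _).smul contDiffAt_const

theorem Sb.ev (h : Sb g p) (v w : R4) : (fun x => g x v w) =ᶠ[𝓝 p] fun x => tb g x v w :=
  h.bl.mono fun _ e => (tb_ap e v w).symm

theorem bil_pb {φ : R4 → R4} (h : Bilin (g (φ p))) : Bilin (pb φ g p) := by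
  constructor <;> intros <;> simp only [pb, map_add, map_smul, h.add_left, h.add_right,
    h.smul_left, h.smul_right]

theorem Sb.pull {φ : R4 → R4} (h : Sb g (φ p)) (hφ : ContDiffAt ℝ ∞ φ p) : Sb (pb φ g) p :=
  ⟨(hφ.continuousAt.eventually h.bl).mono fun _ e => bil_pb e, fun _ _ =>
    (((h.cd.comp p hφ).clm_apply ((at_fd hφ).clm_apply contDiffAt_const)).clm_apply
      ((at_fd hφ).clm_apply contDiffAt_const)).congr_of_eventuallyEq
      ((hφ.continuousAt.eventually h.bl).mono fun _ e => (tb_ap e _ _).symm)⟩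

theorem bd_mono {N' : ℕ} (h : Bd N g p c) (hN : N' ≤ N) (hc : c ≤ c') : Bd N' g p c' :=
  fun i hi v w => (h i (hi.trans hN) v w).trans (mul_le_mul_of_nonneg_right hc (by positivity))

theorem bd_tri (sg : Sb g p) (sk : Sb k p) (sl : Sb l p) (h : Bd N (g - k) p c)
    (h' : Bd N (k - l) p c') : Bd N (g - l) p (c + c') := fun i hi v w => by
  have := Jb.add (f := fun x => (g - k) x v w) (g := fun x => (k - l) x v w) (fun i hi => h i hi v w)
    (fun i hi => h' i hi v w) ((sg.sub sk).sm v w) ((sk.sub sl).sm v w) i hi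
  simp only [Pi.sub_apply, sub_add_sub_cancel] at this ⊢
  exact this.trans_eq (by ring)

theorem bd_symm (h : Bd N (g - k) p c) : Bd N (k - g) p c := fun i hi v w => by
  have e : (fun x => (k - g) x v w) = -fun x => (g - k) x v w := by
    funext x; simp only [Pi.sub_apply, Pi.neg_apply, neg_sub]
  rw [e, iteratedFDeriv_neg_apply, norm_neg]
  exact h i hi v w

/-- The time derivative is bounded by the distance to a stationary field. -/
theorem bd_dt (sg : Sb g p) (sk : Sb k p) (st : ∀ x (t : ℝ), k (x + t • eT) = k x)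
    (h : Bd (N + 1) (g - k) p c) : Bd N (fun x v w => fderiv ℝ (fun x => g x v w) x eT) p c :=
  fun i hi v w => by
    have j : Jb (N + 1) (fun x => (g - k) x v w) p _ := fun i hi => h i hi v w
    have k1 := j.fd.clm (ContinuousLinearMap.apply ℝ ℝ eT) (at_fd ((sg.sub sk).sm v w))
    have n : ‖ContinuousLinearMap.apply ℝ ℝ eT‖ ≤ 1 :=
      ContinuousLinearMap.opNorm_le_bound _ zero_le_one fun L => by
        simpa [eT] using L.le_opNorm eT
    refine ((k1.mono le_rfl (mul_le_of_le_one_left j.nonneg n)).congr ?_) i hi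
    filter_upwards [ev_dif (sg.sm v w), ev_dif (sk.sm v w)] with y h1 h2
    have z : fderiv ℝ (fun x => k x v w) y eT = 0 := by
      rw [← h2.lineDeriv_eq_fderiv, lineDeriv]
      simp only [st, deriv_const]
    simp only [Pi.sub_apply, ContinuousLinearMap.apply_apply, fderiv_fun_sub h1 h2, sub_apply, z,
      sub_zero]

theorem bs_norm (i : Fin 4) : ‖bs i‖ = 1 := by fin_cases i <;> simp [bs, Prod.norm_def]

section family
variable {J : Type} {x : J → R4} {h : J → Tw} {μ : J → ℝ} {m : ℕ}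

theorem oj_of_bd (s : ∀ j, Sb (h j) (x j)) (b : ∀ j, Bd m (h j) (x j) (μ j)) :
    Oj m x (fun j => tb (h j)) μ := by
  have o : ∀ u v, Oj m x (fun j y => h j y (bs u) (bs v)) μ := fun u v =>
    .of (fun j => (s j).sm _ _) fun j i hi => by simpa only [bs_norm, mul_one] using b j i hi (bs u) (bs v)
  exact Oj.sum _ (o 0 0).nn fun u _ => Oj.sum _ (o 0 0).nn fun v _ => (o u v).smull (.cst _)

theorem bd_of_oj (s : ∀ j, Sb (h j) (x j)) (o : Oj m x (fun j => tb (h j)) μ) :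
    ∃ C, 0 ≤ C ∧ ∀ j, Bd m (h j) (x j) (C * μ j) := by
  obtain ⟨C, c0, hC⟩ := o.bd
  refine ⟨C, c0, fun j i hi v w => ?_⟩
  have k1 := ((hC j).clm ((ContinuousLinearMap.apply ℝ ℝ w).comp
    (ContinuousLinearMap.apply ℝ (R4 →L[ℝ] ℝ) v)) (o.sm j)).congr ((s j).ev v w) i hi
  refine k1.trans ?_
  rw [mul_comm]
  refine mul_le_mul_of_nonneg_left (ContinuousLinearMap.opNorm_le_bound _ (by positivity)
    fun L => ?_) (mul_nonneg c0 (o.nn j))
  exact (L.le_opNorm₂ v w).trans_eq (by ring)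

theorem oj_bil {H : J → R4 → B2} {D D' : J → R4 → R4 →L[ℝ] R4} {ν ν' : J → ℝ} (o : Oj m x H μ)
    (d : Oj m x D ν) (d' : Oj m x D' ν') :
    Oj m x (fun j y => (((H j y).comp (D j y)).flip.comp (D' j y)).flip) (μ * ν * ν') :=
  (((o.bil (ContinuousLinearMap.compL ℝ R4 R4 (R4 →L[ℝ] ℝ)) d).clm
    (ContinuousLinearMap.flipₗᵢ ℝ R4 R4 ℝ).toContinuousLinearEquiv.toContinuousLinearMap).bil
    (ContinuousLinearMap.compL ℝ R4 R4 (R4 →L[ℝ] ℝ)) d').clm
    (ContinuousLinearMap.flipₗᵢ ℝ R4 R4 ℝ).toContinuousLinearEquiv.toContinuousLinearMap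

theorem tb_pb {φ : R4 → R4} (e : Bilin (g (φ p))) : tb (pb φ g) p =
    (((tb g (φ p)).comp (fderiv ℝ φ p)).flip.comp (fderiv ℝ φ p)).flip :=
  ContinuousLinearMap.ext fun v => ContinuousLinearMap.ext fun w =>
    (tb_ap (bil_pb e) v w).trans (tb_ap e _ _).symm

theorem oj_pb {φ : J → R4 → R4} (hφ : ∀ j, ContDiffAt ℝ ∞ (φ j) (x j))
    (d : Oj m x (fun j => fderiv ℝ (φ j)) 1) (s : ∀ j, Sb (h j) (φ j (x j)))
    (o : Oj m (fun j => φ j (x j)) (fun j => tb (h j)) μ) :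
    Oj m x (fun j => tb (pb (φ j) (h j))) μ := by
  have := oj_bil (Oj.comp hφ m (d.le (Nat.sub_le m 1)) o) d d
  rw [mul_one, mul_one] at this
  exact this.congr fun j => ((hφ j).continuousAt.eventually (s j).bl).mono fun _ e => tb_pb e

theorem oj_fd {φ : J → R4 → R4} (o : Oj (m + 1) x (fun j y => φ j y - y) μ) :
    (∀ j, ContDiffAt ℝ ∞ (φ j) (x j)) ∧
      Oj m x (fun j y => fderiv ℝ (φ j) y - ContinuousLinearMap.id ℝ R4) μ := by
  have s : ∀ j, ContDiffAt ℝ ∞ (φ j) (x j) := fun j => by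
    simpa using (o.sm j).add contDiffAt_id
  refine ⟨s, o.fd.congr fun j => (ev_dif (s j)).mono fun y hy => ?_⟩
  simp only [fderiv_fun_sub hy differentiableAt_fun_id, fderiv_fun_id]

theorem oj_fd1 {φ : J → R4 → R4} (o : Oj (m + 1) x (fun j y => φ j y - y) μ) (h1 : ∀ j, μ j ≤ 1) :
    Oj m x (fun j => fderiv ℝ (φ j)) 1 :=
  ((((oj_fd o).2.mono le_rfl h1).add (.cst (ContinuousLinearMap.id ℝ R4))).congr'
    fun _ _ => (sub_add_cancel _ _).symm :)

end family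

theorem rd_lip (x y : R4) : |rd x - rd y| ≤ 2 * ‖x - y‖ := by
  refine (abs_norm_sub_norm_le _ _).trans (le_of_sq_le_sq ?_ (by positivity))
  have h1 : |(x - y).2.1| ≤ ‖x - y‖ := (norm_fst_le (x - y).2).trans (norm_snd_le _)
  have h2 : |(x - y).2.2.1| ≤ ‖x - y‖ :=
    ((norm_fst_le (x - y).2.2).trans (norm_snd_le _)).trans (norm_snd_le _)
  have h3 : |(x - y).2.2.2| ≤ ‖x - y‖ :=
    ((norm_snd_le (x - y).2.2).trans (norm_snd_le _)).trans (norm_snd_le _)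
  have e : xs x - xs y = xs (x - y) := by ext i; fin_cases i <;> simp [xs]
  rw [e, show ‖xs (x - y)‖ ^ 2 = _ from P354YR.rd_sq (x - y)]
  nlinarith [sq_abs (x - y).2.1, sq_abs (x - y).2.2.1, sq_abs (x - y).2.2.2, abs_nonneg (x - y).2.1,
    abs_nonneg (x - y).2.2.1, abs_nonneg (x - y).2.2.2, sq_nonneg ‖x - y‖]

/-- The projection to t = 0. -/
def pr0 : R4 →L[ℝ] R4 := (ContinuousLinearMap.inr ℝ ℝ _).comp (.snd ℝ ℝ _)

theorem gin_pr (M a : ℝ) (y : R4) : gin M a (pr0 y) = gin M a y := rfl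

theorem gin_st (M a : ℝ) (x : R4) (t : ℝ) : gin M a (x + t • eT) = gin M a x := by
  rw [← gin_pr, ← gin_pr M a x]
  simp [pr0, eT]

theorem shell_cpt (r0 R2 : ℝ) : IsCompact {y : R4 | y.1 = 0 ∧ r0 ≤ rd y ∧ rd y ≤ R2} :=
  Metric.isCompact_of_isClosed_isBounded ((isClosed_eq continuous_fst continuous_const).inter
    ((isClosed_le continuous_const rd_cont).inter (isClosed_le rd_cont continuous_const)))
    (isBounded_iff_forall_norm_le.2 ⟨R2, fun y hy => (P354XA.norm_le y).trans (by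
      rw [hy.1, abs_zero, zero_add]; exact hy.2.2)⟩)

/-- The Kerr metrics have bounded jets in the parameters and the point. -/
theorem os_gin {J : Type} (M a : ℝ) {r0 : ℝ} (h0 : 0 < r0) (R2 : ℝ) (m : ℕ) :
    Os m (fun _ : J => {z : ℝ × ℝ × R4 | z.1 ∈ Icc (M - 1) (M + 1) ∧ z.2.1 ∈ Icc (a - 1) (a + 1) ∧
      r0 ≤ rd z.2.2 ∧ rd z.2.2 ≤ R2}) (fun _ z => tb (gin z.1 z.2.1) z.2.2) 1 := by
  let P : ℝ × ℝ × R4 →L[ℝ] ℝ × ℝ × R4 := (ContinuousLinearMap.id ℝ ℝ).prodMap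
    ((ContinuousLinearMap.id ℝ ℝ).prodMap pr0)
  refine Oj.comp (f := fun _ => P) (fun _ => P.contDiff.contDiffAt) m
    (G := fun _ z => tb (gin z.1 z.2.1) z.2.2) ((Oj.cst P).congr' fun _ _ => P.fderiv)
    (Oj.fix ((isCompact_Icc (a := M - 1) (b := M + 1)).prod
      ((isCompact_Icc (a := a - 1) (b := a + 1)).prod (shell_cpt r0 R2))) (fun z hz => ?_)
      fun j => mem_prod.2 ⟨j.2.1, mem_prod.2 ⟨j.2.2.1, rfl, j.2.2.2⟩⟩)
  exact ContDiffAt.sum fun _ _ => ContDiffAt.sum fun _ _ => (s_gin contDiffAt_snd.snd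
    (xs_ne (h0.trans_le hz.2.2.2.1)) contDiffAt_fst contDiffAt_snd.fst _ _).smul contDiffAt_const

/-- Pull back by a map close to the identity. -/
theorem pull_bd (N : ℕ) : ∃ C, 0 ≤ C ∧ ∀ (φ : R4 → R4) (h : Tw) (p : R4) (w : ℝ),
    ContDiffAt ℝ ∞ φ p → Jb (N + 1) (fun y => φ y - y) p 1 → Sb h (φ p) → Bd N h (φ p) w →
      Bd N (pb φ h) p (C * w) := by
  let J := {j : (R4 → R4) × Tw × R4 × ℝ // ContDiffAt ℝ ∞ j.1 j.2.2.1 ∧
    Jb (N + 1) (fun y => j.1 y - y) j.2.2.1 1 ∧ Sb j.2.1 (j.1 j.2.2.1) ∧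
    Bd N j.2.1 (j.1 j.2.2.1) j.2.2.2}
  have o : Oj (N + 1) (fun j : J => j.1.2.2.1) (fun j y => j.1.1 y - y) 1 :=
    .of (fun j => j.2.1.sub contDiffAt_id) fun j => j.2.2.1
  obtain ⟨C, c0, hC⟩ := bd_of_oj (fun j : J => j.2.2.2.1.pull j.2.1) (oj_pb (fun j => j.2.1)
    (oj_fd1 o fun _ => le_rfl) (fun j => j.2.2.2.1) (oj_of_bd (fun j => j.2.2.2.1) fun j => j.2.2.2.2))
  exact ⟨C, c0, fun φ h p w h1 h2 h3 h4 => hC ⟨(φ, h, p, w), h1, h2, h3, h4⟩⟩

/-- The pull back of a nearby Kerr metric by a map close to the identity. -/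
theorem pull_gin (M a : ℝ) {r0 : ℝ} (h0 : 0 < r0) (R2 : ℝ) (N : ℕ) : ∃ C, 0 ≤ C ∧
    ∀ (φ : R4 → R4) (M' a' : ℝ) (p : R4) (ε : ℝ), ContDiffAt ℝ ∞ φ p →
      Jb (N + 1) (fun y => φ y - y) p ε → ε ≤ 1 → 4 * ε ≤ r0 → |M' - M| ≤ ε → |a' - a| ≤ ε →
      r0 ≤ rd p → rd p ≤ R2 → Bd N (pb φ (gin M' a') - gin M a) p (C * ε) := by
  let J := {j : (R4 → R4) × ℝ × ℝ × R4 × ℝ // ContDiffAt ℝ ∞ j.1 j.2.2.2.1 ∧
    Jb (N + 1) (fun y => j.1 y - y) j.2.2.2.1 j.2.2.2.2 ∧ j.2.2.2.2 ≤ 1 ∧ 4 * j.2.2.2.2 ≤ r0 ∧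
    |j.2.1 - M| ≤ j.2.2.2.2 ∧ |j.2.2.1 - a| ≤ j.2.2.2.2 ∧ r0 ≤ rd j.2.2.2.1 ∧ rd j.2.2.2.1 ≤ R2}
  let x : J → R4 := fun j => j.1.2.2.2.1
  let μ : J → ℝ := fun j => j.1.2.2.2.2
  have s : ∀ j : J, ContDiffAt ℝ ∞ j.1.1 (x j) := fun j => j.2.1
  have o : Oj (N + 1) x (fun j y => j.1.1 y - y) μ :=
    .of (fun j => j.2.1.sub contDiffAt_id) fun j => j.2.2.1
  have d := oj_fd1 o fun j => j.2.2.2.1
  have nr : ∀ j : J, ∀ y, ‖y - x j‖ ≤ μ j → r0 / 2 ≤ rd y ∧ rd y ≤ R2 + 2 := fun j y hy => by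
    obtain ⟨-, -, h1, h2, -, -, h3, h4⟩ := j.2
    have := abs_le.1 (rd_lip y (x j))
    constructor <;> linarith [this.1, this.2]
  let f : J → R4 → ℝ × ℝ × R4 := fun j y => (j.1.2.1, j.1.2.2.1, j.1.1 y)
  let f' : J → R4 → ℝ × ℝ × R4 := fun _ y => (M, a, y)
  let I : R4 →L[ℝ] ℝ × ℝ × R4 := (ContinuousLinearMap.inr ℝ ℝ _).comp (.inr ℝ ℝ _)
  have sf : ∀ j, ContDiffAt ℝ ∞ (f j) (x j) := fun j =>
    contDiffAt_const.prodMk (contDiffAt_const.prodMk (s j))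
  have sf' : ∀ j, ContDiffAt ℝ ∞ (f' j) (x j) := fun j =>
    contDiffAt_const.prodMk (contDiffAt_const.prodMk contDiffAt_id)
  have df : Oj N x (fun j => fderiv ℝ (f j)) 1 := ((Oj.cst I).cl d).congr fun j =>
    (ev_dif (s j)).mono fun y hy => ((hasFDerivAt_const _ _).prodMk ((hasFDerivAt_const _ _).prodMk
      hy.hasFDerivAt)).fderiv.trans (by ext <;> simp [I])
  have df' : Oj N x (fun j => fderiv ℝ (f' j)) 1 := (Oj.cst I).congr' fun j y =>
    ((hasFDerivAt_const _ _).prodMk ((hasFDerivAt_const _ _).prodMk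
      (hasFDerivAt_id y))).fderiv.trans (by ext <;> simp [I])
  have dd : Oj N x (fun j y => f j y - f' j y) μ :=
    (Oj.const (v := fun j : J => j.1.2.1 - M) o.nn ⟨1, fun j => by
      simpa using j.2.2.2.2.2.1⟩).pair ((Oj.const (v := fun j : J => j.1.2.2.1 - a) o.nn
        ⟨1, fun j => by simpa using j.2.2.2.2.2.2.1⟩).pair o.pred)
  have seg : ∀ j, ∀ z ∈ segment ℝ (f j (x j)) (f' j (x j)), z.1 ∈ Icc (M - 1) (M + 1) ∧
      z.2.1 ∈ Icc (a - 1) (a + 1) ∧ r0 / 2 ≤ rd z.2.2 ∧ rd z.2.2 ≤ R2 + 2 := fun j z hz => by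
    have k : z ∈ Metric.closedBall (f' j (x j)) (μ j) := (convex_closedBall _ _).segment_subset
      (by
        rw [mem_closedBall_iff_norm]
        exact max_le j.2.2.2.2.2.1 (max_le j.2.2.2.2.2.2.1 j.2.2.1.zero))
      (Metric.mem_closedBall_self (o.nn j)) hz
    rw [mem_closedBall_iff_norm] at k
    have k1 := abs_le.1 (((norm_fst_le _).trans k).trans j.2.2.2.1)
    have k2 := abs_le.1 ((((norm_fst_le _).trans (norm_snd_le _)).trans k).trans j.2.2.2.1)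
    simp only [Prod.fst_sub, Prod.snd_sub, f'] at k1 k2
    exact ⟨⟨by linarith [k1.1], by linarith [k1.2]⟩, ⟨by linarith [k2.1], by linarith [k2.2]⟩,
      nr j _ (((norm_snd_le _).trans (norm_snd_le _)).trans k)⟩
  have G := fun m => os_gin (J := J) M a (half_pos h0) (R2 + 2) m
  have l1 := Oj.lip sf sf' seg N (df.le (Nat.sub_le N 1)) (df'.le (Nat.sub_le N 1)) dd (G _)
  have l2 := Oj.comp sf N (df.le (Nat.sub_le N 1))
    ((G N).at id fun j => seg j _ (left_mem_segment ℝ _ _))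
  have l3 := ((oj_bil l2 (oj_fd o).2 d).mono (ν := μ) le_rfl fun j => by simp).add
    ((oj_bil l2 (Oj.cst (ContinuousLinearMap.id ℝ R4)) (oj_fd o).2).mono le_rfl fun j => by simp)
  have p0 : ∀ j : J, 0 < rd (x j) := fun j => h0.trans_le j.2.2.2.2.2.2.2.1
  have p1 : ∀ j : J, 0 < rd (j.1.1 (x j)) := fun j => (half_pos h0).trans_le (nr j _ j.2.2.1.zero).1
  have sb : ∀ j : J, Sb (pb j.1.1 (gin j.1.2.1 j.1.2.2.1) - gin M a) (x j) := fun j =>
    ((sb_gin (p1 j)).pull (s j)).sub (sb_gin (p0 j))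
  obtain ⟨C, c0, hC⟩ := bd_of_oj sb ((l3.add (l1.mono le_rfl fun j => by simp)).congr
    fun j => (sb j).bl.mono fun y hy => ContinuousLinearMap.ext fun v =>
      ContinuousLinearMap.ext fun w => by
        simp only [tb_ap hy, Pi.sub_apply, pb, add_apply, sub_apply, ContinuousLinearMap.flip_apply,
          ContinuousLinearMap.comp_apply, map_sub, ContinuousLinearMap.id_apply, f, f',
          tb_ap (gin_bil _ _ _)]
        ring)
  exact ⟨C, c0, fun φ M' a' p ε h1 h2 h3 h4 h5 h6 h7 h8 =>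
    hC ⟨(φ, M', a', p, ε), h1, h2, h3, h4, h5, h6, h7, h8⟩⟩

end Vale.Agent.P354YO
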