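import Vale.Agent.P354YO.Fn
import Vale.Agent.P354XA.Far

/-!
The maps sh, and cut off functions.
-/

open scoped ContDiff
open Set Filter Topology

noncomputable section

namespace Vale.Agent.P354YO

open Vale.Agent.P354n (R4)
open Vale.Agent.P354XE
open Vale.Agent.P354XA (rd_cont rd_cd rd_eq ip)
open Vale.Agent.P354YI

variable {A B A' B' : ℝ → ℝ} {p : R4}

theorem rd_sh (A B : ℝ → ℝ) (p : R4) : rd (sh A B p) = rd p := by
  generalize e : sh A B p = q
  rw [rd_eq]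
  refine congrArg _ ?_
  simp only [← e, sh, ip]
  linear_combination (p.2.1 ^ 2 + p.2.2.1 ^ 2) * Real.sin_sq_add_cos_sq (B (rd p))

theorem sh_sh (A B A' B' : ℝ → ℝ) (p : R4) : sh A B (sh A' B' p) = sh (A + A') (B + B') p := by
  rw [sh, rd_sh]
  simp only [sh, Pi.add_apply, Real.cos_add, Real.sin_add]
  ext <;> simp only <;> ring

theorem sh_id (hA : A (rd p) = 0) (hB : B (rd p) = 0) : sh A B p = p := by
  simp [sh, hA, hB]

theorem sh_inv (A B : ℝ → ℝ) (p : R4) : sh (-A) (-B) (sh A B p) = p := by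
  rw [sh_sh]; exact sh_id (by simp) (by simp)

theorem sh_inv' (A B : ℝ → ℝ) (p : R4) : sh A B (sh (-A) (-B) p) = p := by
  rw [sh_sh]; exact sh_id (by simp) (by simp)

theorem rd_st (x : R4) (t : ℝ) : rd (x + t • eT) = rd x := by simp [rd, xs, eT]

theorem sh_st (A B : ℝ → ℝ) (x : R4) (t : ℝ) : sh A B (x + t • eT) = sh A B x + t • eT := by
  rw [sh, rd_st]
  simp [sh, eT]
  ring

/-- The map (c, phi, y) to (c, rotation of y by phi). -/
def shv (z : ℝ × ℝ × R4) : R4 :=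
  (z.1, Real.cos z.2.1 * z.2.2.2.1 - Real.sin z.2.1 * z.2.2.2.2.1,
    Real.sin z.2.1 * z.2.2.2.1 + Real.cos z.2.1 * z.2.2.2.2.1, z.2.2.2.2.2)

theorem shv_cd : ContDiff ℝ ∞ shv := by unfold shv; fun_prop

theorem sh_cd (h : rd p ≠ 0) (hA : ContDiffAt ℝ ∞ A (rd p)) (hB : ContDiffAt ℝ ∞ B (rd p)) :
    ContDiffAt ℝ ∞ (sh A B) p :=
  shv_cd.contDiffAt.comp p ((contDiffAt_fst.add (hA.comp p (rd_cd h))).prodMk
    ((hB.comp p (rd_cd h)).prodMk contDiffAt_id))

theorem sh_cont (hA : Continuous A) (hB : Continuous B) : Continuous (sh A B) :=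
  shv_cd.continuous.comp ((continuous_fst.add (hA.comp rd_cont)).prodMk
    ((hB.comp rd_cont).prodMk continuous_id))

theorem sh_inj (h : rd p ≠ 0) (hA : ContDiffAt ℝ ∞ A (rd p)) (hB : ContDiffAt ℝ ∞ B (rd p)) :
    Function.Injective (fderiv ℝ (sh A B) p) :=
  inj_of_left ((sh_cd h hA hB).differentiableAt (by simp))
    ((sh_cd (A := -A) (B := -B) (by rwa [rd_sh]) (by rw [rd_sh]; exact hA.neg)
      (by rw [rd_sh]; exact hB.neg)).differentiableAt (by simp)) (.of_forall (sh_inv A B))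

theorem pb_st {k : Tw} (st : ∀ x (t : ℝ), k (x + t • eT) = k x) (x : R4) (t : ℝ) :
    pb (sh A B) k (x + t • eT) = pb (sh A B) k x := by
  have e : fderiv ℝ (sh A B) (x + t • eT) = fderiv ℝ (sh A B) x := by
    rw [← fderiv_comp_add_right, funext (sh_st A B · t), fderiv_add_const]
  funext v w
  simp only [pb, e, sh_st, st]

section family
variable {J : Type} {x : J → R4} {μ : J → ℝ} {m : ℕ} {r1 R2 : ℝ}

theorem oj_st {V : Type} [NormedAddCommGroup V] [NormedSpace ℝ V] {F : R4 → V} (h1 : 0 < r1)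
    (hx : ∀ j, r1 ≤ rd (x j) ∧ rd (x j) ≤ R2) (hF : ∀ y, 0 < rd y → ContDiffAt ℝ ∞ F y) :
    Oj m x (fun _ y => F (pr0 y)) 1 :=
  Oj.comp (f := fun _ => pr0) (fun _ => pr0.contDiff.contDiffAt) m (G := fun _ => F)
    ((Oj.cst pr0).congr' fun _ _ => pr0.fderiv)
    (Oj.fix (shell_cpt r1 R2) (fun y hy => hF y (h1.trans_le hy.2.1)) fun j => ⟨rfl, hx j⟩)

theorem oj_rad {F : J → ℝ → ℝ} (h1 : 0 < r1) (hx : ∀ j, r1 ≤ rd (x j) ∧ rd (x j) ≤ R2)
    (h : Oj m (fun j => rd (x j)) F μ) : Oj m x (fun j y => F j (rd y)) μ :=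
  Oj.comp (f := fun _ => rd) (fun j => rd_cd (h1.trans_le (hx j).1).ne') m
    ((oj_st (m := m - 1 + 1) (F := rd) h1 hx fun _ hy => rd_cd hy.ne').fd) h

theorem oj_sh {F G : J → ℝ → ℝ} (h1 : 0 < r1) (hx : ∀ j, r1 ≤ rd (x j) ∧ rd (x j) ≤ R2)
    (hF : Oj (m + 1) (fun j => rd (x j)) F μ) (hG : Oj (m + 1) (fun j => rd (x j)) G μ)
    (hμ : ∀ j, μ j ≤ 1) : Oj (m + 1) x (fun j y => sh (F j) (G j) y - y) μ := by
  obtain ⟨C, c0, hC⟩ := hF.val
  obtain ⟨D, d0, hD⟩ := hG.val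
  have a := oj_rad h1 hx hF
  have b := oj_rad h1 hx hG
  have c : Oj (m + 1) x (fun _ y => pr0 y) 1 := oj_st (F := id) h1 hx fun _ _ => contDiffAt_id
  have f := (a.mono le_rfl hμ).pair ((b.mono le_rfl hμ).pair c)
  have f' := (Oj.cst (0 : ℝ)).pair ((Oj.cst (0 : ℝ)).pair c)
  have K := (isCompact_closedBall (0 : ℝ × ℝ × R4) (C + D + |R2|))
  have := Oj.lip (μ := μ) f.sm f'.sm (S := fun _ => Metric.closedBall 0 (C + D + |R2|))
    (ν := 1) (fun j => ?_) (m + 1) (G := fun _ => shv) f.fd f'.fd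
    ((a.pair (b.pair (Oj.const (v := fun _ => (0 : R4)) a.nn ⟨0, by simp⟩))).congr' (by simp))
    (Oj.fix K (fun _ _ => shv_cd.contDiffAt) fun j => j.2)
  · rw [one_mul] at this
    exact this.congr' fun j y => by simp [sh, shv, pr0]; ext <;> simp
  · have n : ‖pr0 (x j)‖ ≤ |R2| := (P354XA.norm_le _).trans (by
      rw [show (pr0 (x j)).1 = 0 from rfl, abs_zero, zero_add]
      exact (hx j).2.trans (le_abs_self _))
    have k1 := (hC j).trans (mul_le_of_le_one_right c0 (hμ j))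
    have k2 := (hD j).trans (mul_le_of_le_one_right d0 (hμ j))
    have := abs_nonneg R2
    refine (convex_closedBall _ _).segment_subset ?_ ?_ <;>
      simp only [mem_closedBall_zero_iff, Prod.norm_def, max_le_iff, norm_zero] at n ⊢ <;>
      refine ⟨by linarith, by linarith, by linarith [n.1], by linarith [n.2.1],
        by linarith [n.2.2.1], by linarith [n.2.2.2]⟩

end family

end Vale.Agent.P354YO
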