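import Vale.Agent.P354YO.Ob
import Vale.Agent.P354YA.Ext
import Vale.Agent.P354YI.Defs
import Vale.Agent.P354Z.Est
import Vale.Agent.P354YK.Met

/-!
The output: exact statements. The final chart of an end, the metric near Kerr from the frame
components, the estimates far out.
-/

open scoped ContDiff
open Set Filter Topology

noncomputable section

namespace Vale.Agent.P354YO

open Vale.Agent.P354n (R4)
open Vale.Agent.P354I (rm rp)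
open Vale.Agent.P354XE
open Vale.Agent.P354XV (Lv)
open Vale.Agent.P354YI (Jb)
open Vale.Agent.P354YA (La End0)

/-- A shift of the time and a rotation about the axis by functions of the radius. -/
def sh (A B : ℝ → ℝ) (p : R4) : R4 :=
  (p.1 + A (rd p), Real.cos (B (rd p)) * p.2.1 - Real.sin (B (rd p)) * p.2.2.1,
    Real.sin (B (rd p)) * p.2.1 + Real.cos (B (rd p)) * p.2.2.1, p.2.2.2)

/-- The data of the final chart: g on Om is the solution in the first chart, b on O is the second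
chart for the initial parameters, b after sh A B the second chart for the final parameters. -/
structure Fd where
  g : Tw
  Om : Set R4
  O : Set R4
  b : R4 → R4
  A : ℝ → ℝ
  B : ℝ → ℝ
  M : ℝ
  a : ℝ
  be : Fin 3 → R4 → ℝ

structure Fn (M a r0 r1 θ θ1 R t1 s δ ε : ℝ) (N : ℕ) (gc : Tw) (d : Fd) : Prop where
  lv : Lv d.g d.Om
  par : |d.M - M| ≤ ε ∧ |d.a - a| ≤ ε
  op : IsOpen d.O
  loc : ∀ p ∈ d.O, ContDiffAt ℝ ∞ d.b p ∧ Function.Injective (fderiv ℝ d.b p) ∧ d.b p ∈ d.Om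
  dom : ∀ p, (r1 < rd p ∧ rd p ≤ R + 2 ∧ t1 - 2 ≤ p.1) ∨ (p ∈ En M a r1 θ ∧ R ≤ rd p) → p ∈ d.O
  sm : ContDiff ℝ ∞ d.A ∧ ContDiff ℝ ∞ d.B
  shift : ∀ r ∈ Icc r1 (R + 2), Jb (N + 2) d.A r ε ∧ Jb (N + 2) d.B r ε
  early : ∀ p, r0 ≤ rd p → rd p ≤ R + 3 → (p ∈ En M a r1 θ ∧ p.1 ≤ t1) ∨ |p.1 - t1| ≤ 3 →
    p ∈ d.Om ∧ Bd (N + 1) (d.g - gin M a) p ε
  mid : ∀ p, r1 < rd p → rd p ≤ R + 2 → |p.1 - t1| ≤ 2 → Jb (N + 2) (fun y => d.b y - y) p ε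
  late : ∀ p, r1 < rd p → rd p ≤ R + 2 → t1 ≤ p.1 →
    Bd (N + 1) (pb (d.b ∘ sh d.A d.B) d.g - gin d.M d.a) p (ε * (1 + |p.1|) ^ (-s))
  far : ∀ p ∈ En M a r1 θ, R + 1 ≤ rd p → Far M a s δ ε N (pb d.b d.g) d.be p
  idn : ∀ p ∈ En M a r1 θ, R ≤ rd p → p.1 ≤ t1 + 1 ∨ p ∈ La M a r1 θ θ1 → d.b =ᶠ[𝓝 p] id
  cor : ∀ p ∈ La M a r1 θ θ1, d.g =ᶠ[𝓝 p] gc ∧ (rd p ≤ R + 1 → p.1 < t1 - 1)

/-- OUTA: the final chart. -/
def OUTA : Prop :=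
  ∀ (M a r0 r1 θ θ1 R t1 s δ : ℝ) (N : ℕ), |a| < M → rm M a < r0 → r0 < r1 → 0 < θ → rp M a < R →
    0 ≤ s → ∀ ε > 0, ∃ ε' > 0, ∀ gc d, Fn M a r0 r1 θ θ1 R t1 s δ ε' N gc d →
      ∃ W g Y, End0 M a r1 θ θ1 R s δ ε N gc W g Y

/-- OUTL: the estimates far out in the layer above the initial slice. -/
def OUTL : Prop :=
  ∀ (M a s δ : ℝ) (N : ℕ), |a| < M → s ≤ 2 → 0 ≤ s → δ ≤ 1 → ∃ R0 C, ∀ (g : Tw) β p e, e ≤ 1 →
    R0 ≤ rd p → |ur M a p| ≤ 2 * rd p → Sb g p → (∀ᶠ x in 𝓝 p, ∀ v w, g x v w = g x w v) →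
    (∀ᶠ x in 𝓝 p, ∀ v, g x (Lo M a x) v = gin M a x (Lo M a x) v) →
    P354YI.Sm (N + 2) e (g - gin M a) p → (∀ i, ContDiffAt ℝ ∞ (β i) p) →
    (∀ i, Wb M a (N + 2) (β i) p (e / rd p ^ 2) (e / rd p ^ 3)) → Far M a s δ (C * e) N g β p

section est
open Vale.Agent.P354XG Vale.Agent.P354XD Vale.Agent.P354XR Vale.Agent.P354XI Vale.Agent.P354Z
open Vale.Agent.P354YK (out oth gO)

/-- sh A B maps the chart of the estimates to the ingoing chart of (M, a). -/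
def IsTh (M0 M a : ℝ) (A B : ℝ → ℝ) : Prop :=
  ∀ r, HasDerivAt A (hs M0 (M, a, r) - 1) r ∧ HasDerivAt B (2 * js M0 (M, a, r)) r

/-- OUTB: the frame components determine the metric. -/
def OUTB : Prop :=
  ∀ (M0 a0 r1 ρ : ℝ) (N : ℕ), |a0| < M0 → 0 < r1 → ∃ w0 > 0, ∃ C, ∀ (O : Set E6) (g : Tw)
    (F : Fr (Sm (on O))) (M a : ℝ) A B (x : E6) (w : ℝ), Cone O → (∀ y ∈ O, VacAt g (pj y)) →
    F.WN (ge O g) → |M - M0| + |a - a0| ≤ w0 → IsTh M0 M a A B → x ∈ O → nq x = 1 →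
    r1 ≤ x.2.1 → x.2.1 ≤ ρ → 0 ≤ w → w ≤ w0 →
    (∀ i, q2 (lt (hp _) (pI O M0 M a)) x N (dat (hp _) (pI O M0 M a) (F.ghp (ge O g)) (.inl i) -
      dat (hp _) (pI O M0 M a) (kI O M0 M a).kerr (.inl i)) ≤ w ^ 2) →
    Bd N (P354XE.pb (sh (-A) (-B)) g - gin M a) (sh A B (pj x)) (C * w)

/-- The far zone: the cone, the metric, the frame and the final parameters. -/
structure Fz where
  O : Set E6
  g : Tw
  F : Fr (Sm (on O))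
  M : ℝ
  a : ℝ

namespace Fz
variable (z : Fz) (M0 a0 : ℝ)

abbrev A : Type := Sm (on z.O)
def G : GHP z.A := z.F.ghp (ge z.O z.g)
def r : z.A := (hp _).z 1
def ri : z.A := (hp _).ri
def T : Der z.A := (hp _).d 0
def R : Der z.A := (kO z.O M0 z.M z.a).R
def Om (i : Fin 3) : Der z.A := P354XR.Om (hp _) i

/-- The differences to Kerr (d2 of the state), and the letters. -/
def d (i : (Fin 4 × Fin 6) ⊕ Fin 13) : z.A :=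
  dat (hp _) (pO z.O M0 z.M z.a) z.G i - dat (hp _) (pO z.O M0 z.M z.a) (out (kO z.O M0 z.M z.a)) i
def lr : Fin 5 → Der z.A := ![z.T, z.r • z.R M0, z.Om 0, z.Om 1, z.Om 2]

/-- The metric, and the Kerr metric with the parameters (M, a), on two fields. -/
def gg (Y Z : Der z.A) : z.A := 2 * (ge z.O z.g).dot ((hp _).prj Y) ((hp _).prj Z)
def gk (M a : ℝ) (Y Z : Der z.A) : z.A :=
  2 * ((hp _).geo (gO (hp _) (pO z.O M0 M a)) fun _ _ _ => 0).dot ((hp _).prj Y) ((hp _).prj Z)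

structure Is0 : Prop where
  co : Cone z.O
  rad : ∀ x ∈ z.O, 6 * M0 ≤ x.2.1
  vac : ∀ x ∈ z.O, VacAt z.g (pj x)
  RR : z.gg (z.R M0) (z.R M0) = 0
  RT : z.gg (z.R M0) z.T = -1

structure Is : Prop extends z.Is0 M0 where
  wn : z.F.WN (ge z.O z.g)
  th : z.G.th = oth (kO z.O M0 z.M z.a)
  ka : z.G.ka = 0
  ta : z.G.ta' = (kO z.O M0 z.M z.a).ta2
  unit : IsUnit (dat (hp _) (pO z.O M0 z.M z.a) z.G (.inl (1, 0)))

/-- Bounds of the words, of the words of the time derivative, and the class g. -/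
def Wq (n : ℕ) (x : E6) (f : z.A) (c c' : ℝ) : Prop :=
  q2 (z.lr M0) x n f ≤ c ^ 2 ∧ q2 (z.lr M0) x n (z.T f) ≤ c' ^ 2
def Gq (n : ℕ) (x : E6) (f : z.A) (c c' : ℝ) : Prop :=
  q2 (z.lr M0) x n f ≤ c ^ 2 ∧ q2 (z.lr M0) x n (z.r * f) ≤ c' ^ 2

/-- The tables at the point x. -/
structure Tab (n : ℕ) (x : E6) (e α γ : ℝ) : Prop where
  b : ∀ k ≠ 1, q2 (z.lr M0) x n (z.d M0 (.inl (1, k))) ≤ (e * α) ^ 2
  b1 : q2 (z.lr M0) x n (z.ri * z.d M0 (.inl (1, 1))) ≤ (e * α) ^ 2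
  kb : q2 (z.lr M0) x n (z.d M0 (.inr 4)) ≤ (e * α) ^ 2
  g : ∀ k ≥ 2, z.Gq M0 n x (z.d M0 (.inl (2, k))) (e * α) (e * γ)
  g1 : z.Gq M0 n x (z.ri * z.d M0 (.inl (2, 1))) (e * α) (e * γ)
  gs : ∀ k, k = 3 ∨ k = 5 ∨ k = 6 → z.Gq M0 n x (z.d M0 (.inr k)) (e * α) (e * γ)
  la : ∀ i, z.Wq M0 n x (z.gg (z.R M0) (z.Om i) - z.gk M0 z.M z.a (z.R M0) (z.Om i)) e (e * α)

def Nd (β : Fin 3 → z.A) : Der z.A := z.T + ∑ i, β i • z.Om i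
def ft (β : Fin 3 → z.A) : z.A := z.gg (z.Nd β) (z.Nd β) - z.gk M0 M0 a0 z.T z.T

/-- The estimates of P354XE.Far in the chart of the estimates. -/
structure FarE (n : ℕ) (β : Fin 3 → z.A) (x : E6) (e α γ : ℝ) : Prop where
  la : ∀ i, z.Wq M0 n x (z.gg (z.R M0) (z.Om i) - z.gk M0 M0 a0 (z.R M0) (z.Om i)) e (e * α)
  shift : ∀ i, z.Wq M0 n x (β i) (e * α) (e * α) ∧
    z.Wq M0 n x (z.r * z.lr M0 1 (β i)) (e * γ) (e * γ)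
  tt : z.Wq M0 n x (z.ft M0 a0 β) (e * (1 + x.2.1 * α)) (e * (x.2.1 * α))
  tt' : ∀ i ≠ 0, z.Wq M0 n x (z.lr M0 i (z.ft M0 a0 β)) (e * (γ + x.2.1 * α)) (e * (x.2.1 * α))
  ta : ∀ i, z.Wq M0 n x (z.ri * (z.gg (z.Nd β) (z.Om i) - z.gk M0 M0 a0 z.T (z.Om i))) (e * γ)
    (e * α)
  aa : ∀ i j, z.Wq M0 n x (z.ri * z.ri * (z.gg (z.Om i) (z.Om j) -
    z.gk M0 M0 a0 (z.Om i) (z.Om j))) e (e * α)

end Fz

/-- OUTC: the tables give the estimates of the metric. -/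
def OUTC : Prop :=
  ∀ (M0 a0 : ℝ) (N : ℕ), |a0| < M0 → ∃ e0 > 0, ∃ C, ∀ z : Fz, z.Is M0 → ∃ β : Fin 3 → z.A,
    (∀ i, Base (β i)) ∧ ∀ x ∈ z.O, nq x = 1 → ∀ e ∈ Icc 0 e0, |z.M - M0| + |z.a - a0| ≤ e →
      (∀ α γ, 0 ≤ α → α ≤ γ → γ ≤ 2 → x.2.1⁻¹ ≤ γ → z.Tab M0 (N + 3) x e α γ →
        z.FarE M0 a0 N β x (C * e) α γ) ∧
      ((∀ k ≠ 1, q2 (ll (hp _) (pO z.O M0 z.M z.a)) x (N + 3) (z.d M0 (.inl (1, k))) ≤
        (e / x.2.1 ^ 2) ^ 2) → ∀ i, z.Wq M0 (N + 2) x (β i) (C * e / x.2.1 ^ 2) (C * e / x.2.1 ^ 3))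

/-- TRF: the transfer to the final chart. -/
def TRF : Prop :=
  ∀ (M0 a0 s δ : ℝ) (N : ℕ), |a0| < M0 → δ ≤ s → ∃ C, ∀ (z : Fz) A B (β : Fin 3 → z.A), z.Is0 M0 →
    IsTh M0 M0 a0 A B → (∀ i, Base (β i)) → ∃ β' : Fin 3 → R4 → ℝ, ∀ x ∈ z.O, nq x = 1 →
      (∀ i, ContDiffAt ℝ ∞ (β' i) (sh A B (pj x))) ∧ ∀ e ≥ 0,
      (z.FarE M0 a0 N β x e (uw M0 a0 (sh A B (pj x)) ^ (-s)) (wt M0 a0 δ (sh A B (pj x))) →
        Far M0 a0 s δ (C * e) N (P354XE.pb (sh (-A) (-B)) z.g) β' (sh A B (pj x))) ∧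
      ((∀ i, z.Wq M0 (N + 2) x (β i) (e / x.2.1 ^ 2) (e / x.2.1 ^ 3)) → ∀ i,
        Wb M0 a0 (N + 2) (β' i) (sh A B (pj x)) (C * e / x.2.1 ^ 2) (C * e / x.2.1 ^ 3))

end est

end Vale.Agent.P354YO
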