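import Vale.Agent.P354YO.Sh

/-!
The final chart: the map and the estimates for r ≤ R + 2.
-/

open scoped ContDiff
open Set Filter Topology

noncomputable section

namespace Vale.Agent.P354YO

open Vale.Agent.P354n (R4)
open Vale.Agent.P354I (rm rp)
open Vale.Agent.P354R (Pull)
open Vale.Agent.P354RC (k2)
open Vale.Agent.P354XE
open Vale.Agent.P354XV (Lv)
open Vale.Agent.P354XA (rd_cont rd_cd hor met_bil)
open Vale.Agent.P354YI

variable {g k : Tw} {D D' : Set R4} {p : R4} {f φ : R4 → R4}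

theorem lv_pull (l : Lv g D) (o : IsOpen D') (sm : ContDiffOn ℝ ∞ f D') (mp : MapsTo f D' D)
    (inj : ∀ p ∈ D', Function.Injective (fderiv ℝ f p)) : Lv (pb f g) D' := by
  have P : Pull f (pb f g) D' g D := ⟨o, l.isOpen, l.met, sm, mp, inj, fun _ _ _ _ => rfl⟩
  refine ⟨o, k2.1 _ _ _ _ _ P, k2.2.1 _ _ _ _ _ P l.vac, fun p hp => ?_⟩
  obtain ⟨L, k1, k2, k3⟩ := l.sig _ (mp hp)
  exact ⟨fun v => L (fderiv ℝ f p v), ⟨fun a b => by rw [map_add, k1.map_add],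
    fun a b => by rw [map_smul, k1.map_smul]⟩, k2.comp (inj p hp), fun v w => k3 _ _⟩

theorem sb_lv (h : Lv g D) (hp : p ∈ D) : Sb g p :=
  ⟨mem_of_superset (h.isOpen.mem_nhds hp) fun _ hy => met_bil h.met hy,
    fun v w => (h.met.smooth v w).contDiffAt (h.isOpen.mem_nhds hp)⟩

theorem pb_id (g : Tw) : pb id g = g := by
  funext p v w; simp [pb]

theorem pb_sub (f : R4 → R4) (g k : Tw) : pb f (g - k) = pb f g - pb f k := rfl

theorem pb_map (h : f =ᶠ[𝓝 p] φ) : pb f g =ᶠ[𝓝 p] pb φ g :=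
  (h.and (h.fderiv (𝕜 := ℝ))).mono fun x hx => by
    funext v w
    rw [pb, pb, show f x = φ x from hx.1, show fderiv ℝ f x = fderiv ℝ φ x from hx.2]

theorem pb_comp (hφ : ContDiffAt ℝ ∞ φ p) (hf : ContDiffAt ℝ ∞ f (φ p)) :
    pb (f ∘ φ) g =ᶠ[𝓝 p] pb φ (pb f g) :=
  (fd_comp hf hφ).mono fun x hx => by
    funext v w
    simp only [pb, show fderiv ℝ (f ∘ φ) x = _ from hx, Function.comp_apply,
      ContinuousLinearMap.comp_apply]

theorem inj_near {c : ℝ} {m : ℕ} (hf : ContDiffAt ℝ ∞ f p) (h : Jb (m + 1) (fun y => f y - y) p c)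
    (hc : c < 1) : Function.Injective (fderiv ℝ f p) := by
  refine (injective_iff_map_eq_zero _).2 fun v hv => ?_
  have k := (fderiv ℝ (fun y => f y - y) p).le_of_opNorm_le h.fd.zero v
  rw [fderiv_fun_sub (hf.differentiableAt (by simp)) differentiableAt_fun_id, fderiv_fun_id] at k
  simp only [sub_apply, hv, ContinuousLinearMap.id_apply, zero_sub,
    norm_neg] at k
  exact norm_le_zero_iff.1 (by nlinarith [norm_nonneg v])

/-- The cut off functions. -/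
def ct (t1 t : ℝ) : ℝ := Real.smoothTransition (t - t1 + 1)
def cr (R r : ℝ) : ℝ := Real.smoothTransition (2 * (R - r) + 3 / 2)

theorem ct_cd (t1 : ℝ) : ContDiff ℝ ∞ (ct t1) :=
  Real.smoothTransition.contDiff.comp (by fun_prop)
theorem cr_cd (R : ℝ) : ContDiff ℝ ∞ (cr R) := Real.smoothTransition.contDiff.comp (by fun_prop)
theorem ct_zero {t1 t : ℝ} (h : t ≤ t1 - 1) : ct t1 t = 0 :=
  Real.smoothTransition.zero_of_nonpos (by linarith)
theorem ct_one {t1 t : ℝ} (h : t1 ≤ t) : ct t1 t = 1 :=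
  Real.smoothTransition.one_of_one_le (by linarith)
theorem cr_zero {R r : ℝ} (h : R + 3 / 4 ≤ r) : cr R r = 0 :=
  Real.smoothTransition.zero_of_nonpos (by linarith)
theorem cr_one {R r : ℝ} (h : r ≤ R + 1 / 4) : cr R r = 1 :=
  Real.smoothTransition.one_of_one_le (by linarith)
theorem cr_mem (R r : ℝ) : 0 ≤ cr R r ∧ cr R r ≤ 1 :=
  ⟨Real.smoothTransition.nonneg _, Real.smoothTransition.le_one _⟩

theorem sh_small {r1 : ℝ} (h1 : 0 < r1) (R2 : ℝ) (m : ℕ) {c : ℝ → ℝ} (hc : ContDiff ℝ ∞ c) :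
    ∃ C, 0 ≤ C ∧ ∀ (A B : ℝ → ℝ) (p : R4) (ε : ℝ), ContDiff ℝ ∞ A → ContDiff ℝ ∞ B → ε ≤ 1 →
      r1 ≤ rd p → rd p ≤ R2 → Jb (m + 1) A (rd p) ε → Jb (m + 1) B (rd p) ε →
      Jb (m + 1) (fun y => sh (c * A) (c * B) y - y) p (C * ε) := by
  let J := {j : (ℝ → ℝ) × (ℝ → ℝ) × R4 × ℝ // ContDiff ℝ ∞ j.1 ∧ ContDiff ℝ ∞ j.2.1 ∧
    j.2.2.2 ≤ 1 ∧ (r1 ≤ rd j.2.2.1 ∧ rd j.2.2.1 ≤ R2) ∧ Jb (m + 1) j.1 (rd j.2.2.1) j.2.2.2 ∧
    Jb (m + 1) j.2.1 (rd j.2.2.1) j.2.2.2}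
  have o : Oj (m + 1) (fun j : J => rd j.1.2.2.1) (fun _ => c) 1 :=
    .fix (isCompact_Icc (a := r1) (b := R2)) (fun _ _ => hc.contDiffAt) fun j => j.2.2.2.2.1
  obtain ⟨C, c0, hC⟩ := (oj_sh (x := fun j : J => j.1.2.2.1) h1 (fun j => j.2.2.2.2.1)
    (o.smulr (.of (fun j => j.2.1.contDiffAt) fun j => j.2.2.2.2.2.1))
    (o.smulr (.of (fun j => j.2.2.1.contDiffAt) fun j => j.2.2.2.2.2.2)) fun j => j.2.2.2.1).bd
  exact ⟨C, c0, fun A B p ε a1 a2 a3 a4 a5 a6 a7 => hC ⟨(A, B, p, ε), a1, a2, a3, ⟨a4, a5⟩, a6, a7⟩⟩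

theorem mid_small (t1 : ℝ) (m : ℕ) : ∃ C, 0 ≤ C ∧ ∀ (b S : R4 → R4) (p : R4) (ε : ℝ), ε ≤ 1 →
    ContDiffAt ℝ ∞ S p → ContDiffAt ℝ ∞ b (S p) → |p.1 - t1| ≤ 1 →
    Jb (m + 1) (fun y => S y - y) p ε → Jb (m + 1) (fun y => b y - y) (S p) ε →
    Jb (m + 1) (fun y => y + ct t1 y.1 • (b (S y) - y) - y) p (C * ε) := by
  let J := {j : (R4 → R4) × (R4 → R4) × R4 × ℝ // j.2.2.2 ≤ 1 ∧ ContDiffAt ℝ ∞ j.2.1 j.2.2.1 ∧
    ContDiffAt ℝ ∞ j.1 (j.2.1 j.2.2.1) ∧ |j.2.2.1.1 - t1| ≤ 1 ∧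
    Jb (m + 1) (fun y => j.2.1 y - y) j.2.2.1 j.2.2.2 ∧
    Jb (m + 1) (fun y => j.1 y - y) (j.2.1 j.2.2.1) j.2.2.2}
  have oS : Oj (m + 1) (fun j : J => j.1.2.2.1) (fun j y => j.1.2.1 y - y) fun j => j.1.2.2.2 :=
    .of (fun j => j.2.2.1.sub contDiffAt_id) fun j => j.2.2.2.2.2.1
  have ob := Oj.comp (fun j : J => j.2.2.1) (m + 1) (G := fun j y => j.1.1 y - y)
    (oj_fd1 oS fun j => j.2.1) (.of (fun j => j.2.2.2.1.sub contDiffAt_id) fun j => j.2.2.2.2.2.2)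
  have oc := Oj.comp (x := fun j : J => j.1.2.2.1) (f := fun _ => Prod.fst)
    (fun _ => contDiffAt_fst) (m + 1) (G := fun _ => ct t1)
    ((Oj.cst (ContinuousLinearMap.fst ℝ ℝ (ℝ × ℝ × ℝ))).congr' fun _ _ => fderiv_fst)
    (.fix (isCompact_Icc (a := t1 - 1) (b := t1 + 1)) (fun _ _ => (ct_cd t1).contDiffAt)
      fun j => ⟨by linarith [(abs_le.1 j.2.2.2.2.1).1], by linarith [(abs_le.1 j.2.2.2.2.1).2]⟩)
  obtain ⟨C, c0, hC⟩ := ((oc.smulr (ob.add oS)).congr' (g := fun j y =>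
    y + ct t1 y.1 • (j.1.1 (j.1.2.1 y) - y) - y) fun j y => by simp).bd
  exact ⟨C, c0, fun b S p ε a1 a2 a3 a4 a5 a6 => hC ⟨(b, S, p, ε), a1, a2, a3, a4, a5, a6⟩⟩

namespace Fd
variable (d : Fd) (R t1 : ℝ)

/-- The final chart, the metric in it, and the set where the chart is smooth. -/
def S : R4 → R4 := sh (cr R * d.A) (cr R * d.B)
def ff (x : R4) : R4 := x + ct t1 x.1 • (d.b (d.S R x) - x)
def gf : Tw := pb (d.ff R t1) d.g
def U : Set R4 := {x | 0 < rd x ∧ (x.1 < t1 - 1 ∨ d.S R x ∈ d.O)}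

variable {d R t1}

theorem f_early (h : p.1 < t1 - 1) : d.ff R t1 =ᶠ[𝓝 p] id :=
  (continuousAt_fst.eventually_lt continuousAt_const h).mono fun x hx => by
    simp [ff, ct_zero hx.le]

theorem f_late (h : t1 < p.1) : d.ff R t1 =ᶠ[𝓝 p] d.b ∘ d.S R :=
  (continuousAt_const.eventually_lt continuousAt_fst h).mono fun x hx => by
    simp [ff, ct_one hx.le]

theorem S_far (h : R + 1 ≤ rd p) : d.S R =ᶠ[𝓝 p] id :=
  (continuousAt_const.eventually_lt rd_cont.continuousAt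
    (show R + 3 / 4 < rd p by linarith)).mono fun x hx =>
      sh_id (by simp [cr_zero hx.le]) (by simp [cr_zero hx.le])

end Fd

variable {M a r0 r1 θ θ1 R t1 s δ ε : ℝ} {N : ℕ} {gc : Tw} {d : Fd}

namespace Fn
variable (F : Fn M a r0 r1 θ θ1 R t1 s δ ε N gc d)
include F

theorem S_cd (h : 0 < rd p) : ContDiffAt ℝ ∞ (d.S R) p :=
  sh_cd h.ne' ((cr_cd R).mul F.sm.1).contDiffAt ((cr_cd R).mul F.sm.2).contDiffAt

theorem U_open : IsOpen (d.U R t1) :=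
  (isOpen_lt continuous_const rd_cont).inter ((isOpen_lt continuous_fst continuous_const).union
    (F.op.preimage (sh_cont ((cr_cd R).mul F.sm.1).continuous ((cr_cd R).mul F.sm.2).continuous)))

theorem f_cd (h : p ∈ d.U R t1) : ContDiffAt ℝ ∞ (d.ff R t1) p :=
  h.2.elim (fun k => contDiffAt_id.congr_of_eventuallyEq (Fd.f_early k)) fun k =>
    contDiffAt_id.add (((ct_cd t1).contDiffAt.comp p contDiffAt_fst).smul
      (((F.loc _ k).1.comp p (F.S_cd h.1)).sub contDiffAt_id))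

theorem f_far (hp : p ∈ En M a r1 θ) (h : R + 1 ≤ rd p) : d.ff R t1 =ᶠ[𝓝 p] d.b := by
  rcases le_or_gt p.1 (t1 + 1) with k | k
  · filter_upwards [F.idn p hp (by linarith) (.inl k), Fd.S_far (d := d) h] with x h1 h2
    simp [Fd.ff, h1, h2]
  · filter_upwards [Fd.f_late (d := d) (R := R) (show t1 < p.1 by linarith), Fd.S_far (d := d) h]
      with x h1 h2
    simp [h1, h2]

theorem time {c : ℝ → ℝ} (h1 : r1 < rd p) (h2 : rd p ≤ R + 2) (hc : |c (rd p)| ≤ 1) :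
    |(sh (c * d.A) (c * d.B) p).1 - p.1| ≤ ε := by
  have := (F.shift _ ⟨h1.le, h2⟩).1.zero
  simp only [sh, add_sub_cancel_left, Pi.mul_apply, abs_mul]
  exact (mul_le_of_le_one_left (abs_nonneg _) hc).trans this

theorem S_mem (e : ε ≤ 1) (h1 : r1 < rd p) (h2 : rd p ≤ R + 2) (h3 : t1 - 1 ≤ p.1) :
    d.S R p ∈ d.O := by
  have := abs_le.1 (F.time (c := cr R) h1 h2 (abs_le.2 ⟨by linarith [cr_mem R (rd p)], (cr_mem _ _).2⟩))
  exact F.dom _ (.inl ⟨by rwa [Fd.S, rd_sh], by rwa [Fd.S, rd_sh], by rw [Fd.S]; linarith⟩)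

end Fn

/-- The conclusions for r ≤ R + 2, with a stationary field k. -/
structure Nr (M a R t1 : ℝ) (N : ℕ) (d : Fd) (p : R4) (c w : ℝ) : Prop where
  U : p ∈ d.U R t1
  mem : d.ff R t1 p ∈ d.Om
  inj : Function.Injective (fderiv ℝ (d.ff R t1) p)
  bd : Bd N (d.gf R t1 - gin M a) p c
  dt : Bd N (fun x v w => fderiv ℝ (fun x => d.gf R t1 x v w) x eT) p w
  cv : rd p ≤ R → Bd N (d.gf R t1 - gin d.M d.a) p w

theorem ff_small (M a R t1 : ℝ) (N : ℕ) (h1 : 0 < r1) : ∃ K, 1 ≤ K ∧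
    ∀ {r0 θ θ1 s δ ε gc d p}, Fn M a r0 r1 θ θ1 R t1 s δ ε N gc d → K * ε ≤ 1 → r1 < rd p →
      rd p ≤ R + 2 → p.1 ≤ t1 + 1 → Jb (N + 2) (fun y => d.ff R t1 y - y) p (K * ε) := by
  obtain ⟨C1, c1, H1⟩ := sh_small h1 (R + 2) (N + 1) (cr_cd R)
  obtain ⟨C2, c2, H2⟩ := mid_small t1 (N + 1)
  refine ⟨(C2 + 1) * (C1 + 1), by nlinarith [mul_nonneg c1 c2],
    fun {r0 θ θ1 s δ ε gc d p} F e hp h2 h3 => ?_⟩
  have e0 : 0 ≤ ε := (abs_nonneg _).trans F.par.1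
  have e1 := mul_nonneg c1 e0
  have e2 := mul_nonneg c2 (add_nonneg e1 e0)
  have e3 : (C2 + 1) * (C1 + 1) * ε = C2 * (C1 * ε + ε) + (C1 * ε + ε) := by ring
  rw [e3] at e ⊢
  rcases lt_or_ge p.1 (t1 - 1) with k | k
  · exact ((jb_const _ (0 : R4) p).mono le_rfl (by rw [norm_zero]; linarith)).congr
      ((Fd.f_early (d := d) (R := R) k).mono fun x hx => by simp [hx])
  have s := F.shift _ ⟨hp.le, h2⟩
  have t := abs_le.1 (F.time (c := cr R) hp h2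
    (abs_le.2 ⟨by linarith [cr_mem R (rd p)], (cr_mem _ _).2⟩))
  exact (H2 d.b (d.S R) p (C1 * ε + ε) (by linarith) (F.S_cd (h1.trans hp))
    (F.loc _ (F.S_mem (by linarith) hp h2 k)).1 (abs_le.2 ⟨by linarith, by linarith⟩)
    ((H1 _ _ p ε F.sm.1 F.sm.2 (by linarith) hp.le h2 s.1 s.2).mono le_rfl (by linarith))
    ((F.mid _ (by rwa [Fd.S, rd_sh]) (by rwa [Fd.S, rd_sh]) (abs_le.2
      ⟨by rw [Fd.S]; linarith, by rw [Fd.S]; linarith⟩)).mono le_rfl (by linarith))).mono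
    le_rfl (by linarith)

theorem nr_early (M a R t1 : ℝ) (N : ℕ) (h0 : 0 < r0) (h1 : r0 < r1) : ∃ C, 0 ≤ C ∧ ∃ e > 0,
    ∀ {θ θ1 s δ ε gc d p}, Fn M a r0 r1 θ θ1 R t1 s δ ε N gc d → ε ≤ e → p ∈ En M a r1 θ →
      rd p ≤ R + 2 → p.1 ≤ t1 + 1 → Nr M a R t1 N d p (C * ε) (C * ε) := by
  obtain ⟨K, K1, H⟩ := ff_small M a R t1 N (h0.trans h1)
  obtain ⟨C3, c3, H3⟩ := pull_bd (N + 1)
  obtain ⟨C4, c4, H4⟩ := pull_gin M a (h0.trans h1) (R + 2) (N + 1)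
  have hμ : 0 < min (1 / 2) (min (r1 / 4) ((r1 - r0) / 2)) := by simp; constructor <;> linarith
  refine ⟨C3 + C4 * K + C4 * K, by positivity, _ / K, div_pos hμ (by linarith),
    fun {θ θ1 s δ ε gc d p} F e hp h2 h3 => ?_⟩
  have e0 : 0 ≤ ε := (abs_nonneg _).trans F.par.1
  rw [le_div_iff₀ (by linarith), mul_comm] at e
  simp only [le_min_iff] at e
  have e1 : ε ≤ K * ε := le_mul_of_one_le_left e0 K1
  have p0 : 0 < rd p := (h0.trans h1).trans hp.1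
  have p1 : r1 < rd p := hp.1
  have U : p ∈ d.U R t1 := ⟨p0, (lt_or_ge _ _).imp_right (F.S_mem (by linarith) hp.1 h2)⟩
  have j := H F (by linarith) p1 h2 h3
  have n := j.zero
  have n1 := abs_le.1 (rd_lip (d.ff R t1 p) p)
  have n2 := abs_le.1 ((norm_fst_le (d.ff R t1 p - p)).trans n)
  rw [Prod.fst_sub] at n2
  obtain ⟨m, b⟩ := F.early (d.ff R t1 p) (by linarith) (by linarith)
    ((lt_or_ge p.1 (t1 - 1)).imp (fun k => by
      rw [(Fd.f_early k).eq_of_nhds]; exact ⟨hp, k.le.trans (by linarith)⟩) fun k =>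
      abs_le.2 ⟨by linarith, by linarith⟩)
  have cd := F.f_cd U
  have q0 : 0 < rd (d.ff R t1 p) := by linarith
  have sg := (sb_lv F.lv m).pull cd
  have z : |M - M| ≤ K * ε ∧ |a - a| ≤ K * ε := by simpa using e0.trans e1
  have b0 := H3 _ _ p ε cd (j.mono le_rfl (by linarith)) ((sb_lv F.lv m).sub (sb_gin q0)) b
  rw [pb_sub] at b0
  have b1 := bd_tri sg ((sb_gin q0).pull cd) (sb_gin p0) b0
    (H4 _ M a p (K * ε) cd j (by linarith) (by linarith) z.1 z.2 hp.1.le h2)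
  have b2 := H4 id d.M d.a p (K * ε) contDiffAt_id (((jb_const _ (0 : R4) p).mono le_rfl
    (norm_zero.trans_le (e0.trans e1))).congr (.of_forall sub_self)) (by linarith) (by linarith)
      (F.par.1.trans e1) (F.par.2.trans e1) hp.1.le h2
  rw [pb_id] at b2
  have k0 : 0 ≤ C4 * (K * ε) := by positivity
  have k1 : (C3 + C4 * K + C4 * K) * ε = C3 * ε + C4 * (K * ε) + C4 * (K * ε) := by ring
  have k2 := (le_add_of_nonneg_right (a := C3 * ε + C4 * (K * ε)) k0).trans k1.ge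
  exact ⟨U, m, inj_near cd j (by linarith), bd_mono b1 N.le_succ k2,
    bd_mono (bd_dt sg (sb_gin p0) (gin_st M a) b1) le_rfl k2, fun _ =>
    bd_mono (bd_tri sg (sb_gin p0) (sb_gin p0) b1 (bd_symm b2)) N.le_succ k1.ge⟩

theorem nr_late (M a R t1 : ℝ) (N : ℕ) (h1 : 0 < r1) (hs : 0 ≤ s) : ∃ C, 0 ≤ C ∧ ∃ e > 0,
    ∀ {r0 θ θ1 δ ε gc d p}, Fn M a r0 r1 θ θ1 R t1 s δ ε N gc d → ε ≤ e → r1 < rd p →
      rd p ≤ R + 2 → t1 + 1 ≤ p.1 → Nr M a R t1 N d p (C * ε) (C * ε * (1 + |p.1|) ^ (-s)) := by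
  obtain ⟨C1, c1, H1⟩ := sh_small h1 (R + 2) (N + 1) ((cr_cd R).sub (contDiff_const (c := 1)))
  obtain ⟨C3, c3, H3⟩ := pull_bd (N + 1)
  obtain ⟨C4, c4, H4⟩ := pull_gin M a h1 (R + 2) (N + 1)
  have hμ : 0 < min 1 (r1 / 4) := by simp; linarith
  refine ⟨C3 * 2 ^ s + C4 * (C1 + 1), by positivity, _ / (C1 + 1), div_pos hμ (by linarith),
    fun {r0 θ θ1 δ ε gc d p} F e hp h2 h3 => ?_⟩
  have e0 : 0 ≤ ε := (abs_nonneg _).trans F.par.1
  rw [le_div_iff₀ (by linarith), mul_comm] at e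
  simp only [le_min_iff] at e
  have e1 : ε ≤ (C1 + 1) * ε := le_mul_of_one_le_left e0 (by linarith)
  have p0 : 0 < rd p := h1.trans hp
  have O := F.S_mem (by linarith) hp h2 (by linarith)
  have U : p ∈ d.U R t1 := ⟨p0, .inr O⟩
  set φ := sh ((fun r => cr R r - 1) * d.A) ((fun r => cr R r - 1) * d.B) with hφ
  have e2 : ∀ x, sh d.A d.B (φ x) = d.S R x := fun x => by
    rw [hφ, sh_sh, Fd.S]
    congr 1 <;> funext r <;> simp only [Pi.add_apply, Pi.mul_apply] <;> ring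
  have cφ : ContDiffAt ℝ ∞ φ p := sh_cd p0.ne'
    (((cr_cd R).sub contDiff_const).mul F.sm.1).contDiffAt
    (((cr_cd R).sub contDiff_const).mul F.sm.2).contDiffAt
  have q : rd (φ p) = rd p := rd_sh _ _ _
  have cb : ContDiffAt ℝ ∞ (d.b ∘ sh d.A d.B) (φ p) :=
    ((e2 p).symm ▸ (F.loc _ O).1).comp _ (sh_cd (q ▸ p0.ne') F.sm.1.contDiffAt F.sm.2.contDiffAt)
  have fl := Fd.f_late (d := d) (R := R) (show t1 < p.1 by linarith)
  have E : d.gf R t1 =ᶠ[𝓝 p] pb φ (pb (d.b ∘ sh d.A d.B) d.g) :=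
    (pb_map (fl.trans (.of_forall fun x => by simp [e2]))).trans (pb_comp cφ cb)
  have s1 := F.shift _ ⟨hp.le, h2⟩
  have j := (H1 _ _ p ε F.sm.1 F.sm.2 (by linarith) hp.le h2 s1.1 s1.2).mono le_rfl
    (show _ ≤ (C1 + 1) * ε by nlinarith)
  have t := abs_le.1 (F.time (c := fun r => cr R r - 1) hp h2
    (abs_le.2 ⟨by linarith [cr_mem R (rd p)], by linarith [cr_mem R (rd p)]⟩))
  have sb : Sb (pb (d.b ∘ sh d.A d.B) d.g) (φ p) :=
    (sb_lv F.lv (show (d.b ∘ sh d.A d.B) (φ p) ∈ _ by simpa [e2] using (F.loc _ O).2.2)).pull cb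
  have sk := sb_gin (M := d.M) (a := d.a) (q ▸ p0)
  have w : (1 + |(φ p).1|) ^ (-s) ≤ 2 ^ s * (1 + |p.1|) ^ (-s) := by
    rw [Real.rpow_neg (by positivity), Real.rpow_neg (by positivity), ← div_eq_mul_inv,
      inv_eq_one_div, div_le_div_iff₀ (by positivity) (by positivity), one_mul,
      ← Real.mul_rpow (by positivity) (by positivity)]
    refine Real.rpow_le_rpow (by positivity) ?_ hs
    have := abs_sub_abs_le_abs_sub p.1 (φ p).1
    have : |p.1 - (φ p).1| ≤ 1 := abs_le.2 ⟨by linarith, by linarith⟩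
    linarith [abs_nonneg (φ p).1]
  have w0 : 0 ≤ (1 + |p.1|) ^ (-s) := by positivity
  have w1 : (1 + |p.1|) ^ (-s) ≤ 1 :=
    Real.rpow_le_one_of_one_le_of_nonpos (by linarith [abs_nonneg p.1]) (by linarith)
  have sg := (sb.pull cφ).congr E
  have b1 : Bd (N + 1) (d.gf R t1 - pb φ (gin d.M d.a)) p (C3 * 2 ^ s * ε * (1 + |p.1|) ^ (-s)) :=
    bd_congr (E.mono fun x hx => by rw [Pi.sub_apply, hx]; rfl) (bd_mono (H3 φ _ p _ cφ
      (j.mono le_rfl e.1) (sb.sub sk) (F.late _ (q ▸ hp) (q ▸ h2) (by linarith))) le_rfl (by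
        nlinarith [mul_le_mul_of_nonneg_left w (mul_nonneg c3 e0)]))
  have k0 : 0 ≤ C4 * (C1 + 1) * ε := by positivity
  have k1 : 0 ≤ C3 * 2 ^ s * ε := by positivity
  refine ⟨U, fl.eq_of_nhds ▸ (F.loc _ O).2.2, ?_, bd_mono (bd_tri sg (sk.pull cφ) (sb_gin p0) b1
    (H4 φ d.M d.a p _ cφ j e.1 (by linarith) (F.par.1.trans e1) (F.par.2.trans e1) hp.le h2))
    (by omega) (by nlinarith), bd_mono (bd_dt sg (sk.pull cφ) (pb_st (gin_st _ _)) b1) le_rfl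
      (by nlinarith), fun h4 => bd_mono (bd_congr ?_ b1) (by omega) (by nlinarith)⟩
  · rw [fl.fderiv_eq, fderiv_comp p ((F.loc _ O).1.differentiableAt (by simp))
      ((F.S_cd p0).differentiableAt (by simp))]
    exact (F.loc _ O).2.1.comp (sh_inj p0.ne' ((cr_cd R).mul F.sm.1).contDiffAt
      ((cr_cd R).mul F.sm.2).contDiffAt)
  · have : φ =ᶠ[𝓝 p] id := (rd_cont.continuousAt.eventually_lt continuousAt_const
      (show rd p < R + 1 / 4 by linarith)).mono fun x hx =>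
        sh_id (by simp [cr_one hx.le]) (by simp [cr_one hx.le])
    exact (pb_map this).mono fun x hx => by rw [Pi.sub_apply, hx, pb_id]; rfl

end Vale.Agent.P354YO
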