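import Vale.Agent.P354YO.OutA1
import Vale.Agent.P354YA.One

/-!
The final chart: the time orientation and the assembly.
-/

open scoped ContDiff
open Set Filter Topology

noncomputable section

namespace Vale.Agent.P354YO

open Vale.Agent.P354n (R4)
open Vale.Agent.P354I (rm rp Sg)
open Vale.Agent.P354R (Met Del)
open Vale.Agent.P354XE
open Vale.Agent.P354XV (Lv)
open Vale.Agent.P354XA (rd_cont rd_cd hor near_t gin_Lo Lo_fst lo1 Sg_ge Sg_le pb_lin lin_eq)
open Vale.Agent.P354YR (XI XI_gin s_XI xs_ne)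
open Vale.Agent.P354YI
open Vale.Agent.P354YA (La End0)

variable {g : Tw} {D : Set R4} {p : R4} {M a s δ ε ε' c : ℝ} {N : ℕ}

theorem far_mono {β : Fin 3 → R4 → ℝ} (b : Far M a s δ ε N g β p) (h : ε ≤ ε') :
    Far M a s δ ε' N g β p := by
  have u : 0 ≤ uw M a p ^ (-s) := Real.rpow_nonneg (Real.sqrt_nonneg _) _
  have r : 0 ≤ rd p := norm_nonneg _
  have w : 0 ≤ wt M a δ p :=
    add_nonneg (Real.rpow_nonneg (Real.sqrt_nonneg _) _) (Real.rpow_nonneg r _)
  have m : ∀ {f x y}, 0 ≤ x → 0 ≤ y → Wb M a N f p (ε * x) (ε * y) →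
      Wb M a N f p (ε' * x) (ε' * y) := fun hx hy k α hα =>
    ⟨(k α hα).1.trans (mul_le_mul_of_nonneg_right h hx),
      (k α hα).2.trans (mul_le_mul_of_nonneg_right h hy)⟩
  have m1 : ∀ {f y}, 0 ≤ y → Wb M a N f p ε (ε * y) → Wb M a N f p ε' (ε' * y) :=
    fun hy k α hα => ⟨(k α hα).1.trans h, (k α hα).2.trans (mul_le_mul_of_nonneg_right h hy)⟩
  exact ⟨b.gauge, b.smooth, fun i => m1 u (b.la i), fun i => ⟨m u u (b.shift i).1,
    m w w (b.shift i).2⟩, m (by positivity) (by positivity) b.tt,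
    fun i hi => m (by positivity) (by positivity) (b.tt' i hi), fun i => m w u (b.ta i),
    fun i j => m1 u (b.aa i j)⟩

theorem lin_one (M a : ℝ) (p : R4) : Par.lin ⟨M, a, 1, 1⟩ p = p := by simp [lin_eq]

theorem pb_one (M a : ℝ) (g : Tw) : pb (Par.lin ⟨M, a, 1, 1⟩) g = g := by
  rw [show Par.lin ⟨M, a, 1, 1⟩ = id from funext (lin_one M a), pb_id]

theorem near_one {M' a' : ℝ} (h1 : |M' - M| < ε) (h2 : |a' - a| < ε) :
    Par.Near ⟨M', a', 1, 1⟩ M a ε := by
  have := (abs_nonneg _).trans_lt h1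
  exact ⟨h1, h2, by simpa, by simp, by simpa⟩

/-- The far field and the time orientation. -/
def Yf (M a : ℝ) (g : Tw) (p : R4) : R4 := eT + (1 + |g p eT eT|) • Lo M a p
def Yo (M a R : ℝ) (g : Tw) (p : R4) : R4 :=
  cr (R + 1) (rd p) • XI M a p + (1 - cr (R + 1) (rd p)) • Yf M a g p

theorem del_pos (h : |a| < M) {r : ℝ} (hr : rp M a < r) : 0 < Del M a r := by
  obtain ⟨-, -, h3, -, -, h6, -⟩ := hor h
  rw [h6]; exact mul_pos (by linarith) (by linarith)

theorem Lo_pos (h : |a| < M) (hr : rp M a < rd p) : 0 < (Lo M a p).1 := by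
  obtain ⟨h1, h2, h3, -⟩ := hor h
  rw [Lo_fst, lo1, sub_pos, one_lt_div (del_pos h hr), Del]
  nlinarith [sq_nonneg a, mul_pos h1 (show 0 < rd p by linarith)]

theorem Lo_cont (h : |a| < M) (hr : rp M a < rd p) : ContinuousAt (Lo M a) p := by
  obtain ⟨h1, h2, h3, -⟩ := hor h
  have r := rd_cont.continuousAt (x := p)
  have d : ContinuousAt (fun x => Del M a (rd x)) p := by unfold Del; fun_prop
  have o : Continuous (Om 2) := by
    change Continuous fun p : R4 => ((0 : ℝ), -p.2.2.1, p.2.1, (0 : ℝ)); fun_prop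
  exact ((((continuousAt_const.mul ((r.pow 2).add continuousAt_const)).div d
    (del_pos h hr).ne').sub continuousAt_const).prodMk ((r.inv₀ (by linarith)).smul
      continuousAt_snd)).add ((continuousAt_const.div d (del_pos h hr).ne').smul o.continuousAt)

theorem Yo_cont {R : ℝ} (h : |a| < M) (hR : rp M a < R) (l : Lv g D) (hp : p ∈ D)
    (h0 : 0 < rd p) : ContinuousAt (Yo M a R g) p := by
  have c := ((cr_cd (R + 1)).continuous.comp rd_cont).continuousAt (x := p)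
  refine (c.smul (s_XI (xs_ne h0)).continuousAt).add ?_
  rcases lt_or_ge R (rd p) with k | k
  · exact (continuousAt_const.sub c).smul (continuousAt_const.add ((continuousAt_const.add
      (met_cont l.met l.isOpen hp continuousAt_const continuousAt_const).abs).smul
        (Lo_cont h (hR.trans k))))
  · refine (continuousAt_const (y := 0)).congr ((rd_cont.continuousAt.eventually_lt
      continuousAt_const (show rd p < R + 1 by linarith)).mono fun x hx => ?_)
    simp [cr_one (show rd x ≤ R + 1 + 1 / 4 by linarith)]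

theorem opp (m : Met g D) (hp : p ∈ D) (sp : ∀ v ≠ 0, v.1 = 0 → 0 < g p v v) {u v : R4}
    (hu : g p u u < 0) (hv : g p v v ≤ 0) (u0 : 0 < u.1) (v0 : 0 < v.1) : g p u v < 0 := by
  by_contra! k
  have e : g p (v.1 • u + (-u.1) • v) (v.1 • u + (-u.1) • v) < 0 := by
    rw [met_comb m hp, met_comb' m hp, met_comb' m hp, m.symm p hp v u]
    nlinarith [mul_pos_of_neg_of_neg hu (neg_lt_zero.2 (mul_pos v0 v0)),
      mul_nonneg (mul_pos u0 v0).le k, mul_nonneg (mul_pos u0 u0).le (neg_nonneg.2 hv)]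
  rcases eq_or_ne (v.1 • u + (-u.1) • v) 0 with z | z
  · rw [z, (m.lin p hp 0).map_zero] at e
    exact lt_irrefl _ e
  · exact lt_asymm e (sp _ z (by simp [mul_comm]))

theorem Yo_ok {R : ℝ} (h : |a| < M) (hR : rp M a < R) (m : Met g D) (hp : p ∈ D) (h0 : 0 < rd p)
    (n : rd p ≤ R + 2 → g p (XI M a p) (XI M a p) < 0 ∧ ∀ v ≠ 0, v.1 = 0 → 0 < g p v v)
    (f : R + 1 ≤ rd p → g p (Lo M a p) (Lo M a p) = 0 ∧ g p (Lo M a p) eT = -1) :
    g p (Yo M a R g p) (Yo M a R g p) < 0 ∧ 0 < (Yo M a R g p).1 ∧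
      (R + 1 ≤ rd p → g p (Yo M a R g p) (Lo M a p) < 0) := by
  have x0 : 0 < (XI M a p).1 := by
    have := Sg_ge a p
    have := mul_pos (hor h).1 h0
    simp only [XI]
    nlinarith
  rcases lt_or_ge (rd p) (R + 1) with k | k
  · have e : Yo M a R g p = XI M a p := by
      simp [Yo, cr_one (show rd p ≤ R + 1 + 1 / 4 by linarith)]
    rw [e]
    exact ⟨(n (by linarith)).1, x0, fun k' => absurd k' (not_le.2 k)⟩
  obtain ⟨f1, f2⟩ := f k
  have l0 := Lo_pos h (show rp M a < rd p by linarith)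
  have y1 : g p (Yf M a g p) (Lo M a p) = -1 := by
    rw [Yf, ← one_smul ℝ eT, met_comb' m hp, one_smul, m.symm p hp, f1, f2]; ring
  have y2 : g p (Yf M a g p) (Yf M a g p) < 0 := by
    nth_rewrite 2 [Yf]
    rw [← one_smul ℝ eT, met_comb m hp, y1, Yf, ← one_smul ℝ eT, met_comb' m hp, one_smul,
      one_smul, f2]
    linarith [le_abs_self (g p eT eT), abs_nonneg (g p eT eT)]
  have y3 : 0 < (Yf M a g p).1 := by
    simp only [Yf, Prod.fst_add, Prod.smul_fst, smul_eq_mul, show eT.1 = 1 from rfl]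
    positivity
  rcases lt_or_ge (R + 2) (rd p) with k' | k'
  · have e : Yo M a R g p = Yf M a g p := by
      simp [Yo, cr_zero (show R + 1 + 3 / 4 ≤ rd p by linarith)]
    rw [e, y1]
    exact ⟨y2, y3, fun _ => by norm_num⟩
  obtain ⟨n1, n2⟩ := n k'
  have a1 := opp m hp n2 n1 y2.le x0 y3
  have a2 := opp m hp n2 n1 f1.le x0 l0
  obtain ⟨c0, c1⟩ := cr_mem (R + 1) (rd p)
  have key : ∀ {x y : ℝ}, x < 0 → y < 0 → cr (R + 1) (rd p) * x + (1 - cr (R + 1) (rd p)) * y < 0 :=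
    fun hx hy => by
      rcases c0.eq_or_lt with z | z
      · rw [← z]; linarith
      · nlinarith [mul_pos z (neg_pos.2 hx), mul_nonneg (sub_nonneg.2 c1) (neg_pos.2 hy).le]
  refine ⟨?_, ?_, fun _ => ?_⟩
  · rw [Yo, met_comb m hp, met_comb' m hp, met_comb' m hp]
    exact key (key n1 (by rwa [m.symm p hp])) (key a1 y2)
  · have := key (neg_lt_zero.2 x0) (neg_lt_zero.2 y3)
    simp only [Yo, Prod.fst_add, Prod.smul_fst, smul_eq_mul]
    linarith
  · rw [Yo, met_comb' m hp, y1]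
    exact key a2 (by norm_num)

/-- Metrics close to Kerr. -/
theorem near_ok (h : |a| < M) {r1 : ℝ} (h1 : 0 < r1) (R2 : ℝ) : ∃ η > 0, ∀ (g : Tw) p N,
    r1 ≤ rd p → rd p ≤ R2 → Bd N (g - gin M a) p η →
      g p (XI M a p) (XI M a p) < 0 ∧ ∀ v ≠ 0, v.1 = 0 → 0 < g p v v := by
  have hM := (hor h).1
  obtain ⟨c, c0, hc⟩ := near_t hM.le a h1
  obtain ⟨B, hB⟩ := (shell_cpt r1 R2).exists_bound_of_continuousOn (f := XI M a) fun y hy =>
    (s_XI (xs_ne (h1.trans_le hy.2.1))).continuousAt.continuousWithinAt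
  refine ⟨min (1 / (2 * c)) (r1 ^ 4 / (B ^ 2 + 1)), by positivity, fun g p N k1 k2 b => ?_⟩
  have e : ∀ v, g p v v ≤ gin M a p v v + r1 ^ 4 / (B ^ 2 + 1) * (‖v‖ * ‖v‖) ∧
      gin M a p v v - 1 / (2 * c) * (‖v‖ * ‖v‖) ≤ g p v v := fun v => by
    have := b 0 (Nat.zero_le _) v v
    rw [norm_iteratedFDeriv_zero, Real.norm_eq_abs, abs_le] at this
    simp only [Pi.sub_apply] at this
    constructor <;> linarith [this.1, this.2, mul_le_mul_of_nonneg_right (min_le_left
      (1 / (2 * c)) (r1 ^ 4 / (B ^ 2 + 1))) (mul_self_nonneg ‖v‖), mul_le_mul_of_nonneg_right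
      (min_le_right (1 / (2 * c)) (r1 ^ 4 / (B ^ 2 + 1))) (mul_self_nonneg ‖v‖)]
  refine ⟨(e _).1.trans_lt ?_, fun v hv v0 => lt_of_lt_of_le ?_ (e v).2⟩
  · have n : ‖XI M a p‖ ≤ B := hB (pr0 p) ⟨rfl, k1, k2⟩
    have s := (pow_le_pow_left₀ h1.le k1 2).trans (Sg_ge a p)
    have t : r1 ^ 4 / (B ^ 2 + 1) * (‖XI M a p‖ * ‖XI M a p‖) < r1 ^ 4 := by
      rw [div_mul_eq_mul_div, div_lt_iff₀ (by positivity)]
      exact mul_lt_mul_of_pos_left (by nlinarith [norm_nonneg (XI M a p)]) (by positivity)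
    rw [XI_gin (xs_ne (h1.trans_le k1))]
    simp only [XI] at t ⊢
    nlinarith [mul_pos hM (h1.trans_le k1), sq_pos_of_pos h1]
  · have := hc p k1 v v0
    have n : 0 < ‖v‖ ^ 2 := by positivity
    rw [sub_pos, div_mul_eq_mul_div, div_lt_iff₀ (by positivity)]
    nlinarith

theorem outa : OUTA := by
  intro M a r0 r1 θ θ1 R t1 s δ N h h0 h1 hθ hR hs ε hε
  obtain ⟨hM, m0, -, -, k0, -⟩ := hor h
  have r0' := m0.trans_lt h0
  obtain ⟨C1, c1, e1, he1, H1⟩ := nr_early M a R t1 N r0' h1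
  obtain ⟨C2, c2, e2, he2, H2⟩ := nr_late M a R t1 N (r0'.trans h1) hs
  obtain ⟨η, hη, H3⟩ := near_ok h (r0'.trans h1) (R + 2)
  set w := (1 + (|Real.log θ / ka M a| + |t1 + 1|)) ^ (-s) with hw
  have w0 : 0 < w := by positivity
  have w1 : w ≤ 1 := Real.rpow_le_one_of_one_le_of_nonpos
    (le_add_of_nonneg_right (by positivity)) (by linarith)
  refine ⟨min (min e1 e2) (min η ε * w / (C1 + C2 + 2)), by positivity, fun gc d F => ?_⟩
  generalize he : min (min e1 e2) (min η ε * w / (C1 + C2 + 2)) = e at F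
  have e0 : 0 ≤ e := by rw [← he]; positivity
  have e3 : e ≤ min η ε * w / (C1 + C2 + 2) := he ▸ min_le_right _ _
  rw [le_div_iff₀ (by positivity)] at e3
  have μ0 : 0 < min η ε := by positivity
  have e4 : min η ε * w ≤ min η ε := mul_le_of_le_one_right μ0.le w1
  have e5 : e < ε := by
    nlinarith [min_le_right η ε, mul_nonneg e0 c1, mul_nonneg e0 c2]
  have nr : ∀ p ∈ En M a r1 θ, rd p ≤ R + 2 →
      Nr M a R t1 N d p (min η ε) (ε * (1 + |p.1|) ^ (-s)) := fun p hp k => by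
    have v0 : 0 ≤ (1 + |p.1|) ^ (-s) := by positivity
    rcases le_total p.1 (t1 + 1) with t | t
    · have n := H1 F (he ▸ (min_le_left _ _).trans (min_le_left _ _)) hp k t
      have l : Real.log θ / ka M a ≤ p.1 := by
        rw [div_le_iff₀ k0, mul_comm, Real.log_le_iff_le_exp hθ]; exact hp.2.1
      have v : w ≤ (1 + |p.1|) ^ (-s) := Real.rpow_le_rpow_of_nonpos (by positivity) (by
        have := abs_le.2 ⟨(show -(|Real.log θ / ka M a| + |t1 + 1|) ≤ p.1 by
          linarith [neg_abs_le (Real.log θ / ka M a), abs_nonneg (t1 + 1)]), by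
          linarith [le_abs_self (t1 + 1), abs_nonneg (Real.log θ / ka M a)]⟩
        linarith) (by linarith)
      have b1 : C1 * e ≤ min η ε * w := by nlinarith [mul_nonneg e0 c2]
      have b2 : C1 * e ≤ ε * (1 + |p.1|) ^ (-s) :=
        b1.trans (mul_le_mul (min_le_right _ _) v w0.le hε.le)
      exact ⟨n.U, n.mem, n.inj, bd_mono n.bd le_rfl (b1.trans e4), bd_mono n.dt le_rfl b2,
        fun k => bd_mono (n.cv k) le_rfl b2⟩
    · have n := H2 F (he ▸ (min_le_left _ _).trans (min_le_right _ _)) hp.1 k t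
      have b1 : C2 * e ≤ min η ε := by nlinarith [mul_nonneg e0 c1]
      have b2 := mul_le_mul_of_nonneg_right (b1.trans (min_le_right _ _)) v0
      exact ⟨n.U, n.mem, n.inj, bd_mono n.bd le_rfl b1, bd_mono n.dt le_rfl b2,
        fun k => bd_mono (n.cv k) le_rfl b2⟩
  have fr : ∀ p ∈ En M a r1 θ, R + 1 ≤ rd p → Far M a s δ ε N (d.gf R t1) d.be p := fun p hp k =>
    far_congr (pb_map (F.f_far hp k).symm) (far_mono (F.far p hp k) e5.le)
  let W1 := d.U R t1 ∩ (fun x => (d.ff R t1 x, fderiv ℝ (d.ff R t1) x)) ⁻¹'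
    (d.Om ×ˢ {L : R4 →L[ℝ] R4 | Function.Injective L})
  have o1 : IsOpen W1 := ContinuousOn.isOpen_inter_preimage (fun x hx =>
    ((F.f_cd hx).continuousAt.prodMk (at_fd (F.f_cd hx)).continuousAt).continuousWithinAt) F.U_open
    (F.lv.isOpen.prod ContinuousLinearMap.isOpen_injective)
  have l : Lv (d.gf R t1) W1 := lv_pull F.lv o1 (fun x hx => (F.f_cd hx.1).contDiffWithinAt)
    (fun _ hx => hx.2.1) fun _ hx => hx.2.2
  have s1 : En M a r1 θ ⊆ W1 := fun p hp => by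
    rcases le_total (rd p) (R + 2) with k | k
    · exact ⟨(nr p hp k).U, (nr p hp k).mem, (nr p hp k).inj⟩
    · have O := F.dom p (.inr ⟨hp, by linarith⟩)
      have f := F.f_far hp (by linarith)
      refine ⟨⟨(r0'.trans h1).trans hp.1, .inr ?_⟩, ?_, ?_⟩
      · rwa [(Fd.S_far (by linarith)).eq_of_nhds]
      · exact mem_of_eq_of_mem f.eq_of_nhds (F.loc p O).2.2
      · change Function.Injective (fderiv ℝ _ p)
        rw [f.fderiv_eq]
        exact (F.loc p O).2.1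
  have nk := fun p hp k => H3 _ p N (le_of_lt hp.1) k (bd_mono (nr p hp k).bd le_rfl (min_le_left _ _))
  have yo := fun p (hp : p ∈ En M a r1 θ) => Yo_ok h hR l.met (s1 hp) (s1 hp).1.1 (nk p hp) fun k => by
    have := (fr p hp k).gauge.self_of_nhds
    rw [gin_Lo (s1 hp).1.1.ne' (del_pos h (by linarith)).ne' (by simp [P354XA.dr_eq, P354XA.ip, eT]),
      P354XA.dq_eq] at this
    exact ⟨this.1, by simpa [eT] using this.2⟩
  have cy : ∀ p ∈ W1, ContinuousAt (Yo M a R (d.gf R t1)) p := fun p hp => Yo_cont h hR l hp hp.1.1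
  let W := W1 ∩ (fun x => d.gf R t1 x (Yo M a R (d.gf R t1) x) (Yo M a R (d.gf R t1) x)) ⁻¹' Iio 0
  have o : IsOpen W := ContinuousOn.isOpen_inter_preimage (fun x hx =>
    (met_cont l.met o1 hx (cy x hx) (cy x hx)).continuousWithinAt) o1 isOpen_Iio
  have l' := P354YA.lv_mono l o inter_subset_left
  refine ⟨W, d.gf R t1, Yo M a R (d.gf R t1), ⟨o, l'.met, l'.vac, l'.sig, fun _ hp => hp.2,
    fun p hp => (cy p hp.1).continuousWithinAt⟩, fun p hp => ⟨s1 hp, (yo p hp).1⟩,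
    ⟨⟨d.M, d.a, 1, 1⟩, ⟨M, a, 1, 1⟩, d.be, ⟨near_one (F.par.1.trans_lt e5) (F.par.2.trans_lt e5),
      near_one (by simpa) (by simpa)⟩, fun p hp k => ⟨(yo p hp).2.1,
      bd_mono (nr p hp k).bd le_rfl (min_le_right _ _), (nr p hp k).dt⟩, fun p hp k => ?_,
      fun p hp k => ?_⟩, fun p hp k => (nk p hp k).2, fun p hp => ⟨?_, (yo p hp.1).2.1⟩⟩
  · rw [lin_one] at hp
    rw [pb_one]
    exact (nr p hp (by linarith)).cv k
  · rw [lin_one] at hp
    rw [pb_one, lin_one, lin_one]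
    exact ⟨(yo p hp).2.2 k, fr p hp k⟩
  · have : d.ff R t1 =ᶠ[𝓝 p] id := (le_total (rd p) (R + 1)).elim
      (fun k => Fd.f_early ((F.cor p hp).2 k)) fun k =>
        (F.f_far hp.1 k).trans (F.idn p hp.1 (by linarith) (.inr hp))
    exact ((pb_map this).trans (by rw [pb_id])).trans (F.cor p hp).1

end Vale.Agent.P354YO
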