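import Vale.Agent.P354YO.FarA
import Vale.Agent.P354TS.Oc

/-!
The tables give the estimates of the metric far out.
-/

namespace Vale.Agent.P354YO

theorem outc : OUTC := P354TS.outc_of bas lay fara

end Vale.Agent.P354YO
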