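import Vale.Agent.P354XG.GHP

/-!
Uniform bounds of the words in a family of letters, at a family of points.
-/

namespace Vale.Agent.P354YO

open Vale.Agent.P354XG

/-- The points, the letters and the conjugation. -/
structure Ev (A : Type) [CommRing A] [Algebra ℂ A] where
  J : Type
  ev : J → A →+* ℂ
  X : Fin 5 → Der A
  c : A →+* A
  alg : ∀ j z, ev j (algebraMap ℂ A z) = z
  ev_c : ∀ j f, ev j (c f) = starRingEnd ℂ (ev j f)
  c_X : ∀ i f, c (X i f) = X i (c f)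

namespace Ev
variable {A : Type} [CommRing A] [Algebra ℂ A] (E : Ev A)

/-- The values are bounded by the weight. -/
def Bd (f : A) (μ : E.J → ℝ) : Prop := (∀ j, 0 ≤ μ j) ∧ ∃ C, ∀ j, ‖E.ev j f‖ ≤ C * μ j

/-- The words of length at most n are bounded by the weight. -/
def Ob : ℕ → A → (E.J → ℝ) → Prop
  | 0, f, μ => E.Bd f μ
  | n + 1, f, μ => E.Bd f μ ∧ ∀ i, Ob n (E.X i f) μ

/-- Bounded below. -/
def Low (u : A) : Prop := ∃ c > 0, ∀ j, c ≤ ‖E.ev j u‖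

/-- The comparison of weights. -/
def Le (μ ν : E.J → ℝ) : Prop := (∀ j, 0 ≤ ν j) ∧ ∃ C, ∀ j, μ j ≤ C * ν j

variable {E} {f g u y : A} {μ ν κ : E.J → ℝ} {n m : ℕ}

theorem Le.of (h0 : ∀ j, 0 ≤ ν j) (h : ∀ j, μ j ≤ ν j) : E.Le μ ν :=
  ⟨h0, 1, fun j => by rw [one_mul]; exact h j⟩

theorem Le.ex (h : E.Le μ ν) : ∃ C, 0 ≤ C ∧ ∀ j, μ j ≤ C * ν j :=
  let ⟨p, C, e⟩ := h
  ⟨|C|, abs_nonneg C, fun j => (e j).trans (mul_le_mul_of_nonneg_right (le_abs_self C) (p j))⟩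

theorem Le.trans (h : E.Le μ ν) (h' : E.Le ν κ) : E.Le μ κ := by
  obtain ⟨C, c, e⟩ := h.ex
  obtain ⟨p, D, e'⟩ := h'
  exact ⟨p, C * D, fun j => (e j).trans (by
    rw [mul_assoc]; exact mul_le_mul_of_nonneg_left (e' j) c)⟩

theorem Le.mul {μ' ν' : E.J → ℝ} (h : E.Le μ ν) (h' : E.Le μ' ν') (p : ∀ j, 0 ≤ μ' j) :
    E.Le (μ * μ') (ν * ν') := by
  obtain ⟨C, c, e⟩ := h.ex
  obtain ⟨D, -, e'⟩ := h'.ex
  refine ⟨fun j => mul_nonneg (h.1 j) (h'.1 j), C * D, fun j => ?_⟩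
  have := mul_le_mul (e j) (e' j) (p j) (mul_nonneg c (h.1 j))
  simp only [Pi.mul_apply]
  linarith

theorem Bd.mono (h : E.Bd f μ) (l : E.Le μ ν) : E.Bd f ν :=
  (show E.Le (fun j => ‖E.ev j f‖) μ from h).trans l

theorem Bd.add (h : E.Bd f μ) (h' : E.Bd g μ) : E.Bd (f + g) μ := by
  obtain ⟨p, C, e⟩ := h
  obtain ⟨-, D, e'⟩ := h'
  refine ⟨p, C + D, fun j => ?_⟩
  rw [map_add, add_mul]
  exact (norm_add_le _ _).trans (add_le_add (e j) (e' j))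

theorem Bd.mul (h : E.Bd f μ) (h' : E.Bd g ν) : E.Bd (f * g) (μ * ν) := by
  obtain ⟨p, C, e⟩ := Le.mul (show E.Le (fun j => ‖E.ev j f‖) μ from h)
    (show E.Le (fun j => ‖E.ev j g‖) ν from h') fun _ => norm_nonneg _
  exact ⟨p, C, fun j => by rw [map_mul, norm_mul]; exact e j⟩

theorem Ob.bd : ∀ {n : ℕ}, E.Ob n f μ → E.Bd f μ
  | 0, h => h
  | _ + 1, h => h.1

theorem Ob.nn (h : E.Ob n f μ) (j : E.J) : 0 ≤ μ j := h.bd.1 j

theorem Ob.der (h : E.Ob (n + 1) f μ) (i : Fin 5) : E.Ob n (E.X i f) μ := h.2 i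

theorem Ob.pred : ∀ {n : ℕ} {f : A}, E.Ob (n + 1) f μ → E.Ob n f μ
  | 0, _, h => h.1
  | _ + 1, _, h => ⟨h.1, fun i => (h.2 i).pred⟩

theorem Ob.le (h : E.Ob n f μ) (e : m ≤ n) : E.Ob m f μ := by
  induction e with
  | refl => exact h
  | step _ ih => exact ih h.pred

theorem Ob.of (h : E.Ob n f μ) (e : g = f) : E.Ob n g μ := e ▸ h

theorem Ob.mono : ∀ {n : ℕ} {f : A}, E.Ob n f μ → E.Le μ ν → E.Ob n f ν
  | 0, _, h, l => Bd.mono h l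
  | _ + 1, _, h, l => ⟨h.1.mono l, fun i => (h.2 i).mono l⟩

theorem Ob.add : ∀ {n : ℕ} {f g : A}, E.Ob n f μ → E.Ob n g μ → E.Ob n (f + g) μ
  | 0, _, _, h, h' => Bd.add h h'
  | _ + 1, _, _, h, h' => ⟨h.1.add h'.1, fun i => ((h.2 i).add (h'.2 i)).of (D_add _ _ _)⟩

theorem Ob.mul : ∀ {n : ℕ} {f g : A}, E.Ob n f μ → E.Ob n g ν → E.Ob n (f * g) (μ * ν)
  | 0, _, _, h, h' => Bd.mul h h'
  | _ + 1, _, _, h, h' => ⟨h.1.mul h'.1, fun i =>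
      ((h.pred.mul (h'.2 i)).add (((h.2 i).mul h'.pred).of (mul_comm _ _))).of (D_mul _ _ _)⟩

theorem ob_zero (p : ∀ j, 0 ≤ μ j) : ∀ n : ℕ, E.Ob n 0 μ
  | 0 => ⟨p, 0, fun j => by simp⟩
  | n + 1 => ⟨⟨p, 0, fun j => by simp⟩, fun _ => (ob_zero p n).of (D_zero _)⟩

/-- Constants. -/
theorem ob_cst (h : E.Bd f μ) (e : ∀ i, E.X i f = 0) : ∀ n : ℕ, E.Ob n f μ
  | 0 => h
  | n + 1 => ⟨h, fun i => (ob_zero h.1 n).of (e i)⟩

theorem ob_alg (z : ℂ) (n : ℕ) : E.Ob n (algebraMap ℂ A z) 1 :=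
  ob_cst ⟨fun _ => zero_le_one, ‖z‖, fun j => by simp [E.alg]⟩ (fun _ => D_alg _ _) n

theorem ob_one (n : ℕ) : E.Ob n 1 1 := (ob_alg 1 n).of (map_one _).symm
theorem ob_num (k : ℕ) [k.AtLeastTwo] (n : ℕ) : E.Ob n (ofNat(k) : A) 1 :=
  (ob_alg ofNat(k) n).of (map_ofNat _ k).symm

/-- Bounded factors. -/
theorem Ob.lm (h : E.Ob n f 1) (h' : E.Ob n g μ) : E.Ob n (f * g) μ := by
  simpa only [one_mul] using h.mul h'
theorem Ob.rm (h : E.Ob n f μ) (h' : E.Ob n g 1) : E.Ob n (f * g) μ := by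
  simpa only [mul_one] using h.mul h'

theorem Ob.neg (h : E.Ob n f μ) : E.Ob n (-f) μ :=
  ((ob_alg (-1) n).lm h).of (by simp)

theorem Ob.sub (h : E.Ob n f μ) (h' : E.Ob n g μ) : E.Ob n (f - g) μ :=
  (h.add h'.neg).of (sub_eq_add_neg _ _)

theorem Ob.cj : ∀ {n : ℕ} {f : A}, E.Ob n f μ → E.Ob n (E.c f) μ
  | 0, _, h => by simpa only [Ob, Bd, E.ev_c, Complex.norm_conj] using h
  | _ + 1, _, h => ⟨by simpa only [Bd, E.ev_c, Complex.norm_conj] using h.1,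
      fun i => (h.2 i).cj.of (E.c_X i _).symm⟩

theorem Ob.sum3 {f : Fin 3 → A} (h : ∀ i, E.Ob n (f i) μ) : E.Ob n (∑ i, f i) μ :=
  (((h 0).add (h 1)).add (h 2)).of (Fin.sum_univ_three f)

/-- A family which is closed under the letters. -/
theorem ob_fam {ι : Type} {f : ι → A} (h : ∀ a, E.Bd (f a) μ)
    (e : ∀ n, (∀ a, E.Ob n (f a) μ) → ∀ a i, E.Ob n (E.X i (f a)) μ) :
    ∀ n a, E.Ob n (f a) μ
  | 0, a => h a
  | n + 1, a => ⟨h a, e n (ob_fam h e n) a⟩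

/-- The division. -/
theorem Ob.div (l : E.Low u) : ∀ {n : ℕ} {y : A}, E.Ob n u 1 → E.Ob n (u * y) μ → E.Ob n y μ := by
  have b : ∀ y, E.Bd (u * y) μ → E.Bd y μ := fun y h => by
    obtain ⟨c, p, l⟩ := l
    obtain ⟨q, C, e⟩ := h
    refine ⟨q, C / c, fun j => ?_⟩
    have := e j
    rw [map_mul, norm_mul] at this
    rw [div_mul_eq_mul_div, le_div_iff₀ p]
    nlinarith [l j, norm_nonneg (E.ev j y)]
  intro n
  induction n with
  | zero => exact fun _ h => b _ h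
  | succ n ih =>
    intro y hu h
    refine ⟨b _ h.1, fun i => ih hu.pred ?_⟩
    exact ((h.2 i).sub ((ih hu.pred h.pred).rm (hu.2 i))).of (by rw [D_mul]; ring)

theorem Ob.inv (l : E.Low u) (h : E.Ob n u 1) (e : u * y = 1) : E.Ob n y 1 :=
  h.div l ((ob_one n).of e)

/-- Real elements. -/
theorem re_of (e : E.c f = f) (j : E.J) : E.ev j f = (E.ev j f).re := by
  have := E.ev_c j f
  rw [e] at this
  exact (Complex.conj_eq_iff_re.1 this.symm).symm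

theorem ev_mc (j : E.J) (f : A) : E.ev j (f * E.c f) = (‖E.ev j f‖ ^ 2 : ℝ) := by
  rw [map_mul, E.ev_c, Complex.mul_conj, Complex.normSq_eq_norm_sq]

/-! ### Differences -/

/-- f' is bounded, and the difference is bounded by the weight. -/
structure Df (E : Ev A) (n : ℕ) (μ : E.J → ℝ) (f f' : A) : Prop where
  le : E.Le μ 1
  k : E.Ob n f' 1
  d : E.Ob n (f - f') μ

variable {f' g' : A}

theorem Df.b (h : E.Df n μ f f') : E.Ob n f 1 := ((h.d.mono h.le).add h.k).of (by ring)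
theorem Df.of (h : E.Df n μ f f') (e : g = f) (e' : g' = f') : E.Df n μ g g' := e ▸ e' ▸ h
theorem Df.pred (h : E.Df (n + 1) μ f f') : E.Df n μ f f' := ⟨h.le, h.k.pred, h.d.pred⟩
theorem Df.mono (h : E.Df n μ f f') (l : E.Le μ ν) (l' : E.Le ν 1) : E.Df n ν f f' :=
  ⟨l', h.k, h.d.mono l⟩
theorem Df.add (h : E.Df n μ f f') (h' : E.Df n μ g g') : E.Df n μ (f + g) (f' + g') :=
  ⟨h.le, h.k.add h'.k, (h.d.add h'.d).of (by ring)⟩
theorem Df.sub (h : E.Df n μ f f') (h' : E.Df n μ g g') : E.Df n μ (f - g) (f' - g') :=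
  ⟨h.le, h.k.sub h'.k, (h.d.sub h'.d).of (by ring)⟩
theorem Df.neg (h : E.Df n μ f f') : E.Df n μ (-f) (-f') := ⟨h.le, h.k.neg, h.d.neg.of (by ring)⟩
theorem Df.mul (h : E.Df n μ f f') (h' : E.Df n μ g g') : E.Df n μ (f * g) (f' * g') :=
  ⟨h.le, h.k.lm h'.k, ((h.d.rm h'.b).add (h.k.lm h'.d)).of (by ring)⟩
theorem Df.lm (h : E.Ob n u 1) (h' : E.Df n μ g g') : E.Df n μ (u * g) (u * g') :=
  ⟨h'.le, h.lm h'.k, (h.lm h'.d).of (by ring)⟩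
theorem Df.cj (h : E.Df n μ f f') : E.Df n μ (E.c f) (E.c f') :=
  ⟨h.le, h.k.cj, h.d.cj.of (map_sub _ _ _).symm⟩
theorem Df.der (h : E.Df (n + 1) μ f f') (i : Fin 5) : E.Df n μ (E.X i f) (E.X i f') :=
  ⟨h.le, h.k.der i, (h.d.der i).of (D_sub _ _ _).symm⟩
theorem Df.refl (h : E.Ob n f 1) (l : E.Le μ 1) (p : ∀ j, 0 ≤ μ j) : E.Df n μ f f :=
  ⟨l, h, (ob_zero p n).of (sub_self f)⟩
theorem Df.sum3 {f f' : Fin 3 → A} (h : ∀ i, E.Df n μ (f i) (f' i)) :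
    E.Df n μ (∑ i, f i) (∑ i, f' i) :=
  (((h 0).add (h 1)).add (h 2)).of (Fin.sum_univ_three f) (Fin.sum_univ_three f')

theorem Df.div {u' y' : A} (l : E.Low u) (l' : E.Low u') (hu : E.Df n μ u u')
    (h : E.Df n μ (u * y) (u' * y')) : E.Df n μ y y' :=
  have k : E.Ob n y' 1 := hu.k.div l' h.k
  ⟨h.le, k, hu.b.div l ((h.d.sub (hu.d.rm k)).of (by ring))⟩

/-- The change of the first letter. -/
theorem ob_chg {Y : Fin 5 → Der A} (c : ∀ i f, E.c (Y i f) = Y i (E.c f)) {s : Fin 5 → A}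
    (hs : ∀ n i, E.Ob n (s i) 1) (e : ∀ i f, Y i f = s i * E.X i f) :
    ∀ {n : ℕ} {f : A}, E.Ob n f μ → ({ E with X := Y, c_X := c } : Ev A).Ob n f μ
  | 0, _, h => h
  | n + 1, _, h => ⟨h.1, fun i => ob_chg c hs e (((hs n i).lm (h.2 i)).of (e i _))⟩

end Ev
end Vale.Agent.P354YO
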