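import Vale.Agent.P354YO.Ks

/-!
The gain for the time derivatives and for the radial derivative of the shift.
-/

noncomputable section

namespace Vale.Agent.P354YO

open Vale.Agent.P354XG Vale.Agent.P354XD Vale.Agent.P354XR
open Vale.Agent.P354XG.Geo (hf two_hf)
open Vale.Agent.P354YK Ev

variable {A : Type} [CommRing A] [Algebra ℂ A]

namespace Dt
variable {D : Dt A} {E : Ev A} {e ρ α γ μ ν : E.J → ℝ} {f g f' g' u : A} {n m : ℕ}

/-- The two classes of factors. -/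
structure A1 (D : Dt A) (E : Ev A) (n : ℕ) (μ : E.J → ℝ) (f f' : A) : Prop where
  df : E.Df n μ f f'
  k : E.Ob n (D.k.r * f') 1
structure A0 (D : Dt A) (E : Ev A) (n : ℕ) (μ ν : E.J → ℝ) (f f' : A) : Prop where
  df : E.Df n ν f f'
  d : E.Ob n (D.ri * (f - f')) μ

theorem A1.pred (a : D.A1 E (n + 1) μ f f') : D.A1 E n μ f f' := ⟨a.df.pred, a.k.pred⟩
theorem A1.add (a : D.A1 E n μ f f') (b : D.A1 E n μ g g') : D.A1 E n μ (f + g) (f' + g') :=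
  ⟨a.df.add b.df, (a.k.add b.k).of (mul_add _ _ _)⟩
theorem A1.sub (a : D.A1 E n μ f f') (b : D.A1 E n μ g g') : D.A1 E n μ (f - g) (f' - g') :=
  ⟨a.df.sub b.df, (a.k.sub b.k).of (mul_sub _ _ _)⟩
theorem A1.lm (s : D.Sy E u) (a : D.A1 E n μ f f') : D.A1 E n μ (u * f) (u * f') :=
  ⟨.lm (s.o n) a.df, ((s.o n).lm a.k).of (mul_left_comm _ _ _)⟩
theorem A1.mono (a : D.A1 E n μ f f') (l : E.Le μ ν) (l' : E.Le ν 1) : D.A1 E n ν f f' :=
  ⟨a.df.mono l l', a.k⟩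
theorem A0.pred (a : D.A0 E (n + 1) μ ν f f') : D.A0 E n μ ν f f' := ⟨a.df.pred, a.d.pred⟩
theorem A0.add (a : D.A0 E n μ ν f f') (b : D.A0 E n μ ν g g') :
    D.A0 E n μ ν (f + g) (f' + g') := ⟨a.df.add b.df, (a.d.add b.d).of (by ring)⟩
theorem A0.lm (s : D.Sy E u) (a : D.A0 E n μ ν f f') : D.A0 E n μ ν (u * f) (u * f') :=
  ⟨.lm (s.o n) a.df, ((s.o n).lm a.d).of (by ring)⟩

theorem A1.mul (h : D.Is) (a : D.A1 E n μ f f') (b : D.A0 E n μ ν g g') :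
    E.Df n μ (f * g) (f' * g') :=
  ⟨a.df.le, a.df.k.lm b.df.k, ((a.df.d.rm b.df.b).add (a.k.lm b.d)).of (by
    linear_combination -(f' * (g - g')) * h.hr)⟩

/-- The comparison of the weights. -/
structure Wt (E : Ev A) (e α γ ρ : E.J → ℝ) : Prop where
  ag : E.Le (e * α) (e * γ)
  ge : E.Le (e * γ) e
  rg : E.Le (ρ⁻¹ * e) (e * γ)
  ar : E.Le (e * α) (e * (ρ * α))
  e1 : E.Le e 1

theorem Wt.g1 (w : Wt E e α γ ρ) : E.Le (e * γ) 1 := w.ge.trans w.e1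
theorem Wt.a1 (w : Wt E e α γ ρ) : E.Le (e * α) 1 := w.ag.trans w.g1

theorem Tab.w (t : D.Tab E m e α γ ρ) (p : D.Pt E e ρ) : Wt E e α γ ρ := by
  have e0 := fun j => (p.e01 j).1
  have g0 : ∀ j, 0 ≤ (e * γ) j := fun j => mul_nonneg (e0 j) ((t.wt j).1.trans (t.wt j).2.1)
  obtain ⟨c, c0, c1⟩ := p.rho
  refine ⟨.of g0 fun j => mul_le_mul_of_nonneg_left (t.wt j).2.1 (e0 j), ⟨e0, 2, fun j => ?_⟩,
    .of g0 fun j => ?_, ⟨fun j => mul_nonneg (e0 j) (mul_nonneg (p.pos j).le (t.wt j).1), c⁻¹,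
      fun j => ?_⟩, p.e_le⟩
  · exact (mul_le_mul_of_nonneg_left (t.wt j).2.2.1 (e0 j)).trans_eq (mul_comm _ _)
  · exact (mul_comm _ _).trans_le (mul_le_mul_of_nonneg_left (t.wt j).2.2.2 (e0 j))
  · simp only [Pi.mul_apply]
    rw [le_inv_mul_iff₀ c0]
    nlinarith [mul_nonneg (mul_nonneg (e0 j) (t.wt j).1) (sub_nonneg.2 (c1 j))]

namespace Pt
variable (h : D.Is) (p : D.Pt E e ρ)
include h p

theorem a1_cj (a : D.A1 E n μ f f') : D.A1 E n μ (D.k.c f) (D.k.c f') := by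
  have c : D.k.c = E.c := p.c.symm
  refine ⟨c ▸ a.df.cj, a.k.cj.of ?_⟩
  rw [← c, map_mul, h.kc.c_r]

theorem a0_cj (a : D.A0 E n μ ν f f') : D.A0 E n μ ν (D.k.c f) (D.k.c f') := by
  have c : D.k.c = E.c := p.c.symm
  refine ⟨c ▸ a.df.cj, a.d.cj.of ?_⟩
  rw [← c, map_mul, map_sub, show D.k.c D.ri = D.ri from h.K.c_ri]

theorem a1_der (a : D.A1 E (n + 1) μ f f') (i : Fin 5) : D.A1 E n μ (E.X i f) (E.X i f') := by
  refine ⟨a.df.der i, ?_⟩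
  have := a.k.der i
  rw [D_mul, show D.k.r = D.r from rfl] at this
  rcases p.X_r h i with z | z <;> rw [z] at this
  · exact this.of (by rw [mul_zero, add_zero]; rfl)
  · exact (this.sub a.k.pred).of (by show D.r * _ = _ - D.r * _; ring)

theorem a0_der (a : D.A0 E (n + 1) μ ν f f') (i : Fin 5) :
    D.A0 E n μ ν (E.X i f) (E.X i f') := by
  refine ⟨a.df.der i, ?_⟩
  have := a.d.der i
  rw [D_mul, D_sub] at this
  rcases p.X_ri h i with z | z <;> rw [z] at this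
  · exact this.of (by ring)
  · exact (this.add a.d.pred).of (by ring)

/-- The fields r R, P, Q in the letters. -/
theorem clo {C : A → A → Prop} (add : ∀ {f f' g g'}, C f f' → C g g' → C (f + g) (f' + g'))
    (lm : ∀ {u f f'}, D.Sy E u → C f f' → C (u * f) (u * f')) (d : ∀ i, C (E.X i f) (E.X i f')) :
    C (D.k.r * D.k.R f) (D.k.r * D.k.R f') ∧ C (D.k.P f) (D.k.P f') ∧ C (D.k.Q f) (D.k.Q f') := by
  have o : ∀ i : Fin 3, C (Om D.K i f) (Om D.K i f') := fun i => p.Xo i ▸ d _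
  have P : ∀ f, D.k.P f = _ := fun f => (P_Om h.K f).trans (by rw [Fin.sum_univ_three])
  have Q : ∀ f, D.k.Q f = _ := fun f => (Q_Om h.K f).trans (by rw [Fin.sum_univ_three, ← neg_mul])
  refine ⟨?_, ?_, ?_⟩
  · have := d 1
    rw [p.X1] at this
    exact this
  · rw [P, P]
    exact lm sy_i (add (add (lm (p.wb' h 0) (o 0)) (lm (p.wb' h 1) (o 1))) (lm (p.wb' h 2) (o 2)))
  · rw [Q, Q]
    exact lm sy_i.neg (add (add (lm (p.wm' h 0) (o 0)) (lm (p.wm' h 1) (o 1)))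
      (lm (p.wm' h 2) (o 2)))

theorem mul_e (a : D.A1 E n ν f f') (b : E.Df n e g g') (l : E.Le (ρ⁻¹ * e) ν) :
    E.Df n ν (f * g) (f' * g') :=
  (a.mul h (⟨b, ((p.ob_ri h n).mul b.d).mono l⟩ : D.A0 E n ν e g g'))

variable (t : D.Tab E m e α γ ρ)
include t

theorem a_nt (i : Fin 6) (hi : 2 ≤ i) : D.A1 E m (e * α) (D.q.nt D.k i) (D.qK.nt D.k i) :=
  ⟨p.dfnt h (t.w p).a1 (p.dn_r h (p.rnt h i hi)) (t.b i fun z => absurd (z ▸ hi) (by decide)),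
    (p.rnt h i hi).o m⟩

theorem a_U : D.A1 E m (e * α) (D.q.U D.k D.ri) (D.qK.U D.k D.ri) :=
  ⟨⟨(t.w p).a1, (p.dn_r h (p.rU h)).o m, (((p.N' h).o m).lm t.b1).of (by
    rw [Pr.U, Pr.U, ← mul_sub, nt_sub, mul_left_comm])⟩, (p.rU h).o m⟩

theorem a_rh : D.A1 E m (e * α) (D.k.N * D.q.G.rh') (D.k.N * D.qK.G.rh') :=
  ⟨⟨(t.w p).a1, (p.dn_r h (p.rrh h)).o m, (((p.N' h).o m).lm (t.gs 6 (by decide)).1).of
    (mul_sub _ _ _).symm⟩, (p.rrh h).o m⟩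

theorem a_si : D.A1 E m (e * α) (D.k.c (D.k.N * D.q.G.si')) (D.k.c (D.k.N * D.qK.G.si')) :=
  p.a1_cj h (.lm (p.N' h) ⟨⟨(t.w p).a1, sy_zero.o (D := D) m, (t.gs 5 (by decide)).1⟩,
    (sy_zero.o (D := D) m).of (mul_zero _)⟩)

theorem z_mu (i : Fin 6) (hi : 2 ≤ i) :
    D.A0 E m (e * α) (e * γ) (D.q.mu D.k i) (D.qK.mu D.k i) :=
  ⟨⟨(t.w p).g1, (p.muK h i hi).o m, (t.g i hi).2.of (mu_sub i)⟩, (t.g i hi).1.of (by
    rw [mu_sub, show D.r = D.k.r from rfl]; linear_combination D.dm i * h.hr)⟩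

theorem z_m1 : D.A0 E m (e * α) (e * γ) (D.q.m 1) (D.qK.m 1) :=
  ⟨⟨(t.w p).g1, sy_zero.o (D := D) m, t.g1.2.of (by
    show D.dm 1 = D.k.r * _; linear_combination -D.dm 1 * h.hr)⟩, t.g1.1⟩

theorem z_ta : D.A0 E m (e * α) (e * γ) (D.k.r * D.q.G.ta) (D.k.r * D.qK.G.ta) :=
  ⟨⟨(t.w p).g1, (p.dn_r h (p.rta h)).o m, (t.gs 3 (by decide)).2.of (mul_sub _ _ _).symm⟩,
    (t.gs 3 (by decide)).1.of (by
      show D.ri * (D.k.r * D.q.G.ta - D.k.r * D.qK.G.ta) = D.q.G.ta - D.qK.G.ta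
      linear_combination (D.q.G.ta - D.qK.G.ta) * h.hr)⟩

omit t in
theorem df_lam (t : D.Tab E m e α γ ρ) (i : Fin 3) :
    E.Df m e (D.q.lam (eO D.K i)) (D.qK.lam (eO D.K i)) := ⟨p.e_le, (p.lamK h i).o m, (t.la i).1⟩

theorem df_mu0 : E.Df m e (D.q.mu D.k 0) (D.qK.mu D.k 0) := by
  have i := (sy_i (D := D) (E := E)).o m
  refine ((((p.z_mu h t 2 le_rfl).df.mono (t.w p).ge p.e_le).mul (.lm i (.sum3 fun j =>
    .lm ((p.wb' h j).o m) (p.df_lam h t j)))).add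
    (((p.z_mu h t 3 (by decide)).df.mono (t.w p).ge p.e_le).mul (Df.lm i (.sum3 fun j =>
      .lm ((p.wm' h j).o m) (p.df_lam h t j))).neg)).of ?_ ?_
  · rw [h.q.mu0, (ga_PQ h.K _).1, (ga_PQ h.K _).2]
  · rw [h.qK.mu0, (ga_PQ h.K _).1, (ga_PQ h.K _).2]

omit t in
/-- The gain for the time derivative. -/
theorem gain (t : D.Tab E (n + 1) e α γ ρ) {y y' w w' c c' z z' : A}
    (hy : D.A0 E (n + 1) (e * α) (e * γ) y y') (hw : D.A1 E (n + 1) (e * α) w w')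
    (hc : D.A0 E n (e * α) (e * γ) c c') (hz : E.Df n (e * α) z z')
    (e1 : D.q.nt D.k 0 * D.k.T y = D.q.rhs D.k D.ri y w c + D.q.mu D.k 0 * D.k.T w + z)
    (e2 : D.qK.nt D.k 0 * D.k.T y' = D.qK.rhs D.k D.ri y' w' c' + D.qK.mu D.k 0 * D.k.T w' + z')
    (ty : D.T y' = 0) (tw : D.T w' = 0) : E.Ob n (D.T y) (e * α) := by
  obtain ⟨y1, y2, y3⟩ := p.clo h (C := D.A0 E n (e * α) (e * γ)) A0.add A0.lm (p.a0_der h hy)
  obtain ⟨w1, w2, w3⟩ := p.clo h (C := D.A1 E n (e * α)) A1.add A1.lm (p.a1_der h hw)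
  have nt := fun i hi => (p.a_nt h t i hi).pred
  have mu := fun i hi => (p.z_mu h t i hi).pred
  have r : E.Df n (e * α) (D.q.rhs D.k D.ri y w c) (D.qK.rhs D.k D.ri y' w' c') :=
    ((((((((((((p.a_U h t).pred.mul h y1).neg.sub ((nt 2 le_rfl).mul h y2)).sub
      ((nt 3 (by decide)).mul h y3)).sub (((nt 4 (by decide)).sub (nt 5 (by decide))).mul h
      hy.pred)).add (w1.mul h (p.z_m1 h t).pred)).add (w2.mul h (mu 2 le_rfl))).add
      (w3.mul h (mu 3 (by decide)))).sub (hw.pred.mul h ((mu 4 (by decide)).add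
      (mu 5 (by decide))))).add ((p.a_rh h t).pred.mul h hy.pred)).add
      ((p.a_si h t).pred.mul h hc)).sub (hw.pred.mul h (p.z_ta h t).pred))
  have T := hw.df.d.der 0
  rw [t.XT, D_sub, tw, sub_zero] at T
  rw [show D.k.T y' = 0 from ty, show D.k.T w' = 0 from tw] at e2
  refine Ob.div (p.low0 h) (p.dfnt h (t.w p).a1 (p.nt0 h) (t.b 0 (by decide))).pred.b
    (((r.d.add ((p.df_mu0 h t).pred.b.lm T)).add hz.d).of ?_)
  show _ * D.k.T y = _ + _ * D.k.T w + _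
  linear_combination e1 - e2

omit t in
theorem T_m (t : D.Tab E (n + 1) e α γ ρ) : E.Ob n (D.T (D.q.m 1)) (e * α) ∧
    E.Ob n (D.T (D.q.mu D.k 2)) (e * α) ∧ E.Ob n (D.T (D.q.mu D.k 3)) (e * α) := by
  obtain ⟨a1, a2, a3⟩ := h.q.T_eq h.hr
  obtain ⟨b1, b2, b3⟩ := h.qK.T_eq h.hr
  have U := p.a_U h t
  have m2 := p.z_mu h t 2 le_rfl
  have m3 := p.z_mu h t 3 (by decide)
  have k : D.A1 E n (e * α) (D.k.c (D.k.N * (D.k.N * D.q.G.ka')))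
      (D.k.c (D.k.N * (D.k.N * D.qK.G.ka'))) :=
    p.a1_cj h (.lm (p.N' h) (.lm (p.N' h) ⟨⟨(t.w p).a1, sy_zero.o (D := D) n, t.kb.pred⟩,
      (sy_zero.o (D := D) n).of (mul_zero _)⟩))
  exact ⟨p.gain h t (p.z_m1 h t) U (p.a0_cj h (p.z_m1 h t).pred)
      ((U.pred.mul h (p.z_m1 h t).pred).sub k.df) (a1.trans (add_sub_assoc _ _ _))
      (b1.trans (add_sub_assoc _ _ _)) (D_zero _) (p.dn_r h (p.rU h)).t,
    p.gain h t m2 (p.a_nt h t 2 le_rfl) (p.a0_cj h m3.pred) (U.pred.mul h m2.pred) a2 b2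
      (p.muK h 2 le_rfl).t (p.dn_r h (p.rnt h 2 le_rfl)).t,
    p.gain h t m3 (p.a_nt h t 3 (by decide)) (p.a0_cj h m2.pred) (U.pred.mul h m3.pred) a3 b3
      (p.muK h 3 (by decide)).t (p.dn_r h (p.rnt h 3 (by decide))).t⟩

omit p t in
theorem R_b {q : Pr A} (o : q.Is D.k) (i : Fin 3) : D.k.r * (D.k.r * D.k.R (q.b D.K i)) =
    ii A * (q.v * (wb D.K i * (D.k.r * (D.k.r * D.k.R (q.nt D.k 2))) -
      wm D.K i * (D.k.r * (D.k.r * D.k.R (q.nt D.k 3)))) -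
      q.v * q.v * (D.k.r * (D.k.r * D.k.R (q.nt D.k 0))) *
        (wb D.K i * q.nt D.k 2 - wm D.K i * q.nt D.k 3)) := by
  have b : D.k.R (wb D.K i) = 0 := by rw [h.R_ap, T]; simp only [tw h.K i]; ring
  have c : D.k.R (wm D.K i) = 0 := by rw [h.R_ap, T]; simp only [tw h.K i]; ring
  have v := KC.D_inv D.k.R (show q.v * q.nt D.k 0 = 1 by rw [mul_comm]; exact o.hv)
  simp only [b_eq, D_mul _ (ii A), D_mul _ q.v, D_mul _ (wb D.K i), D_mul _ (wm D.K i), D_sub, D_ii,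
    b, c, v]
  ring

/-- The gain for the radial derivative of the shift. -/
theorem R_be (i : Fin 3) : E.Ob m (D.r * E.X 1 (D.β i)) (e * γ) := by
  have w := t.w p
  have ta : D.A1 E m (e * γ) (D.k.r * D.q.G.ta) (D.k.r * D.qK.G.ta) :=
    ⟨(p.z_ta h t).df, (p.rta h).o m⟩
  have t2 : D.A1 E m (e * γ) (D.k.r * D.k.ta2) (D.k.r * D.k.ta2) :=
    ⟨.refl ((p.dn_r h (p.rta2 h)).o m) w.g1 w.ag.1, (p.rta2 h).o m⟩
  have c1 : D.A1 E m (e * γ) (D.q.c1 D.k) (D.qK.c1 D.k) := (p.a1_cj h ta).sub t2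
  have c2 : D.A1 E m (e * γ) (D.q.c2 D.k) (D.qK.c2 D.k) := ta.sub (p.a1_cj h t2)
  have m0 := p.df_mu0 h t
  have m2 := p.z_mu h t 2 le_rfl
  have m3 := p.z_mu h t 3 (by decide)
  have c : D.k.c = E.c := p.c.symm
  have r0 := ((p.mul_e h c1 m0 w.rg).add (p.mul_e h c2 (c ▸ m0.cj) w.rg)).of h.q.R_eq.1 h.qK.R_eq.1
  have r2 := ((c1.df.mul m2.df).add (c2.df.mul (p.a0_cj h m3).df)).of h.q.R_eq.2.1 h.qK.R_eq.2.1
  have r3 := ((c1.df.mul m3.df).add (c2.df.mul (p.a0_cj h m2).df)).of h.q.R_eq.2.2 h.qK.R_eq.2.2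
  have v := (p.dfv h w.a1 (t.b 0 (by decide))).mono w.ag w.g1
  have b := (p.wb' h i).o m
  have b' := (p.wm' h i).o m
  have := (Df.lm ((sy_i (D := D)).o m) ((v.mul ((Df.lm b r2).sub (Df.lm b' r3))).sub
    (((v.mul v).mul r0).mul ((Df.lm b ((p.a_nt h t 2 le_rfl).df.mono w.ag w.g1)).sub
    (Df.lm b' ((p.a_nt h t 3 (by decide)).df.mono w.ag w.g1)))))).of (R_b h h.q i) (R_b h h.qK i)
  refine this.d.of ?_
  rw [p.X1, β, Derivation.smul_apply, D_sub, smul_eq_mul, show D.r = D.k.r from rfl]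
  ring

end Pt
end Dt
end Vale.Agent.P354YO
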