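import Vale.Agent.P354YO.Cal
import Vale.Agent.P354YK.Met
import Vale.Agent.P354YK.Ref
import Vale.Agent.P354Z.Est

/-!
The estimates far out over an abstract ring: exact statements.
-/

noncomputable section

namespace Vale.Agent.P354YO

open Vale.Agent.P354XG Vale.Agent.P354XD Vale.Agent.P354XR
open Vale.Agent.P354XG.Geo (hf)
open Vale.Agent.P354YK (oth out onc omc gBo)
open Vale.Agent.P354Z (sc)

variable {A : Type} [CommRing A] [Algebra ℂ A]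

/-- A bilinear form on the components along T R P Q. -/
def bl (γ : Fin 4 → Fin 4 → A) (x y : Vec A) : A := ∑ a, ∑ b, γ a b * x a * y b

/-- The GHP data, the components n, m of thorn' and eth, the metric, the inverse of N n 0. -/
structure Pr (A : Type) [CommRing A] [Algebra ℂ A] where
  G : GHP A
  n : Fin 6 → A
  m : Fin 6 → A
  γ : Fin 4 → Fin 4 → A
  v : A

namespace Pr
variable (q : Pr A) (k : KC A)

def vl (k : KC A) : Vec A := ![0, k.N, 0, 0]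
def vn : Vec A := ![q.n 0, q.n 1, q.n 2, q.n 3]
def vm : Vec A := ![q.m 0, q.m 1, q.m 2, q.m 3]
def vb : Vec A := ![k.c (q.m 0), k.c (q.m 1), k.c (q.m 3), k.c (q.m 2)]

structure Is : Prop where
  kc : k.Is
  free : k.Free
  is : q.G.Is
  c : q.G.c = k.c
  H : q.G.H = k.H
  B : q.G.Hb = k.B
  th : q.G.th = oth k
  tp : q.G.tp = k.V (q.n 0) (q.n 1) (q.n 2) (q.n 3) (q.n 4) (q.n 5)
  et : q.G.et = k.V (q.m 0) (q.m 1) (q.m 2) (q.m 3) (q.m 4) (q.m 5)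
  ta : q.G.ta' = k.ta2
  sym : ∀ a b, q.γ a b = q.γ b a
  ll : bl q.γ (vl k) (vl k) = 0
  ln : bl q.γ (vl k) q.vn = -2
  lm : bl q.γ (vl k) q.vm = 0
  lb : bl q.γ (vl k) (q.vb k) = 0
  nn : bl q.γ q.vn q.vn = 0
  nm : bl q.γ q.vn q.vm = 0
  nb : bl q.γ q.vn (q.vb k) = 0
  mm : bl q.γ q.vm q.vm = 0
  mb : bl q.γ q.vm (q.vb k) = 2
  bb : bl q.γ (q.vb k) (q.vb k) = 0
  RT : q.γ 1 0 = -1
  hv : k.N * q.n 0 * q.v = 1

/-- The angular part of n / n 0 along the rotations. -/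
def b (K : Hp A) (i : Fin 3) : A := ii A * (q.v * (K.N * (q.n 2 * wb K i - q.n 3 * wm K i)))

end Pr

/-- The Kerr metric, and Kerr. -/
def gaK (k : KC A) (a b : Fin 4) : A :=
  gBo k (![1, 0, 0, 0] a) (![0, 1, 0, 0] a) (![0, 0, 1, 0] a) (![0, 0, 0, 1] a)
    (![1, 0, 0, 0] b) (![0, 1, 0, 0] b) (![0, 0, 1, 0] b) (![0, 0, 0, 1] b)
def prK (k : KC A) (w : A) : Pr A := ⟨out k, onc k, omc k, gaK k, w⟩

/-- The components of T, R and of the rotations. -/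
def eT (A : Type) [CommRing A] : Vec A := ![1, 0, 0, 0]
def eR (A : Type) [CommRing A] : Vec A := ![0, 1, 0, 0]
def eO (K : Hp A) (i : Fin 3) : Vec A :=
  ![0, 0, -(hf A * ii A * wm K i), hf A * ii A * wb K i]

/-- The chart, the final and the initial parameters, the solution. -/
structure Dt (A : Type) [CommRing A] [Algebra ℂ A] where
  K : Hp A
  p : Pm A
  p0 : Pm A
  q : Pr A
  w : A

namespace Dt
variable (D : Dt A) (E : Ev A)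

def k : KC A := kk D.K D.p
def k0 : KC A := kk D.K D.p0
def qK : Pr A := prK D.k D.w
def T : Der A := D.K.d 0
def r : A := D.K.z 1
def ri : A := D.K.ri

structure Is : Prop where
  K : D.K.Is
  p : D.p.Is D.K
  p0 : D.p0.Is D.K
  j1 : D.p.j1 = 0
  q : D.q.Is D.k
  w : D.k.N * onc D.k 0 * D.w = 1

/-- The differences to Kerr. -/
def dn (i : Fin 6) : A := D.q.n i - onc D.k i
def dm (i : Fin 6) : A := D.q.m i - omc D.k i
def ds (i : Fin 13) : A := sc D.q.G i - sc (out D.k) i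

/-- The metric, and Kerr with the final and with the initial parameters. -/
def gg (x y : Vec A) : A := bl D.q.γ x y
def gk (x y : Vec A) : A := bl (gaK D.k) x y
def g0 (x y : Vec A) : A := bl (gaK D.k0) x y

def β (i : Fin 3) : A := D.q.b D.K i - D.qK.b D.K i
def Nd : Vec A := eT A + ∑ i, D.β i • eO D.K i
def ft : A := D.gg D.Nd D.Nd - D.g0 (eT A) (eT A)

/-- The points. -/
structure Pt (e ρ : E.J → ℝ) : Prop where
  c : E.c = D.K.c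
  X0 : ∀ f, D.T f = 0 → E.X 0 f = 0
  X1 : E.X 1 = D.r • D.k.R
  Xo : ∀ i : Fin 3, E.X i.succ.succ = Om D.K i
  z : ∀ i ≥ 2, ∀ j, ‖E.ev j (D.K.z i)‖ ≤ 1
  N : ∀ j, E.ev j D.K.N = 1
  r : ∀ j, E.ev j D.r = ρ j
  rho : ∃ c > 0, ∀ j, c ≤ ρ j
  e01 : ∀ j, 0 ≤ e j ∧ e j ≤ 1
  a0 : E.Bd D.p0.a 1
  M0 : E.Bd D.p0.M 1
  da : E.Bd (D.p.a - D.p0.a) e
  dM : E.Bd (D.p.M - D.p0.M) e
  ar : ∀ j, ‖E.ev j D.p.a‖ ≤ ρ j
  s0 : ∀ j, ‖E.ev j (D.dn 0)‖ ≤ 1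

def Wq (n : ℕ) (f : A) (μ ν : E.J → ℝ) : Prop := E.Ob n f μ ∧ E.Ob n (D.T f) ν
def Gq (n : ℕ) (f : A) (μ ν : E.J → ℝ) : Prop := E.Ob n f μ ∧ E.Ob n (D.r * f) ν

/-- The tables. -/
structure Tab (n : ℕ) (e α γ ρ : E.J → ℝ) : Prop where
  XT : E.X 0 = D.T
  wt : ∀ j, 0 ≤ α j ∧ α j ≤ γ j ∧ γ j ≤ 2 ∧ (ρ j)⁻¹ ≤ γ j
  s2 : ∀ j, ‖E.ev j (D.r * D.dm 2)‖ ≤ 1 / 10
  s3 : ∀ j, ‖E.ev j (D.r * D.dm 3)‖ ≤ 1 / 10
  b : ∀ i ≠ 1, E.Ob n (D.dn i) (e * α)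
  b1 : E.Ob n (D.ri * D.dn 1) (e * α)
  kb : E.Ob n (D.ds 4) (e * α)
  g : ∀ i ≥ 2, D.Gq E n (D.dm i) (e * α) (e * γ)
  g1 : D.Gq E n (D.ri * D.dm 1) (e * α) (e * γ)
  gs : ∀ i, i = 3 ∨ i = 5 ∨ i = 6 → D.Gq E n (D.ds i) (e * α) (e * γ)
  la : ∀ i, D.Wq E n (D.gg (eR A) (eO D.K i) - D.gk (eR A) (eO D.K i)) e (e * α)

/-- The estimates of the metric. -/
structure FarE (n : ℕ) (e α γ ρ : E.J → ℝ) : Prop where
  la : ∀ i, D.Wq E n (D.gg (eR A) (eO D.K i) - D.g0 (eR A) (eO D.K i)) e (e * α)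
  shift : ∀ i, D.Wq E n (D.β i) (e * α) (e * α) ∧
    D.Wq E n (D.r * E.X 1 (D.β i)) (e * γ) (e * γ)
  tt : D.Wq E n D.ft (e * (1 + ρ * α)) (e * (ρ * α))
  tt' : ∀ i ≠ 0, D.Wq E n (E.X i D.ft) (e * (γ + ρ * α)) (e * (ρ * α))
  ta : ∀ i, D.Wq E n (D.ri * (D.gg D.Nd (eO D.K i) - D.g0 (eT A) (eO D.K i))) (e * γ) (e * α)
  aa : ∀ i j, D.Wq E n (D.ri * D.ri * (D.gg (eO D.K i) (eO D.K j) -
    D.g0 (eO D.K i) (eO D.K j))) e (e * α)

end Dt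

/-- The shift is a real function on the base. -/
def BAS : Prop :=
  ∀ (A : Type) [CommRing A] [Algebra ℂ A] (D : Dt A), D.Is → ∀ i,
    D.K.c (D.β i) = D.β i ∧ D.K.H (D.β i) = 0

/-- The shift in the layer: E has the letters of the scale r, Y are the other letters. -/
def LAY : Prop :=
  ∀ (A : Type) [CommRing A] [Algebra ℂ A] (D : Dt A) (E : Ev A) (e ρ μ : E.J → ℝ) (n : ℕ)
    (Y : Fin 5 → Der A) (c : ∀ i f, E.c (Y i f) = Y i (E.c f)), D.Is → D.Pt E e ρ →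
    E.X 0 = D.r • D.T → Y 0 = D.T → (∀ i ≠ 0, Y i = E.X i) → E.Le μ 1 →
    (∀ i ≠ 1, E.Ob (n + 1) (D.dn i) μ) → ∀ i,
      D.Wq { E with X := Y, c_X := c } n (D.β i) μ (μ * ρ⁻¹)

/-- The tables give the estimates of the metric. -/
def FARA : Prop :=
  ∀ (A : Type) [CommRing A] [Algebra ℂ A] (D : Dt A) (E : Ev A) (e α γ ρ : E.J → ℝ) (n : ℕ),
    D.Is → D.Pt E e ρ → D.Tab E (n + 3) e α γ ρ → D.FarE E n e α γ ρ

end Vale.Agent.P354YO
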