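import Vale.Agent.P354YO.Cls

/-!
The tables give the estimates of the metric.
-/

noncomputable section

namespace Vale.Agent.P354YO

open Vale.Agent.P354XG Vale.Agent.P354XD Vale.Agent.P354XR
open Vale.Agent.P354XG.Geo (hf two_hf)
open Vale.Agent.P354YK Ev

variable {A : Type} [CommRing A] [Algebra ℂ A]

namespace Dt
variable {D : Dt A} {E : Ev A} {e ρ α γ μ ν μ' ν' : E.J → ℝ} {f g f' g' u : A} {n m : ℕ}

theorem Wq.of (a : D.Wq E n f μ ν) (e : g = f) : D.Wq E n g μ ν := e ▸ a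
theorem Wq.le (a : D.Wq E n f μ ν) (e : m ≤ n) : D.Wq E m f μ ν := ⟨a.1.le e, a.2.le e⟩
theorem Wq.mono (a : D.Wq E n f μ ν) (l : E.Le μ μ') (l' : E.Le ν ν') : D.Wq E n f μ' ν' :=
  ⟨a.1.mono l, a.2.mono l'⟩
theorem Wq.add (a : D.Wq E n f μ ν) (b : D.Wq E n g μ ν) : D.Wq E n (f + g) μ ν :=
  ⟨a.1.add b.1, (a.2.add b.2).of (D_add _ _ _)⟩
theorem wq_of (x : E.X 0 = D.T) (a : E.Ob (n + 1) f μ) : D.Wq E n f μ μ := ⟨a.pred, x ▸ a.der 0⟩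

/-- The difference to a stationary function, and the time derivative. -/
structure Cl (D : Dt A) (E : Ev A) (n : ℕ) (μ ν : E.J → ℝ) (f f' : A) : Prop where
  df : E.Df n μ f f'
  t : E.Ob n (D.T f) ν
  t0 : D.T f' = 0

theorem Cl.wq (a : D.Cl E n μ ν f f') : D.Wq E n (f - f') μ ν :=
  ⟨a.df.d, a.t.of (by rw [D_sub, a.t0, sub_zero])⟩
theorem Cl.of (a : D.Cl E n μ ν f f') (e : g = f) (e' : g' = f') : D.Cl E n μ ν g g' := e ▸ e' ▸ a
theorem Cl.up (a : D.Cl E n μ ν f f') (b : E.Df n μ' f f') : D.Cl E n μ' ν f f' := ⟨b, a.t, a.t0⟩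
theorem Cl.mono (a : D.Cl E n μ ν f f') (l : E.Le μ μ') (l' : E.Le μ' 1) : D.Cl E n μ' ν f f' :=
  a.up (a.df.mono l l')
theorem Cl.add (a : D.Cl E n μ ν f f') (b : D.Cl E n μ ν g g') :
    D.Cl E n μ ν (f + g) (f' + g') :=
  ⟨a.df.add b.df, (a.t.add b.t).of (D_add _ _ _), by rw [D_add, a.t0, b.t0, add_zero]⟩
theorem Cl.sub (a : D.Cl E n μ ν f f') (b : D.Cl E n μ ν g g') :
    D.Cl E n μ ν (f - g) (f' - g') :=
  ⟨a.df.sub b.df, (a.t.sub b.t).of (D_sub _ _ _), by rw [D_sub, a.t0, b.t0, sub_zero]⟩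
theorem Cl.mul (a : D.Cl E n μ ν f f') (b : D.Cl E n μ ν g g') :
    D.Cl E n μ ν (f * g) (f' * g') :=
  ⟨a.df.mul b.df, ((a.df.b.lm b.t).add (b.df.b.lm a.t)).of (D_mul _ _ _), by
    rw [D_mul, a.t0, b.t0]; ring⟩
theorem Cl.lm (s : D.Sy E u) (a : D.Cl E n μ ν f f') : D.Cl E n μ ν (u * f) (u * f') :=
  ⟨.lm (s.o n) a.df, ((s.o n).lm a.t).of (by rw [D_mul, s.t]; ring), by rw [D_mul, s.t, a.t0]; ring⟩
theorem Cl.sy (a : D.Cl E n μ ν f f') (s : D.Sy E u) : D.Cl E n μ ν u u :=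
  ⟨.refl (s.o n) a.df.le a.df.d.nn, (ob_zero a.t.nn n).of s.t, s.t⟩
theorem Cl.sum3 {f f' : Fin 3 → A} (h : ∀ i, D.Cl E n μ ν (f i) (f' i)) :
    D.Cl E n μ ν (∑ i, f i) (∑ i, f' i) :=
  (((h 0).add (h 1)).add (h 2)).of (Fin.sum_univ_three f) (Fin.sum_univ_three f')
theorem Cl.div {u' y y' s : A} (l : E.Low u) (l' : E.Low u') (i : s * u' = 1)
    (a : D.Cl E n μ ν u u') (b : D.Cl E n μ ν (u * y) (u' * y')) : D.Cl E n μ ν y y' := by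
  have d := Df.div l l' a.df b.df
  refine ⟨d, a.df.b.div l ((b.t.sub (d.b.lm a.t)).of (by rw [D_mul]; ring)), ?_⟩
  have := b.t0
  rw [D_mul, a.t0] at this
  linear_combination s * this - D.T y' * i
theorem cl_of (x : E.X 0 = D.T) (a : E.Df (n + 1) μ f f') (t : D.T f' = 0) : D.Cl E n μ μ f f' :=
  ⟨a.pred, (a.d.der 0).of (by rw [x, D_sub, t, sub_zero]), t⟩
theorem cl_st (a : E.Df n μ f f') (t : D.T f = 0) (t' : D.T f' = 0) (z : ∀ j, 0 ≤ ν j) :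
    D.Cl E n μ ν f f' := ⟨a, (ob_zero z n).of t, t'⟩

/-- The metric on the fields. -/
def Bk (D : Dt A) : Vec A := ∑ i, D.qK.b D.K i • eO D.K i
def ph (D : Dt A) (q : Pr A) (i : Fin 3) : A := D.ri * bl q.γ (q.Nt D.k) (eO D.K i)
def ps (D : Dt A) (q : Pr A) (i j : Fin 3) : A := D.ri * D.ri * bl q.γ (eO D.K i) (eO D.K j)
def pt (D : Dt A) (q : Pr A) (i : Fin 3) : A := D.ri * bl q.γ (q.Nt D.k - D.Bk) (eO D.K i)

theorem Nd_eq (h : D.Is) : D.Nd = D.q.Nt D.k - D.Bk := by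
  rw [← b_sum h.K, Nd, Bk, add_sub_assoc, ← Finset.sum_sub_distrib]
  simp only [β, sub_smul]

theorem eT_eq (h : D.Is) : eT A = D.qK.Nt D.k - D.Bk := by
  rw [← b_sum h.K, Bk, add_sub_cancel_right]

theorem pt_eq (h : D.Is) (q : Pr A) (i : Fin 3) :
    D.pt q i = D.ph q i - ∑ j, D.k.r * D.qK.b D.K j * D.ps q j i := by
  simp only [pt, ph, ps, Bk, Fin.sum_univ_three, bl_sub_l, bl_add_l, bl_smul_l]
  linear_combination D.ri * (D.qK.b D.K 0 * bl q.γ (eO D.K 0) (eO D.K i) +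
    D.qK.b D.K 1 * bl q.γ (eO D.K 1) (eO D.K i) + D.qK.b D.K 2 * bl q.γ (eO D.K 2) (eO D.K i)) * h.hr

theorem tt_eq (h : D.Is) {q : Pr A} (o : q.Is D.k) :
    bl q.γ (q.Nt D.k - D.Bk) (q.Nt D.k - D.Bk) = 4 * (D.k.r * q.U D.k D.ri * (q.v * q.v)) -
      ∑ i, D.k.r * D.qK.b D.K i * (D.ph q i + D.pt q i) := by
  have e := o.tt_eq
  rw [bl_sub_r, bl_sub_l, o.cm D.Bk, e, Pr.U]
  simp only [pt, ph]
  generalize q.Nt D.k - D.Bk = V
  simp only [Bk, Fin.sum_univ_three, bl_add_r, bl_smul_r]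
  linear_combination (-(4 * q.nt D.k 1 * q.v * q.v) +
    D.qK.b D.K 0 * (bl q.γ (q.Nt D.k) (eO D.K 0) + bl q.γ V (eO D.K 0)) +
    D.qK.b D.K 1 * (bl q.γ (q.Nt D.k) (eO D.K 1) + bl q.γ V (eO D.K 1)) +
    D.qK.b D.K 2 * (bl q.γ (q.Nt D.k) (eO D.K 2) + bl q.γ V (eO D.K 2))) * h.hr

/-- The Kerr metric on the fields. -/
theorem gK_eq (h : D.Is) (p' : Pm A) : bl (gaK (kk D.K p')) (eT A) (eT A) =
      D.ri * (2 * (p'.M * (D.k.r * D.k.r * p'.sg))) - 1 ∧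
    (∀ i, bl (gaK (kk D.K p')) (eR A) (eO D.K i) = D.k.qf (eO D.K i 2) (eO D.K i 3) * p'.a) ∧
    (∀ i, D.ri * bl (gaK (kk D.K p')) (eT A) (eO D.K i) = D.ri * (-(D.ri * 2 *
      D.k.qf (eO D.K i 2) (eO D.K i 3)) * (p'.M * (D.k.r * D.k.r * p'.sg) * p'.a))) ∧
    ∀ i j, D.ri * D.ri * bl (gaK (kk D.K p')) (eO D.K i) (eO D.K j) =
      2 * (eO D.K i 2 * eO D.K j 3 + eO D.K i 3 * eO D.K j 2) *
        (1 + D.ri * D.k.x * (D.ri * D.k.x) * (p'.a * p'.a)) +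
      D.ri * D.ri * D.k.qf (eO D.K i 2) (eO D.K i 3) * D.k.qf (eO D.K j 2) (eO D.K j 3) *
        (p'.a * p'.a * (1 + D.ri * 2 * (p'.M * (D.k.r * D.k.r * p'.sg)))) := by
  have z0 : ∀ i, eO D.K i 0 = 0 := fun _ => rfl
  have z1 : ∀ i, eO D.K i 1 = 0 := fun _ => rfl
  have q : (kk D.K p').qf = D.k.qf := rfl
  have r : (kk D.K p').r = D.k.r := rfl
  have x : (kk D.K p').x = D.k.x := rfl
  have a : (kk D.K p').a = p'.a := rfl
  have M : (kk D.K p').M = p'.M := rfl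
  have s : (kk D.K p').sg = p'.sg := rfl
  have q0 : D.k.qf 0 0 = 0 := by simp [KC.qf]
  simp only [bl_K, gBo, eT, eR, Matrix.cons_val, z0, z1, q, r, x, a, M, s, q0]
  refine ⟨?_, fun i => by ring, fun i => ?_, fun i j => ?_⟩
  · linear_combination -(2 * p'.M * D.k.r * p'.sg) * h.hr
  · linear_combination 2 * D.ri * p'.M * D.k.r * p'.sg * p'.a * D.k.qf (eO D.K i 2) (eO D.K i 3) *
      h.hr
  · linear_combination (2 * (eO D.K i 2 * eO D.K j 3 + eO D.K i 3 * eO D.K j 2) *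
      (D.k.r * D.ri + 1) - 2 * D.ri * D.ri * p'.M * D.k.r * p'.sg * p'.a * p'.a *
      D.k.qf (eO D.K i 2) (eO D.K i 3) * D.k.qf (eO D.K j 2) (eO D.K j 3)) * h.hr

namespace Pt
variable (h : D.Is) (p : D.Pt E e ρ)
include h p

theorem T_X (x : E.X 0 = D.T) (i : Fin 5) (f : A) : D.T (E.X i f) = E.X i (D.T f) := by
  rcases cases5 i with rfl | rfl | ⟨j, rfl⟩
  · rw [x]
  · rw [p.X1, Derivation.smul_apply, Derivation.smul_apply, smul_eq_mul, smul_eq_mul, D_mul,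
      show D.T D.r = 0 from h.kc.T_r, mul_zero, add_zero]
    exact congrArg _ (h.kc.R_T f).symm
  · rw [p.Xo]; exact (Om_comm h.K j f).1

theorem cl_cj (a : D.Cl E n μ ν f f') : D.Cl E n μ ν (D.k.c f) (D.k.c f') := by
  have c : D.k.c = E.c := p.c.symm
  exact ⟨c ▸ a.df.cj, a.t.cj.of (by rw [← c]; exact (h.kc.c_T f).symm),
    (h.kc.c_T f').symm.trans (by rw [show D.k.T f' = 0 from a.t0, map_zero])⟩

theorem cl_g (w : Wt E e α γ ρ) (s : D.Sy E (D.k.r * u)) (a : D.Cl E n e ν f f') :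
    D.Cl E n (e * γ) ν (u * f) (u * f') :=
  (a.lm (p.dn_r h s)).up (p.mul_e h ⟨.refl ((p.dn_r h s).o n) w.g1 w.ag.1, s.o n⟩ a.df w.rg)

/-- The metric on the fields, compared with Kerr. -/
theorem cl_met (t : D.Tab E (n + 1) e α γ ρ) :
    (∀ i, D.Cl E n (e * γ) (e * α) (D.ph D.q i) (D.ph D.qK i)) ∧
    ∀ i j, D.Cl E n e (e * α) (D.ps D.q i j) (D.ps D.qK i j) := by
  have w := t.w p
  have ae := w.ag.trans w.ge
  obtain ⟨t1, t2, t3⟩ := p.T_m h t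
  have m1 : D.Cl E n (e * γ) (e * α) (D.q.m 1) (D.qK.m 1) := ⟨(p.z_m1 h t).df.pred, t1, D_zero _⟩
  have m2 : D.Cl E n e (e * α) (D.q.mu D.k 2) (D.qK.mu D.k 2) :=
    ⟨(p.z_mu h t 2 le_rfl).df.pred.mono w.ge w.e1, t2, (p.muK h 2 le_rfl).t⟩
  have m3 : D.Cl E n e (e * α) (D.q.mu D.k 3) (D.qK.mu D.k 3) :=
    ⟨(p.z_mu h t 3 (by decide)).df.pred.mono w.ge w.e1, t3, (p.muK h 3 (by decide)).t⟩
  have la : ∀ i, D.Cl E n e (e * α) (D.q.lam (eO D.K i)) (D.qK.lam (eO D.K i)) := fun i =>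
    ⟨(p.df_lam h t i).pred, (t.la i).2.pred.of (by
      show _ = D.T (_ - D.qK.lam _); rw [D_sub, (p.lamK h i).t, sub_zero]; rfl), (p.lamK h i).t⟩
  have nt := fun i hi => (cl_of t.XT (p.a_nt h t i hi).df (p.dn_r h (p.rnt h i hi)).t).mono ae w.e1
  have U := cl_of t.XT (p.a_U h t).df (p.dn_r h (p.rU h)).t
  have v := (cl_of t.XT (p.dfv h w.a1 (t.b 0 (by decide))) (p.w' h).t).mono w.ag w.g1
  have e2 : ∀ i, D.Cl E n e (e * α) (D.q.E2 D.k (eO D.K i)) (D.qK.E2 D.k (eO D.K i)) := fun i =>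
    (m2.sy (p.eO2 h i)).add (.lm sy_hf ((la i).mul (nt 2 le_rfl)))
  have e3 : ∀ i, D.Cl E n e (e * α) (D.q.E3 D.k (eO D.K i)) (D.qK.E3 D.k (eO D.K i)) := fun i =>
    (m2.sy (p.eO3 h i)).add (.lm sy_hf ((la i).mul (nt 3 (by decide))))
  have d : D.Cl E n e (e * α) (D.q.Dh D.k) (D.qK.Dh D.k) :=
    (m3.mul (p.cl_cj h m3)).sub (m2.mul (p.cl_cj h m2))
  have di := (congrArg _ (Dh_eq h)).trans (s2_eq h h.p)
  have x1 := fun i => Cl.div (p.lowD h t.s2 t.s3) (p.lowDK h) di d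
    ((((p.cl_cj h m3).mul (e3 i)).sub ((p.cl_cj h m2).mul (e2 i))).of (h.q.X1_eq h.hr)
      (h.qK.X1_eq h.hr))
  have x2 := fun i => Cl.div (p.lowD h t.s2 t.s3) (p.lowDK h) di d
    (((m3.mul (e2 i)).sub (m2.mul (e3 i))).of (h.q.X2_eq h.hr) (h.qK.X2_eq h.hr))
  have a1 : D.A1 E n (e * γ) (D.q.m 1) (D.qK.m 1) :=
    ⟨m1.df, (sy_zero.o (D := D) n).of (mul_zero _)⟩
  have g : ∀ {f f' g g'}, D.A1 E n (e * γ) f f' → D.Cl E n (e * γ) (e * α) f f' →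
      D.Cl E n e (e * α) g g' → D.Cl E n (e * γ) (e * α) (g * f) (g' * f') := fun a b c =>
    (c.mul (b.mono w.ge w.e1)).up ((p.mul_e h a c.df w.rg).of (mul_comm _ _) (mul_comm _ _))
  have S : ∀ i, D.Cl E n (e * γ) (e * α) (D.q.S D.k D.ri (eO D.K i))
      (D.qK.S D.k D.ri (eO D.K i)) := fun i =>
    (g a1 m1 (x1 i)).add (g (p.a1_cj h a1) (p.cl_cj h m1) (x2 i))
  have lu := fun i => g ((p.a_U h t).pred.mono w.ag w.g1) (U.mono w.ag w.g1) (la i)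
  have Y : ∀ i, D.Cl E n e (e * α) (D.q.Y D.k D.ri (eO D.K i)) (D.qK.Y D.k D.ri (eO D.K i)) :=
    fun i => ((S i).sub (.lm sy_hf (lu i))).mono w.ge w.e1
  exact ⟨fun i => (Cl.lm sy_two (v.mul ((S i).sub (lu i)))).of (h.q.ta_eq rfl) (h.qK.ta_eq rfl),
    fun i j => ((Cl.lm sy_two (((x1 i).mul (x2 j)).add ((x2 i).mul (x1 j)))).sub
      (.lm (p.ri h) (((Y i).mul (la j)).add ((la i).mul (Y j))))).of (h.q.aa_eq rfl rfl)
      (h.qK.aa_eq rfl rfl)⟩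

end Pt
end Dt

open Dt in
theorem fara : FARA := fun A _ _ D E e α γ ρ n h p t => by
  have w := t.w p
  have a0 := w.ag.1
  have z : ∀ j, 0 ≤ (e * α) j := (t.kb).nn
  obtain ⟨ph, ps⟩ := p.cl_met h t
  have pt : ∀ i, D.Cl E (n + 2) (e * γ) (e * α) (D.pt D.q i) (D.pt D.qK i) := fun i =>
    ((ph i).sub (.sum3 fun j => p.cl_g h w (p.rbK h j) (ps j i))).of (pt_eq h _ i) (pt_eq h _ i)
  have ca : D.Cl E (n + 2) e (e * α) D.p.a D.p0.a := cl_st (p.dfa h _) (h.p.da 0) (h.p0.da 0) z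
  have cM : D.Cl E (n + 2) e (e * α) (D.p.M * (D.k.r * D.k.r * D.p.sg))
      (D.p0.M * (D.k.r * D.k.r * D.p0.sg)) :=
    (cl_st (p.dfM h _) (h.p.dM 0) (h.p0.dM 0) z).mul (cl_st (p.dfs h _) (p.s2 h).t (by
      rw [D_mul, D_mul, show D.T D.k.r = 0 from h.kc.T_r, show D.T D.p0.sg = 0 from h.kc0.T_sg]
      ring) z)
  have r1 : D.Sy E (D.k.r * D.ri) := sy_one.of h.hr
  obtain ⟨k1, k2, k3, k4⟩ := gK_eq h D.p
  obtain ⟨l1, l2, l3, l4⟩ := gK_eq h D.p0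
  have ra : ∀ j, 0 ≤ (ρ * α) j := fun j => mul_nonneg (p.pos j).le (t.wt j).1
  have s0 : ∀ j, 0 ≤ (e * (γ + ρ * α)) j := fun j =>
    mul_nonneg (p.e01 j).1 (add_nonneg ((t.wt j).1.trans (t.wt j).2.1) (ra j))
  have lg : E.Le (e * γ) (e * (γ + ρ * α)) := .of s0 fun j =>
    mul_le_mul_of_nonneg_left (le_add_of_nonneg_right (ra j)) (p.e01 j).1
  have lr : E.Le (e * (ρ * α)) (e * (γ + ρ * α)) := .of s0 fun j =>
    mul_le_mul_of_nonneg_left (le_add_of_nonneg_left ((t.wt j).1.trans (t.wt j).2.1)) (p.e01 j).1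
  have l1' : E.Le (e * (γ + ρ * α)) (e * (1 + ρ * α)) :=
    ⟨fun j => mul_nonneg (p.e01 j).1 (add_nonneg zero_le_one (ra j)), 2, fun j => by
      have := ra j
      simp only [Pi.mul_apply, Pi.add_apply, Pi.one_apply] at this ⊢
      nlinarith [mul_nonneg (p.e01 j).1 this, mul_nonneg (p.e01 j).1 (sub_nonneg.2 (t.wt j).2.2.1)]⟩
  have ft : D.Wq E (n + 2) D.ft (e * (γ + ρ * α)) (e * (ρ * α)) := by
    have v := p.dfv h w.a1 (t.b 0 (by decide))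
    have f1 := (ob_num 4 (n + 3)).lm (((((p.ob_r h _).mul (p.a_U h t).df.d).mono
      (.of w.ar.1 fun j => (mul_left_comm _ _ _).trans_le (mul_assoc _ _ _).symm.le |>.trans
        (mul_assoc _ _ _).le)).rm (v.b.lm v.b)).add (((p.rU h).o _).lm ((v.mul v).d.mono w.ar)))
    have f2 := (Cl.sum3 fun i => Cl.lm (p.dn_r h (p.rbK h i)) ((ph i).add (pt i))).wq
    have f3 := (p.cl_g h w r1 (.lm sy_two cM)).wq
    refine ((((wq_of t.XT f1).mono lr (.of w.ar.1 fun _ => le_rfl)).add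
      (Wq.mono ⟨f2.1.neg, f2.2.neg.of (D_neg _ _)⟩ lg w.ar)).add (f3.mono lg w.ar)).of ?_
    have := tt_eq h h.qK
    rw [← eT_eq h, show D.qK.v = D.w from rfl, show D.qK.γ = gaK (kk D.K D.p) from rfl] at this
    rw [Dt.ft, gg, Nd_eq h, tt_eq h h.q, g0, k0, l1, show D.r = D.k.r from rfl]
    linear_combination k1 - this
  refine ⟨fun i => ?_, fun i => ⟨wq_of t.XT ((p.dfb h w.a1 t.b i).d.le (by omega)),
    wq_of t.XT ((p.R_be h t i).le (by omega))⟩, (ft.le (by omega)).mono l1' (.of w.ar.1 fun _ =>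
    le_rfl), fun i _ => ⟨ft.1.pred.der i, (ft.2.pred.der i).of (p.T_X h t.XT i _)⟩, fun i => ?_,
    fun i j => ?_⟩
  · refine (((t.la i).le (by omega)).add ((Cl.lm (p.qf h i) ca).wq.le (by omega))).of ?_
    rw [show D.gk _ _ = _ from k2 i, show D.g0 _ _ = _ from l2 i]; ring
  · refine (((pt i).wq.add (p.cl_g h w r1 (.lm (((p.ri h).mul sy_two).mul (p.qf h i)).neg
      (cM.mul ca))).wq).le (by omega)).of ?_
    rw [← k3, ← l3, Dt.pt, Dt.pt, ← eT_eq h, ← Nd_eq h, gg, g0, k0]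
    show _ = _ - D.ri * bl (gaK (kk D.K D.p)) _ _ + _
    ring
  · have o := ca.sy sy_one
    have x := (p.ri h).mul (p.x h)
    refine (((ps i j).wq.add ((Cl.lm (sy_two.mul (((p.eO2 h i).mul (p.eO3 h j)).add
      ((p.eO3 h i).mul (p.eO2 h j)))) (o.add (.lm (x.mul x) (ca.mul ca)))).add
      (.lm ((((p.ri h).mul (p.ri h)).mul (p.qf h i)).mul (p.qf h j)) ((ca.mul ca).mul
        (o.add (.lm ((p.ri h).mul sy_two) cM))))).wq).le (by omega)).of ?_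
    rw [← k4, ← l4, Dt.ps, Dt.ps, gg, g0, k0]
    show _ = _ - D.ri * D.ri * bl (gaK (kk D.K D.p)) _ _ + _
    ring

end Vale.Agent.P354YO
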