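import Vale.Agent.P354YO.Sy

/-!
The symbols of Kerr, the lower bounds, the shift in the layer.
-/

noncomputable section

namespace Vale.Agent.P354YO

open Vale.Agent.P354XG Vale.Agent.P354XD Vale.Agent.P354XR
open Vale.Agent.P354XG.Geo (hf two_hf)
open Vale.Agent.P354YK Ev

variable {A : Type} [CommRing A] [Algebra ℂ A]

namespace Dt
variable {D : Dt A} {E : Ev A} {e ρ μ : E.J → ℝ} {f g : A} {n : ℕ}

namespace Pt
variable (h : D.Is) (p : D.Pt E e ρ)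
include h p

theorem dn_r (s : D.Sy E (D.k.r * f)) : D.Sy E f :=
  ((p.ri h).mul s).of (by linear_combination -f * h.hr)

theorem iax : D.Sy E (ii A * D.k.a * D.k.x) := (sy_i.mul (p.a h)).mul (p.x h)
theorem ias : D.Sy E (ii A * D.k.a * D.k.s) := (sy_i.mul (p.a h)).mul (p.s h)
theorem iasb : D.Sy E (ii A * D.k.a * D.k.sb) := (sy_i.mul (p.a h)).mul (p.sb h)

theorem rsg : D.Sy E (D.k.r * D.k.sg) := p.dn_r h ((p.s2 h).of (mul_assoc _ _ _).symm)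

theorem rz : D.Sy E (D.k.r * D.k.z) :=
  ((p.s2 h).add ((p.rsg h).mul (p.iax h))).of (by rw [KC.z]; ring)
theorem rzb : D.Sy E (D.k.r * D.k.zb) :=
  ((p.s2 h).sub ((p.rsg h).mul (p.iax h))).of (by rw [KC.zb]; ring)

theorem sgD : D.Sy E (D.k.sg * D.k.De) :=
  (((p.s2 h).sub ((sy_two.mul (p.M h)).mul (p.rsg h))).add (((p.a h).mul (p.a h)).mul
    (p.dn_r h (p.rsg h)))).of (by rw [KC.De]; ring)

theorem ree : D.Sy E (D.k.r * D.k.ee) :=
  (((p.s2 h).sub ((p.M h).mul (p.rsg h))).sub ((p.sgD h).mul (p.s2 h))).of (by rw [KC.ee]; ring)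

omit p in
theorem nt0_eq : D.qK.nt D.k 0 =
    2 * (D.k.r * D.k.r * D.k.sg * (1 + D.p.a * D.ri * (D.p.a * D.ri))) := by
  show D.k.N * (2 * D.k.Ni * D.k.sg * (D.k.r * D.k.r + D.p.a * D.p.a)) = _
  linear_combination 2 * D.k.sg * (D.k.r * D.k.r + D.p.a * D.p.a) * h.kc.hN -
    2 * D.k.sg * D.p.a * D.p.a * (D.k.r * D.ri + 1) * h.hr

theorem nt0 : D.Sy E (D.qK.nt D.k 0) :=
  (sy_two.mul ((p.s2 h).mul (sy_one.add (((p.a h).mul (p.ri h)).mul ((p.a h).mul (p.ri h)))))).of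
    (nt0_eq h)

theorem nt0_ge (j : E.J) : 2 ≤ ‖E.ev j (D.qK.nt D.k 0)‖ := by
  rw [nt0_eq h, map_mul, norm_mul, map_ofNat, Complex.norm_ofNat]
  linarith [(p.s2_ev h j).2]

theorem low0K : E.Low (D.qK.nt D.k 0) := ⟨2, two_pos, p.nt0_ge h⟩

omit h p in
theorem nt_sub (i : Fin 6) : D.q.nt D.k i - D.qK.nt D.k i = D.k.N * D.dn i := (mul_sub _ _ _).symm
omit h p in
theorem mu_sub (i : Fin 6) : D.q.mu D.k i - D.qK.mu D.k i = D.r * D.dm i := (mul_sub _ _ _).symm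

theorem low0 : E.Low (D.q.nt D.k 0) := ⟨1, one_pos, fun j => by
  have e := congrArg (fun u => ‖E.ev j u‖) (nt_sub (D := D) 0)
  simp only [map_sub, map_mul _ D.k.N, show E.ev j D.k.N = 1 from p.N j, one_mul] at e
  linarith [norm_sub_norm_le (E.ev j (D.qK.nt D.k 0)) (E.ev j (D.q.nt D.k 0)),
    norm_sub_rev (E.ev j (D.qK.nt D.k 0)) (E.ev j (D.q.nt D.k 0)), p.s0 j, p.nt0_ge h j]⟩

theorem w' : D.Sy E D.w := (p.nt0 h).inv (p.low0K h) h.w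

theorem rU : D.Sy E (D.k.r * D.qK.U D.k D.ri) := (p.sgD h).neg.of (by
  show D.k.r * (D.ri * (D.k.N * -(D.k.Ni * D.k.sg * D.k.De))) = _
  linear_combination -(D.k.sg * D.k.De) * (D.k.N * D.k.Ni * h.hr + h.kc.hN))

theorem rnt2 : D.Sy E (D.k.r * (D.k.r * D.qK.nt D.k 2)) := ((p.ias h).mul (p.s2 h)).of (by
  show D.k.r * (D.k.r * (D.k.N * (ii A * D.k.a * D.k.s * D.k.Ni * D.k.sg))) = _
  linear_combination ii A * D.k.a * D.k.s * (D.k.r * D.k.r * D.k.sg) * h.kc.hN)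

theorem rnt3 : D.Sy E (D.k.r * (D.k.r * D.qK.nt D.k 3)) := ((p.iasb h).mul (p.s2 h)).neg.of (by
  show D.k.r * (D.k.r * (D.k.N * -(ii A * D.k.a * D.k.sb * D.k.Ni * D.k.sg))) = _
  linear_combination -(ii A * D.k.a * D.k.sb * (D.k.r * D.k.r * D.k.sg)) * h.kc.hN)

theorem rnt4 : D.Sy E (D.k.r * D.qK.nt D.k 4) :=
  (((p.ree h).sub (((p.iax h).mul (p.rsg h)).mul ((p.sgD h).sub sy_one))).neg).of (by
    show D.k.r * (D.k.N * -(D.k.Ni * (ga D.k + ii A * D.k.a * D.k.x * D.k.sg))) = _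
    rw [ga]
    linear_combination -(D.k.r * (D.k.ee - ii A * D.k.a * D.k.x * D.k.sg * D.k.sg * D.k.De +
      ii A * D.k.a * D.k.x * D.k.sg)) * h.kc.hN)

theorem rnt5 : D.Sy E (D.k.r * D.qK.nt D.k 5) :=
  (((p.ree h).add (((p.iax h).mul (p.rsg h)).mul ((p.sgD h).sub sy_one))).neg).of (by
    show D.k.r * (D.k.N * -(D.k.Ni * (gab D.k - ii A * D.k.a * D.k.x * D.k.sg))) = _
    rw [gab]
    linear_combination -(D.k.r * (D.k.ee + ii A * D.k.a * D.k.x * D.k.sg * D.k.sg * D.k.De -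
      ii A * D.k.a * D.k.x * D.k.sg)) * h.kc.hN)

theorem rnt (i : Fin 6) (hi : 2 ≤ i) : D.Sy E (D.k.r * D.qK.nt D.k i) := by
  fin_cases i
  · exact absurd hi (by decide)
  · exact absurd hi (by decide)
  exacts [p.dn_r h (p.rnt2 h), p.dn_r h (p.rnt3 h), p.rnt4 h, p.rnt5 h]

theorem muK (i : Fin 6) (hi : 2 ≤ i) : D.Sy E (D.qK.mu D.k i) := by
  fin_cases i
  · exact absurd hi (by decide)
  · exact absurd hi (by decide)
  · exact sy_zero.of (mul_zero _)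
  · exact p.rzb h
  · exact sy_zero.of (mul_zero _)
  · exact (((p.ias h).mul (p.rzb h)).mul (p.dn_r h (p.rzb h))).of (by
      show D.k.r * (ii A * D.k.a * D.k.s * D.k.zb * D.k.zb) = _
      ring)

theorem rta : D.Sy E (D.k.r * (D.k.r * D.qK.G.ta)) := ((p.ias h).mul (p.s2 h)).neg.of (by
  show D.k.r * (D.k.r * -(ii A * D.k.a * D.k.sg * D.k.s)) = _
  ring)

theorem rta2 : D.Sy E (D.k.r * (D.k.r * D.k.ta2)) :=
  (((p.iasb h).mul (p.rz h)).mul (p.rz h)).neg.of (by rw [KC.ta2]; ring)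

theorem rrh : D.Sy E (D.k.r * (D.k.N * D.qK.G.rh')) := ((p.sgD h).mul (p.rz h)).of (by
  show D.k.r * (D.k.N * (D.k.Ni * D.k.sg * D.k.De * D.k.z)) = _
  linear_combination D.k.sg * D.k.De * (D.k.r * D.k.z) * h.kc.hN)

theorem eO2 (i : Fin 3) : D.Sy E (eO D.K i 2) := ((sy_hf.mul sy_i).mul (p.wm' h i)).neg
theorem eO3 (i : Fin 3) : D.Sy E (eO D.K i 3) := (sy_hf.mul sy_i).mul (p.wb' h i)

theorem qf (i : Fin 3) : D.Sy E (D.k.qf (eO D.K i 2) (eO D.K i 3)) :=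
  sy_i.mul (((p.s h).mul (p.eO3 h i)).sub ((p.sb h).mul (p.eO2 h i)))

theorem lamK (i : Fin 3) : D.Sy E (D.qK.lam (eO D.K i)) := ((p.a h).mul (p.qf h i)).of (by
  show bl (gaK D.k) _ _ = _
  rw [bl_K, show eO D.K i 0 = 0 from rfl, show eO D.K i 1 = 0 from rfl]
  simp [gBo, eR, KC.qf])

omit p in
theorem Dh_eq : D.qK.Dh D.k = D.k.r * D.k.r * D.k.sg := by
  show D.k.r * D.k.zb * D.k.c (D.k.r * D.k.zb) - D.k.r * 0 * D.k.c (D.k.r * 0) = _
  rw [map_mul, h.kc.c_r, h.kc.c_zb, KC.zb]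
  linear_combination D.k.r * D.k.r * D.k.sg * h.kc.z_ze

theorem lowDK : E.Low (D.qK.Dh D.k) :=
  ⟨1 / 2, one_half_pos, fun j => by rw [Dh_eq h]; exact (p.s2_ev h j).1⟩

theorem lowD (s2 : ∀ j, ‖E.ev j (D.r * D.dm 2)‖ ≤ 1 / 10)
    (s3 : ∀ j, ‖E.ev j (D.r * D.dm 3)‖ ≤ 1 / 10) : E.Low (D.q.Dh D.k) :=
  ⟨1 / 4, by norm_num, fun j => by
    have c : D.k.c = E.c := p.c.symm
    have v : ∀ q : Pr A, E.ev j (q.Dh D.k) =
        (‖E.ev j (q.mu D.k 3)‖ ^ 2 - ‖E.ev j (q.mu D.k 2)‖ ^ 2 : ℝ) := fun q => by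
      rw [Pr.Dh, c, map_sub, ev_mc, ev_mc, Complex.ofReal_sub]
    have k := (p.s2_ev h j).1
    have z : D.qK.mu D.k 2 = 0 := mul_zero _
    have a2 := s2 j
    have a3 := s3 j
    rw [← Dh_eq h, v, z, map_zero, norm_zero, zero_pow two_ne_zero, sub_zero, Complex.norm_real,
      Real.norm_of_nonneg (sq_nonneg _)] at k
    rw [← mu_sub, z, sub_zero] at a2
    rw [← mu_sub, map_sub, norm_sub_rev] at a3
    have b := (norm_sub_norm_le _ _).trans a3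
    have b0 : 7 / 10 ≤ ‖E.ev j (D.qK.mu D.k 3)‖ := by
      by_contra q
      nlinarith [norm_nonneg (E.ev j (D.qK.mu D.k 3))]
    rw [v, Complex.norm_real]
    refine le_trans ?_ (le_abs_self _)
    nlinarith [norm_nonneg (E.ev j (D.q.mu D.k 2))]⟩

/-- The angular part of n. -/
theorem dfnt (l : E.Le μ 1) {i : Fin 6} (k : D.Sy E (D.qK.nt D.k i)) (b : E.Ob n (D.dn i) μ) :
    E.Df n μ (D.q.nt D.k i) (D.qK.nt D.k i) := ⟨l, k.o n, (((p.N' h).o n).lm b).of (nt_sub i)⟩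

theorem dfv (l : E.Le μ 1) (b : E.Ob n (D.dn 0) μ) : E.Df n μ D.q.v D.w :=
  Df.div (p.low0 h) (p.low0K h) (p.dfnt h l (p.nt0 h) b)
    ((Df.refl (ob_one n) l b.nn).of h.q.hv h.w)

omit h p in
theorem b_eq (q : Pr A) (i : Fin 3) : q.b D.K i =
    ii A * (q.v * (wb D.K i * q.nt D.k 2 - wm D.K i * q.nt D.k 3)) := by
  show ii A * (q.v * (D.k.N * _)) = _
  simp only [Pr.nt]; ring

theorem dfb (l : E.Le μ 1) (b : ∀ i ≠ 1, E.Ob n (D.dn i) μ) (i : Fin 3) :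
    E.Df n μ (D.q.b D.K i) (D.qK.b D.K i) :=
  (Df.lm ((sy_i (D := D)).o n) ((p.dfv h l (b 0 (by decide))).mul
    ((Df.lm ((p.wb' h i).o n) (p.dfnt h l (p.dn_r h (p.rnt h 2 le_rfl)) (b 2 (by decide)))).sub
    (Df.lm ((p.wm' h i).o n) (p.dfnt h l (p.dn_r h (p.rnt h 3 (by decide))) (b 3 (by decide))))))).of
    (b_eq _ i) (b_eq _ i)

theorem rbK (i : Fin 3) : D.Sy E (D.k.r * (D.k.r * D.qK.b D.K i)) :=
  (sy_i.mul ((p.w' h).mul (((p.wb' h i).mul (p.rnt2 h)).sub ((p.wm' h i).mul (p.rnt3 h))))).of (by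
    rw [b_eq, show D.qK.v = D.w from rfl]; ring)

end Pt
end Dt

theorem lay : LAY := fun A _ _ D E e ρ μ n Y c h p x0 y0 y l b i => by
  have o := (p.dfb h l b i).d
  have s : ∀ n (i : Fin 5), E.Ob n (if i = 0 then D.ri else 1) 1 := fun n i => by
    split_ifs
    exacts [(p.ri h).o n, ob_one n]
  have r : D.r * D.ri = 1 := h.hr
  have q : ∀ i f, Y i f = (if i = 0 then D.ri else 1) * E.X i f := fun i f => by
    split_ifs with z
    · rw [z, x0, y0, Derivation.smul_apply, smul_eq_mul]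
      linear_combination -D.T f * r
    · rw [y i z, one_mul]
  refine ⟨ob_chg c s q o.pred, ob_chg c s q (((o.der 0).mul (p.ob_ri h n)).of ?_)⟩
  rw [← y0, q, if_pos rfl, mul_comm]
  rfl

end Vale.Agent.P354YO
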