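import Vale.Agent.P354YO.OutA1
import Vale.Agent.P354YQ.OgE
import Vale.Agent.P354YQ.Og1
import Vale.Agent.P354BO.Outb
import Vale.Agent.P354XD.Sm

/-!
The second chart at late times.
-/

open scoped ContDiff
open Set Filter Topology

noncomputable section

namespace Vale.Agent.P354YO

open Vale.Agent.P354n (R4)
open Vale.Agent.P354XG (E6)
open Vale.Agent.P354XD (pj nq nq_pos)
open Vale.Agent.P354XE (Tw rd Bd pb gin)
open Vale.Agent.P354XO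
open Vale.Agent.P354YI (Jb)
open Vale.Agent.P354YQ (Sa bb LATE ths inv_jb w_le)
open Vale.Agent.P354MG (Lc)
open Vale.Agent.P354Z

/-- Unit spinors over a point. -/
theorem ex_up {q : R4} (h : 0 < rd q) :
    ∃ y : E6, nq y = 1 ∧ y.2.2 ≠ 0 ∧ pj y = q ∧ y.1 = q.1 ∧ y.2.1 = rd q := by
  have e : rr q = rd q := by
    rw [P354XA.rd_eq, rr]
    exact congrArg _ (by simp only [P354XA.ip]; ring)
  obtain ⟨x, n, a, b⟩ : ∃ x : E6, x.2.2 ≠ 0 ∧ pj x = q ∧ x.2.1 = rr q := by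
    rcases le_total 0 q.2.2.2 with k | k
    · have z : rr q + q.2.2.2 ≠ 0 := by rw [e]; positivity
      exact ⟨sN q, fun w => z (Complex.ofReal_eq_zero.1 (congrArg Prod.fst w)), pj_sN z, rfl⟩
    · have z : rr q - q.2.2.2 ≠ 0 := by rw [e]; linarith
      exact ⟨sS q, fun w => z (Complex.ofReal_eq_zero.1 (congrArg Prod.snd w)), pj_sS z, rfl⟩
  have p := nq_pos n
  have z : (((√(nq x))⁻¹ : ℝ) : ℂ) ≠ 0 := Complex.ofReal_ne_zero.2 (by positivity)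
  refine ⟨sc _ x, ?_, smul_ne_zero z n, (pj_sc z x).trans a, congrArg Prod.fst a, b.trans e⟩
  rw [nq_sc, Complex.normSq_ofReal, ← mul_inv, Real.mul_self_sqrt p.le, inv_mul_cancel₀ p.ne']

variable {U : Set E6} {a : E6 → E6} {A B : ℝ → ℝ} {p : R4}

theorem sa_open (h : Cht U a) (hA : Continuous A) (hB : Continuous B) : IsOpen (Sa U a A B) :=
  h.cn.shadow.preimage (sh_cont hA.neg hB.neg)

open Classical in
theorem bb_ev (h : Cht U a) (hA : Continuous A) (hB : Continuous B) (hp : p ∈ Sa U a A B) :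
    bb U a A B =ᶠ[𝓝 p] b4 U a ∘ sh (-A) (-B) :=
  ((sa_open h hA hB).eventually_mem hp).mono fun _ k => piecewise_eq_of_mem _ _ _ k

theorem th_bd {M a : ℝ} (h0 : 0 < M) (R K r1 ρ : ℝ) : ∃ D ≥ 0, ∀ A B, IsTh M M a A B → |A R| ≤ K →
    ∀ r ∈ Icc r1 ρ, |A r| ≤ D := by
  have c : Continuous fun r : ℝ => hs M (M, a, r) - 1 :=
    ((P354CV.hs_cd h0).continuous.comp (by fun_prop)).sub continuous_const
  obtain ⟨C, hC⟩ := (isCompact_Icc (a := min r1 R) (b := max ρ R)).exists_bound_of_continuousOn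
    c.continuousOn
  refine ⟨|K| + |C| * |max ρ R - min r1 R|, by positivity, fun A B t k r hr => ?_⟩
  have m1 : r ∈ Icc (min r1 R) (max ρ R) := ⟨min_le_of_left_le hr.1, le_max_of_le_left hr.2⟩
  have m2 : R ∈ Icc (min r1 R) (max ρ R) := ⟨min_le_right _ _, le_max_right _ _⟩
  have := (convex_Icc _ _).norm_image_sub_le_of_norm_hasDerivWithin_le
    (fun x _ => (t x).1.hasDerivWithinAt) (fun x hx => (hC x hx).trans (le_abs_self C)) m2 m1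
  have e : |r - R| ≤ |max ρ R - min r1 R| :=
    (abs_le.2 ⟨by linarith [m1.1, m2.2], by linarith [m1.2, m2.1]⟩).trans (le_abs_self _)
  rw [Real.norm_eq_abs, Real.norm_eq_abs] at this
  linarith [abs_sub_abs_le_abs_sub (A r) (A R), le_abs_self K,
    mul_le_mul_of_nonneg_left e (abs_nonneg C)]

theorem ev_le (C : ℝ) {ρ : ℝ} (h : 0 < ρ) : ∀ᶠ e in 𝓝[>] (0 : ℝ), C * e ≤ ρ :=
  nhdsWithin_le_nhds (((continuous_const.mul continuous_id).tendsto' 0 0 (mul_zero C)).eventually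
    (eventually_le_nhds h))

section
variable {z : Z1} {c : Cs} {gc g : Tw} {E : Est} {κ Cl e tw rE : ℝ}
  (L : Lc z c gc g E κ Cl e U a A B tw) (lv : E.Lv = univ) (hκ : κ ≤ rE - z.r1) (hE : z.r1 < rE)
  (r0 : 0 < rE) (hR : c.t1 + 3 ≤ c.Rs)
include L lv hκ hE r0 hR

theorem lt_up (a1 : rE < rd p) (a2 : rd p ≤ c.t1 + 2) (a3 : tw - 3 ≤ p.1) : ∃ y ∈ E.O1, nq y = 1 ∧
    pj y = sh (-A) (-B) p ∧ y.1 = p.1 - A (rd p) ∧ y.2.1 = rd p := by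
  obtain ⟨y, n1, n2, n3, n4, n5⟩ := ex_up (q := sh (-A) (-B) p) (by rw [rd_sh]; linarith)
  rw [rd_sh] at n5
  have n6 : y.1 = p.1 - A (rd p) := n4.trans (sub_eq_add_neg _ _).symm
  refine ⟨y, (L.onto lv y n2).1 (by linarith) (by linarith) ?_, n1, n3, n6, n5⟩
  have := (L.num (rd p) ⟨by linarith, by linarith⟩).1
  rw [Est.Ab, n5, n6]
  linarith

theorem lt_mem (a1 : rE < rd p) (a2 : rd p ≤ c.t1 + 2) (a3 : tw - 3 ≤ p.1) : p ∈ Sa U a A B := by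
  obtain ⟨y, hy, -, n, -⟩ := lt_up L lv hκ hE r0 hR a1 a2 a3
  rw [L.o1] at hy
  exact ⟨y, image_mono (fun _ k => k.1) hy, n⟩

theorem lt_mid (sA : ContDiff ℝ ∞ A) (sB : ContDiff ℝ ∞ B) (a1 : rE < rd p) (a2 : rd p ≤ c.t1 + 2)
    (a3 : |p.1 - tw| ≤ 3) : ∃ ψ : R4 → R4, ContDiffAt ℝ ∞ (bb U a A B) p ∧
      ContDiffAt ℝ ∞ ψ (bb U a A B p) ∧ (∀ᶠ y in 𝓝 p, ψ (bb U a A B y) = y) ∧
      Jb c.N0 (fun y => ψ y - y) (bb U a A B p) (Cl * e) := by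
  have a4 := abs_le.1 a3
  have hp := lt_mem L lv hκ hE r0 hR a1 a2 (by linarith)
  obtain ⟨y, hy, -, n1, n2, n3⟩ := lt_up L lv hκ hE r0 hR a1 a2 (by linarith)
  rw [L.o1] at hy
  obtain ⟨x, ⟨hx, x1⟩, rfl⟩ := hy
  have ev := bb_ev L.cht sA.continuous sB.continuous hp
  have e1 : bb U a A B p = pj x := by
    rw [ev.eq_of_nhds, Function.comp, ← n1, L.cht.b4_a hx]
  have s1 : ContDiffAt ℝ ∞ (sh (-A) (-B)) p :=
    sh_cd (by linarith) sA.neg.contDiffAt sB.neg.contDiffAt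
  have s2 : ContDiffAt ℝ ∞ (sh A B) (dn4 a (pj x)) :=
    sh_cd (by rw [L.cht.eqv.pj_dn hx, n1, rd_sh]; linarith) sA.contDiffAt sB.contDiffAt
  rw [e1]
  refine ⟨fun y => sh A B (dn4 a y), ((L.cht.dif_b4.sm _ hp).comp p s1).congr_of_eventuallyEq ev,
    s2.comp _ (L.cht.eqv.sm_dn hx), ?_, L.ini x hx x1 ?_⟩
  · filter_upwards [ev, (sa_open L.cht sA.continuous sB.continuous).eventually_mem hp] with y k1 k2
    rw [k1, Function.comp, b4, L.cht.symm.eqv.left_dn L.cht.eqv (fun _ => Dif.mem)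
      (fun _ => Dif.right) _ k2, sh_inv']
  · linarith [(L.num (rd p) ⟨by linarith, by linarith⟩).2]

theorem lt_far {A2 B2 : ℝ → ℝ} (cA : Continuous A) (cB : Continuous B) (sA : ContDiff ℝ ∞ A2)
    (sB : ContDiff ℝ ∞ B2) (a1 : rE < rd p) (a2 : rd p ≤ c.t1 + 2) (a3 : tw - 1 ≤ p.1)
    (b1 : |A (rd p) - A2 (rd p)| ≤ 1) : (∃ y ∈ E.O1, nq y = 1 ∧ sh A2 B2 (pj y) = p ∧
      y.1 = p.1 - A2 (rd p) ∧ y.2.1 = rd p) ∧
      pb (sh (-A2) (-B2)) E.g =ᶠ[𝓝 p] pb (bb U a A B ∘ sh (A - A2) (B - B2)) g := by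
  have b2 := abs_le.1 b1
  have b3 : (sh (A - A2) (B - B2) p).1 = p.1 + (A (rd p) - A2 (rd p)) := rfl
  have b5 : ∀ y, sh (-A) (-B) (sh (A - A2) (B - B2) y) = sh (-A2) (-B2) y := fun y => by
    rw [sh_sh, show -A + (A - A2) = -A2 by abel, show -B + (B - B2) = -B2 by abel]
  have c1 : rE < rd (sh (A - A2) (B - B2) p) := by rwa [rd_sh]
  have c2 : rd (sh (A - A2) (B - B2) p) ≤ c.t1 + 2 := by rwa [rd_sh]
  have hp := lt_mem L lv hκ hE r0 hR c1 c2 (by linarith)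
  obtain ⟨y, hy, n0, n1, n2, n3⟩ := lt_up L lv hκ hE r0 hR c1 c2 (by linarith)
  rw [rd_sh] at n2 n3
  refine ⟨⟨y, hy, n0, by rw [n1, b5, sh_inv'], by linarith, n3⟩, ?_⟩
  have s2 : ContDiffAt ℝ ∞ (sh (-A2) (-B2)) p :=
    sh_cd (by linarith) sA.neg.contDiffAt sB.neg.contDiffAt
  have s3 : ContDiffAt ℝ ∞ (b4 U a) (sh (-A2) (-B2) p) := by
    rw [← b5]; exact L.cht.dif_b4.sm _ hp
  have ev : bb U a A B ∘ sh (A - A2) (B - B2) =ᶠ[𝓝 p] b4 U a ∘ sh (-A2) (-B2) :=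
    ((sh_cont (cA.sub sA.continuous) (cB.sub sB.continuous)).continuousAt.eventually
      (bb_ev L.cht cA cB hp)).mono fun y k => k.trans (congrArg (b4 U a) (b5 y))
  rw [L.met]
  exact ((pb_map ev).trans (pb_comp s2 s3)).symm

end

theorem lt_wt {t y D C η ε : ℝ} (d0 : 0 ≤ D) (h : |t - y| ≤ D + 1) (η0 : 0 ≤ η)
    (q : |C| * (D + 2) ^ 2 * η ≤ ε) :
    C * (η * (1 + |y|) ^ (-(7 / 5) : ℝ)) ≤ ε * (1 + |t|) ^ (-(6 / 5) : ℝ) := by
  have w2 := w_le (t := t) (y := y) (D := D + 2) (by linarith) (by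
    nlinarith [abs_nonneg y, abs_sub_abs_le_abs_sub t y])
  have w3 : (1 + |t|) ^ (-(7 / 5) : ℝ) ≤ (1 + |t|) ^ (-(6 / 5) : ℝ) :=
    Real.rpow_le_rpow_of_exponent_le (le_add_of_nonneg_right (abs_nonneg _)) (by norm_num)
  calc C * (η * (1 + |y|) ^ (-(7 / 5) : ℝ))
      ≤ |C| * (η * ((D + 2) ^ 2 * (1 + |t|) ^ (-(6 / 5) : ℝ))) := by
        gcongr
        exacts [le_abs_self _, w2.trans (by gcongr)]
    _ = |C| * (D + 2) ^ 2 * η * (1 + |t|) ^ (-(6 / 5) : ℝ) := by ring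
    _ ≤ _ := by gcongr

theorem late : LATE := by
  intro z c ag rE hE N hN hR K ε hε
  have ok := (ag.zo.ok (z.R1 + 1) le_rfl (z.R1 + 2) le_rfl).1.1
  have aM : |z.a| < z.M := ok.sub
  have m0 : 0 < z.M := (abs_nonneg _).trans_lt aM
  have r0 : 0 < rE := ((P354XD.rm_nonneg aM).trans_lt ok.r1.1).trans hE
  obtain ⟨C1, c1, h1⟩ := inv_jb (N + 1)
  obtain ⟨η2, p2, h2⟩ := ths z.M z.a rE (c.t1 + 2) (N + 2) m0 (min ε 1) (lt_min hε one_pos)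
  obtain ⟨w0, p3, C3, h3⟩ := P354BO.outb z.M z.a rE (c.t1 + 2) (N + 1) aM r0
  obtain ⟨D, d0, h4⟩ := th_bd (a := z.a) m0 z.R1 K rE (c.t1 + 2)
  obtain ⟨η, ⟨⟨⟨⟨q1, q2⟩, q3⟩, q4⟩, q5⟩, η0⟩ := ((((((ev_le (1 : ℝ) one_half_pos).and
    (ev_le C1 hε)).and (ev_le 1 p2)).and (ev_le 1 p3)).and (ev_le (|C3| * (D + 2) ^ 2) hε)).and
    self_mem_nhdsWithin).exists
  rw [one_mul] at q1 q3 q4
  replace η0 : 0 < η := η0
  refine ⟨η, η0, fun gc g E κ Cl e U a A B tw hE' cmp L lv hκ hK he => ?_⟩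
  obtain ⟨sA, sB, -⟩ := P354BO.th_sm m0 L.th
  have par : |E.M - z.M| + |E.a - z.a| ≤ η := by
    have := cmp.par
    rw [ag.M, ag.a] at this
    linarith [hE'.near.e0]
  refine ⟨fun p => lt_mem L lv hκ hE r0 hR, fun p a1 a2 a3 => ?_, ?_⟩
  · obtain ⟨ψ, k1, k2, k3, k4⟩ := lt_mid L lv hκ hE r0 hR sA sB a1 a2 a3
    exact (h1 ψ _ p η q1 k1 k2 k3 (k4.mono hN he)).mono le_rfl q2
  obtain ⟨A2, B2, t2, j2⟩ := h2 E.M E.a A B (par.trans q3) L.th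
  obtain ⟨sA2, sB2, -⟩ := P354BO.th_sm m0 t2
  refine ⟨A - A2, B - B2, ⟨sA.sub sA2, sB.sub sB2⟩, fun r hr => ⟨(j2 r hr).1.mono le_rfl
    (min_le_left _ _), (j2 r hr).2.mono le_rfl (min_le_left _ _)⟩, fun p a1 a2 a3 => ?_⟩
  have b1 : |A (rd p) - A2 (rd p)| ≤ 1 := (j2 _ ⟨a1.le, a2⟩).1.zero.trans (min_le_right _ _)
  obtain ⟨⟨y, hy, n0, n1, n2, n3⟩, e3⟩ :=
    lt_far L lv hκ hE r0 hR sA.continuous sB.continuous sA2 sB2 a1 a2 a3 b1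
  have w1 : (1 + |y.1|) ^ (-(7 / 5) : ℝ) ≤ 1 :=
    Real.rpow_le_one_of_one_le_of_nonpos (le_add_of_nonneg_right (abs_nonneg _)) (by norm_num)
  have n4 := cmp.n1 y hy ⟨by rw [n0]; norm_num, by rw [n0]; norm_num⟩
  simp only [Est.d1, Est.p1, Est.K1, ag.M] at n4
  have k := h3 E.O1 E.g E.F1 E.M E.a A2 B2 y (η * (1 + |y.1|) ^ (-(7 / 5) : ℝ)) hE'.shape.co1
    hE'.eqs.v1 hE'.eqs.w1 (par.trans q4) t2 hy n0 (by linarith) (by linarith) (by positivity)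
    ((mul_le_of_le_one_right η0.le w1).trans q4) fun i =>
      (P354BO.q2_mono _ _ (by omega) _).trans (n4 (.inl i))
  rw [n1] at k
  refine bd_mono (bd_congr (e3.sub .rfl) k) le_rfl (lt_wt d0 ?_ η0.le q5)
  have a5 := abs_le.1 (h4 A B L.th hK _ ⟨a1.le, a2⟩)
  have a6 := abs_le.1 b1
  exact abs_le.2 ⟨by linarith, by linarith⟩

end Vale.Agent.P354YO
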