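import Vale.Agent.P354YO.Dt

/-!
The metric and the commutators in the components of the frame.
-/

noncomputable section

namespace Vale.Agent.P354YO

open Vale.Agent.P354XG Vale.Agent.P354XD Vale.Agent.P354XR
open Vale.Agent.P354XG.Geo (hf two_hf)
open Vale.Agent.P354YK

variable {A : Type} [CommRing A] [Algebra ℂ A]

section bl
variable (γ : Fin 4 → Fin 4 → A) (x y z : Vec A) (s : A)
omit [Algebra ℂ A]

theorem bl_add_l : bl γ (x + y) z = bl γ x z + bl γ y z := by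
  simp only [bl, Pi.add_apply, Fin.sum_univ_four]; ring
theorem bl_add_r : bl γ z (x + y) = bl γ z x + bl γ z y := by
  simp only [bl, Pi.add_apply, Fin.sum_univ_four]; ring
theorem bl_sub_l : bl γ (x - y) z = bl γ x z - bl γ y z := by
  simp only [bl, Pi.sub_apply, Fin.sum_univ_four]; ring
theorem bl_sub_r : bl γ z (x - y) = bl γ z x - bl γ z y := by
  simp only [bl, Pi.sub_apply, Fin.sum_univ_four]; ring
theorem bl_smul_l : bl γ (s • x) z = s * bl γ x z := by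
  simp only [bl, Pi.smul_apply, smul_eq_mul, Fin.sum_univ_four]; ring
theorem bl_smul_r : bl γ z (s • x) = s * bl γ z x := by
  simp only [bl, Pi.smul_apply, smul_eq_mul, Fin.sum_univ_four]; ring
theorem bl_comm {γ : Fin 4 → Fin 4 → A} (h : ∀ a b, γ a b = γ b a) : bl γ x y = bl γ y x := by
  simp only [bl]
  rw [Finset.sum_comm]
  exact Finset.sum_congr rfl fun a _ => Finset.sum_congr rfl fun b _ => by rw [h]; ring
end bl

theorem bl_K (k : KC A) (x y : Vec A) :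
    bl (gaK k) x y = gBo k (x 0) (x 1) (x 2) (x 3) (y 0) (y 1) (y 2) (y 3) := by
  simp only [bl, gaK, gBo, KC.qf, Fin.sum_univ_four, Matrix.cons_val]
  ring

theorem c_gBo {k : KC A} (h : k.Is) (e1 e2 e3 e4 f1 f2 f3 f4 : A) :
    k.c (gBo k e1 e2 e3 e4 f1 f2 f3 f4) =
      gBo k (k.c e1) (k.c e2) (k.c e4) (k.c e3) (k.c f1) (k.c f2) (k.c f4) (k.c f3) := by
  simp only [gBo, KC.qf, map_add, map_sub, map_mul, map_neg, map_ofNat, h.tab]
  ring

theorem prK_is {k : KC A} (h : k.Is) (f : k.Free) {w : A} (hw : k.N * onc k 0 * w = 1) :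
    (prK k w).Is k := by
  have e1 := congrArg k.c (go_th_et (K := k))
  have e2 := congrArg k.c (go_tp_et h)
  have e3 := congrArg k.c (go_et_et (K := k))
  have e4 := go_et_ep h
  rw [c_gBo h] at e1 e2 e3
  refine ⟨h, f, out_is h, rfl, rfl, rfl, rfl, rfl, rfl, rfl, fun a b => ?_, ?_, ?_, ?_, ?_, ?_, ?_,
    ?_, ?_, ?_, ?_, ?_, hw⟩
  · simp only [prK, gaK, gBo]; ring
  all_goals simp only [prK, bl_K, Pr.vl, Pr.vn, Pr.vm, Pr.vb, onc, omc, Matrix.cons_val]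
  · exact go_th_th
  · exact go_th_tp h
  · exact go_th_et
  · simpa only [map_zero, h.c_N] using e1
  · exact go_tp_tp h
  · exact go_tp_et h
  · simp only [map_zero, map_mul, map_neg, map_ofNat, map_add, map_sub, KC.W, KC.De, h.tab] at e2 ⊢
    simp only [gBo, KC.qf] at e2 ⊢
    linear_combination e2
  · exact go_et_et
  · simp only [map_zero, map_mul, h.c_ii, h.c_a, h.c_s, h.c_zb]
    simp only [gBo, KC.qf] at e4 ⊢
    linear_combination e4
  · simpa only [map_zero] using e3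
  · simp [gaK, gBo, KC.qf]

theorem B_V {k : KC A} (h : k.Is) (e1 e2 e3 e4 e5 e6 f : A) : k.B (k.V e1 e2 e3 e4 e5 e6 f) =
    k.V e1 e2 e3 e4 e5 e6 (k.B f) +
      k.V (k.B e1) (k.B e2) (k.B e3 + e3) (k.B e4 - e4) (k.B e5) (k.B e6) f := by
  simp only [KC.V_ap, D_add, D_mul, h.B_T, h.B_R, h.B_P, h.B_Q, h.B_H]
  ring

namespace Pr
variable (q : Pr A) (k : KC A) (ri : A)

/-- The scaled components. -/
def nt (i : Fin 6) : A := k.N * q.n i
def mu (i : Fin 6) : A := k.r * q.m i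
def U : A := ri * q.nt k 1
def lam (Z : Vec A) : A := bl q.γ (eR A) Z
def X1 (Z : Vec A) : A := ri * (hf A * bl q.γ Z (q.vb k))
def X2 (Z : Vec A) : A := ri * (hf A * bl q.γ Z q.vm)
def Dh : A := q.mu k 3 * k.c (q.mu k 3) - q.mu k 2 * k.c (q.mu k 2)
def E2 (Z : Vec A) : A := Z 2 + hf A * (q.lam Z * q.nt k 2)
def E3 (Z : Vec A) : A := Z 3 + hf A * (q.lam Z * q.nt k 3)
def S (Z : Vec A) : A := q.X1 k ri Z * q.m 1 + q.X2 ri Z * k.c (q.m 1)
def Y (Z : Vec A) : A := q.S k ri Z - hf A * (q.lam Z * q.U k ri)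
def Nt : Vec A := ![1, 0, q.v * q.nt k 2, q.v * q.nt k 3]

/-- The coefficients of the radial equations, and the right side of the time equations. -/
def c1 : A := k.c (k.r * q.G.ta) - k.r * k.ta2
def c2 : A := k.r * q.G.ta - k.c (k.r * k.ta2)
def rhs (y w yc : A) : A :=
  -(q.U k ri * (k.r * k.R y)) - q.nt k 2 * k.P y - q.nt k 3 * k.Q y -
    (q.nt k 4 - q.nt k 5) * y + k.r * k.R w * q.m 1 + k.P w * q.mu k 2 + k.Q w * q.mu k 3 -
    w * (q.mu k 4 + q.mu k 5) + k.N * q.G.rh' * y + k.c (k.N * q.G.si') * yc - w * (k.r * q.G.ta)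

variable {q k ri}

namespace Is
variable (h : q.Is k)
include h

theorem cm (x y : Vec A) : bl q.γ x y = bl q.γ y x := bl_comm x y h.sym

/-- Completeness. -/
theorem span (Z : Vec A) : Z = (-(hf A * bl q.γ Z q.vn)) • vl k + (-(hf A * bl q.γ Z (vl k))) • q.vn +
    (hf A * bl q.γ Z (q.vb k)) • q.vm + (hf A * bl q.γ Z q.vm) • q.vb k := by
  let u : Fin 4 → Vec A := ![(-hf A) • q.vn, (-hf A) • vl k, hf A • q.vb k, hf A • q.vm]
  let F : Matrix (Fin 4) (Fin 4) A := fun a j => ![vl k, q.vn, q.vm, q.vb k] j a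
  let T : Matrix (Fin 4) (Fin 4) A := fun j a => ∑ b, q.γ a b * u j b
  have t := two_hf (A := A)
  have e : ∀ j (Y : Vec A), ∑ a, T j a * Y a = bl q.γ Y (u j) := by
    intro j Y
    simp only [T, bl, Finset.sum_mul]
    exact Finset.sum_congr rfl fun a _ => Finset.sum_congr rfl fun b _ => by ring
  have e1 : T * F = 1 := by
    ext i j
    rw [Matrix.mul_apply, e i (fun a => F a j)]
    show bl q.γ (![vl k, q.vn, q.vm, q.vb k] j) _ = _
    fin_cases i <;> fin_cases j <;>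
      simp only [u, Fin.reduceFinMk, Matrix.cons_val, bl_smul_r, h.ll, h.nn, h.mm, h.ln, h.lm, h.nm,
        h.mb, h.bb, h.lb, h.nb, h.cm q.vn (vl k), h.cm q.vm (vl k), h.cm q.vm q.vn,
        h.cm (q.vb k) (vl k), h.cm (q.vb k) q.vn, h.cm (q.vb k) q.vm] <;>
      simp [mul_comm (hf A), t]
  have e2 : F * T = 1 := mul_eq_one_comm.1 e1
  have e3 : F.mulVec (T.mulVec Z) = Z := by rw [Matrix.mulVec_mulVec, e2, Matrix.one_mulVec]
  have e4 : ∀ j, T.mulVec Z j = bl q.γ Z (u j) := fun j => e j Z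
  funext d
  rw [← congrFun e3 d]
  simp only [Matrix.mulVec, dotProduct, Fin.sum_univ_four] at e4 ⊢
  simp only [e4]
  simp only [F, u, Matrix.cons_val, bl_smul_r, Pi.add_apply, Pi.smul_apply, smul_eq_mul]
  ring

omit h in
theorem vl_eq : vl k = k.N • eR A := by
  funext a; fin_cases a <;> simp [vl, eR]

theorem bl_l (Z : Vec A) : bl q.γ Z (vl k) = k.N * q.lam Z := by
  rw [h.cm, vl_eq, bl_smul_l, lam]

theorem lam_R : q.lam (eR A) = 0 := by
  have := h.ll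
  rw [h.bl_l, lam, vl_eq, bl_smul_r] at this
  rw [lam]
  linear_combination k.Ni * k.Ni * this - bl q.γ (eR A) (eR A) * (1 + k.N * k.Ni) * h.kc.hN

theorem lam_n : k.N * q.lam q.vn = -2 := by rw [← h.bl_l, h.cm, h.ln]

theorem mu0 : q.mu k 0 = q.mu k 2 * q.γ 1 2 + q.mu k 3 * q.γ 1 3 := by
  have e := h.lm
  have e1 := h.lam_R
  simp only [lam, bl, vl, vm, eR, Fin.sum_univ_four, Matrix.cons_val, h.RT] at e e1
  simp only [mu]
  linear_combination -(k.r * k.Ni) * e + k.r * q.m 1 * e1 +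
    k.r * (-q.m 0 + q.γ 1 1 * q.m 1 + q.γ 1 2 * q.m 2 + q.γ 1 3 * q.m 3) * h.kc.hN

variable (hr : k.r * ri = 1) {Z Z' : Vec A}
include hr

omit hr in
theorem Y_eq (z : Z 1 = 0) : ri * (hf A * (k.N * bl q.γ Z q.vn)) = q.Y k ri Z := by
  have e := congrFun (h.span Z) 1
  simp only [Pi.add_apply, Pi.smul_apply, smul_eq_mul, h.bl_l] at e
  simp only [vl, vn, vm, vb, Matrix.cons_val, z] at e
  simp only [Y, S, X1, X2, U, nt, vn, vm, vb]
  linear_combination ri * e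

theorem X1_eq : q.Dh k * q.X1 k ri Z = k.c (q.mu k 3) * q.E3 k Z - k.c (q.mu k 2) * q.E2 k Z := by
  have e2 := congrFun (h.span Z) 2
  have e3 := congrFun (h.span Z) 3
  simp only [Pi.add_apply, Pi.smul_apply, smul_eq_mul, h.bl_l] at e2 e3
  simp only [vl, vn, vm, vb, Matrix.cons_val] at e2 e3
  simp only [Dh, X1, E2, E3, mu, nt, vb, map_mul, h.kc.c_r]
  linear_combination k.r * k.c (q.m 2) * e2 - k.r * k.c (q.m 3) * e3 +
    k.r * (q.m 3 * k.c (q.m 3) - q.m 2 * k.c (q.m 2)) *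
    (hf A * bl q.γ Z ![k.c (q.m 0), k.c (q.m 1), k.c (q.m 3), k.c (q.m 2)]) * hr

theorem X2_eq : q.Dh k * q.X2 ri Z = q.mu k 3 * q.E2 k Z - q.mu k 2 * q.E3 k Z := by
  have e2 := congrFun (h.span Z) 2
  have e3 := congrFun (h.span Z) 3
  simp only [Pi.add_apply, Pi.smul_apply, smul_eq_mul, h.bl_l] at e2 e3
  simp only [vl, vn, vm, vb, Matrix.cons_val] at e2 e3
  simp only [Dh, X2, E2, E3, mu, nt, vm, map_mul, h.kc.c_r]
  linear_combination k.r * q.m 2 * e3 - k.r * q.m 3 * e2 +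
    k.r * (q.m 3 * k.c (q.m 3) - q.m 2 * k.c (q.m 2)) *
    (hf A * bl q.γ Z ![q.m 0, q.m 1, q.m 2, q.m 3]) * hr

omit hr in
theorem aa_eq (z : Z 1 = 0) (z' : Z' 1 = 0) : ri * ri * bl q.γ Z Z' =
    2 * (q.X1 k ri Z * q.X2 ri Z' + q.X2 ri Z * q.X1 k ri Z') -
      ri * (q.Y k ri Z * q.lam Z' + q.lam Z * q.Y k ri Z') := by
  have e := congrArg (fun V => bl q.γ V Z') (h.span Z)
  simp only [bl_add_l, bl_smul_l] at e
  rw [h.cm (vl k), h.cm q.vn, h.cm q.vm, h.cm (q.vb k), h.bl_l, h.bl_l] at e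
  rw [← h.Y_eq z, ← h.Y_eq z', e, X1, X2, X1, X2]
  linear_combination -(ri * ri * hf A * (bl q.γ Z (q.vb k) * bl q.γ Z' q.vm +
    bl q.γ Z q.vm * bl q.γ Z' (q.vb k))) * two_hf (A := A)

omit hr in
theorem Nt_eq : q.Nt k = (q.v * k.N) • q.vn - (q.v * q.nt k 1) • eR A := by
  funext a
  fin_cases a <;> simp [Nt, vn, eR, nt, mul_assoc]
  linear_combination -h.hv

omit hr in
theorem tt_eq : bl q.γ (q.Nt k) (q.Nt k) = 4 * (q.nt k 1 * (q.v * q.v)) := by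
  have e := h.lam_R
  have e1 := h.lam_n
  rw [lam] at e e1
  simp only [h.Nt_eq, bl_sub_l, bl_sub_r, bl_smul_l, bl_smul_r, h.nn, e, h.cm q.vn (eR A)]
  linear_combination -(2 * q.v * q.v * q.nt k 1) * e1

omit hr in
theorem ta_eq (z : Z 1 = 0) :
    ri * bl q.γ (q.Nt k) Z = 2 * (q.v * (q.S k ri Z - q.lam Z * q.U k ri)) := by
  have e := h.Y_eq (ri := ri) z
  rw [Y, U] at e
  rw [h.Nt_eq, bl_sub_l, bl_smul_l, bl_smul_l, h.cm q.vn, U, ← lam]
  linear_combination 2 * q.v * e - q.v * ri * (k.N * bl q.γ Z q.vn + q.lam Z * q.nt k 1) *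
    two_hf (A := A)

omit hr

theorem ep : q.G.ep = k.V (k.c (q.m 0)) (k.c (q.m 1)) (k.c (q.m 3)) (k.c (q.m 2)) (k.c (q.m 5))
    (k.c (q.m 4)) := Derivation.ext fun f => by
  have := h.is.c_et (k.c f)
  rw [h.c, h.et, h.kc.c_V, h.kc.cc] at this
  exact this.symm

theorem c_n : k.c (q.n 0) = q.n 0 ∧ k.c (q.n 2) = q.n 3 ∧ k.c (q.n 3) = q.n 2 := by
  obtain ⟨a, -, b, c, -⟩ := h.free (k.c (q.n 0) - q.n 0) (k.c (q.n 1) - q.n 1) (k.c (q.n 3) - q.n 2)
    (k.c (q.n 2) - q.n 3) (k.c (q.n 5) - q.n 4) (k.c (q.n 4) - q.n 5) fun f => by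
      have := h.is.c_tp (k.c f)
      rw [h.c, h.tp, h.kc.c_V, h.kc.cc] at this
      simp only [KC.V_ap] at this ⊢
      linear_combination this
  exact ⟨sub_eq_zero.1 a, sub_eq_zero.1 c, sub_eq_zero.1 b⟩

/-- The weights. -/
theorem H_n : k.H (q.n 0) = -q.n 0 ∧ k.H (q.n 1) = -q.n 1 ∧ k.H (q.n 2) = 0 ∧
    k.H (q.n 3) = -(2 * q.n 3) := by
  obtain ⟨a, b, c, d, -⟩ := h.free (k.H (q.n 0) + q.n 0) (k.H (q.n 1) + q.n 1) (k.H (q.n 2))
    (k.H (q.n 3) + 2 * q.n 3) (k.H (q.n 4) + q.n 4) (k.H (q.n 5) + q.n 5) fun f => by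
      have := h.is.H_tp f
      rw [h.H, h.tp, h.kc.H_V] at this
      simp only [KC.V_ap] at this ⊢
      linear_combination this
  exact ⟨by linear_combination a, by linear_combination b, c, by linear_combination d⟩

theorem B_n : k.B (q.n 1) = -q.n 1 ∧ k.B (q.n 2) = -(2 * q.n 2) ∧ k.B (q.n 3) = 0 := by
  obtain ⟨-, b, c, d, -⟩ := h.free (k.B (q.n 0) + q.n 0) (k.B (q.n 1) + q.n 1)
    (k.B (q.n 2) + 2 * q.n 2) (k.B (q.n 3)) (k.B (q.n 4) + q.n 4) (k.B (q.n 5) + q.n 5) fun f => by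
      have := h.is.Hb_tp f
      rw [h.B, h.tp, B_V h.kc] at this
      simp only [KC.V_ap] at this ⊢
      linear_combination this
  exact ⟨by linear_combination b, by linear_combination c, d⟩

theorem H_m : k.H (q.m 1) = q.m 1 ∧ k.H (q.m 2) = 2 * q.m 2 ∧ k.H (q.m 3) = 0 := by
  obtain ⟨-, b, c, d, -⟩ := h.free (k.H (q.m 0) - q.m 0) (k.H (q.m 1) - q.m 1)
    (k.H (q.m 2) - 2 * q.m 2) (k.H (q.m 3)) (k.H (q.m 4) - q.m 4) (k.H (q.m 5) - q.m 5) fun f => by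
      have := h.is.H_et f
      rw [h.H, h.et, h.kc.H_V] at this
      simp only [KC.V_ap] at this ⊢
      linear_combination this
  exact ⟨by linear_combination b, by linear_combination c, d⟩

theorem B_m : k.B (q.m 1) = -q.m 1 ∧ k.B (q.m 2) = -(2 * q.m 2) ∧ k.B (q.m 3) = 0 := by
  obtain ⟨-, b, c, d, -⟩ := h.free (k.B (q.m 0) + q.m 0) (k.B (q.m 1) + q.m 1)
    (k.B (q.m 2) + 2 * q.m 2) (k.B (q.m 3)) (k.B (q.m 4) + q.m 4) (k.B (q.m 5) + q.m 5) fun f => by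
      have := h.is.Hb_et f
      rw [h.B, h.et, B_V h.kc] at this
      simp only [KC.V_ap] at this ⊢
      linear_combination this
  exact ⟨by linear_combination b, by linear_combination c, d⟩

/-- The components of a commutator. -/
theorem comm {E F : Der A} {e0 e1 e2 e3 e4 e5 f0 f1 f2 f3 f4 f5 a b c d u u' : A}
    (hE : E = k.V e0 e1 e2 e3 e4 e5) (hF : F = k.V f0 f1 f2 f3 f4 f5)
    (e : ∀ g, E (F g) = F (E g) + (a * q.G.th g + b * q.G.tp g + c * q.G.et g + d * q.G.ep g +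
      u * k.H g + u' * k.B g)) :
    E f0 - F e0 = b * q.n 0 + c * q.m 0 + d * k.c (q.m 0) ∧
    E f1 - F e1 = a * k.N + b * q.n 1 + c * q.m 1 + d * k.c (q.m 1) ∧
    E f2 - F e2 - (e4 - e5) * f2 + e2 * (f4 - f5) = b * q.n 2 + c * q.m 2 + d * k.c (q.m 3) ∧
    E f3 - F e3 + (e4 - e5) * f3 - e3 * (f4 - f5) = b * q.n 3 + c * q.m 3 + d * k.c (q.m 2) := by
  obtain ⟨a0, a1, a2, a3, -⟩ := h.free
    (E f0 - F e0 - (b * q.n 0 + c * q.m 0 + d * k.c (q.m 0)))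
    (E f1 - F e1 - (a * k.N + b * q.n 1 + c * q.m 1 + d * k.c (q.m 1)))
    (E f2 - F e2 - (e4 - e5) * f2 + e2 * (f4 - f5) - (b * q.n 2 + c * q.m 2 + d * k.c (q.m 3)))
    (E f3 - F e3 + (e4 - e5) * f3 - e3 * (f4 - f5) - (b * q.n 3 + c * q.m 3 + d * k.c (q.m 2)))
    (E f4 - F e4 + (e2 * f3 - e3 * f2) - (b * q.n 4 + c * q.m 4 + d * k.c (q.m 5) + u))
    (E f5 - F e5 - (e2 * f3 - e3 * f2) - (b * q.n 5 + c * q.m 5 + d * k.c (q.m 4) + u'))
    fun g => by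
      have := e g
      rw [h.kc.V_comm hE hF g, add_right_inj, h.th, oth_ap, h.tp, h.et, h.ep] at this
      simp only [KC.V_ap] at this ⊢
      linear_combination this
  exact ⟨sub_eq_zero.1 a0, sub_eq_zero.1 a1, sub_eq_zero.1 a2, sub_eq_zero.1 a3⟩

/-- The radial equations. -/
theorem R_eq : k.r * (k.r * k.R (q.nt k 0)) = q.c1 k * q.mu k 0 + q.c2 k * k.c (q.mu k 0) ∧
    k.r * (k.r * k.R (q.nt k 2)) = q.c1 k * q.mu k 2 + q.c2 k * k.c (q.mu k 3) ∧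
    k.r * (k.r * k.R (q.nt k 3)) = q.c1 k * q.mu k 3 + q.c2 k * k.c (q.mu k 2) := by
  obtain ⟨a, -, c, d⟩ := h.comm (a := 0) (b := 0) (c := k.c q.G.ta - k.ta2)
    (d := q.G.ta - k.c k.ta2) (u := -(q.G.ka * q.G.ka' - q.G.ta * k.ta2 + q.G.P2))
    (u' := -(k.c q.G.ka * k.c q.G.ka' - k.c q.G.ta * k.c k.ta2 + k.c q.G.P2)) (h.th.trans rfl) h.tp
    fun g => by
      have := h.is.th_tp g
      rw [h.c, h.H, h.B, h.ta] at this
      linear_combination this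
  rw [h.th, oth_ap, D_zero] at a c d
  simp only [nt, mu, c1, c2, D_mul, map_mul, h.kc.R_N, h.kc.c_r]
  exact ⟨by linear_combination k.r * k.r * a, by linear_combination k.r * k.r * c,
    by linear_combination k.r * k.r * d⟩

/-- The time equations. -/
theorem T_eq (hr : k.r * ri = 1) :
    q.nt k 0 * k.T (q.m 1) = q.rhs k ri (q.m 1) (q.U k ri) (k.c (q.m 1)) +
      q.mu k 0 * k.T (q.U k ri) + q.U k ri * q.m 1 - k.c (k.N * (k.N * q.G.ka')) ∧
    q.nt k 0 * k.T (q.mu k 2) = q.rhs k ri (q.mu k 2) (q.nt k 2) (k.c (q.mu k 3)) +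
      q.mu k 0 * k.T (q.nt k 2) + q.U k ri * q.mu k 2 ∧
    q.nt k 0 * k.T (q.mu k 3) = q.rhs k ri (q.mu k 3) (q.nt k 3) (k.c (q.mu k 2)) +
      q.mu k 0 * k.T (q.nt k 3) + q.U k ri * q.mu k 3 := by
  obtain ⟨-, b, c, d⟩ := h.comm (a := -k.c q.G.ka') (b := -q.G.ta) (c := q.G.rh')
    (d := k.c q.G.si') (u := q.G.si * q.G.ka' - q.G.rh' * q.G.ta)
    (u' := k.c q.G.rh * k.c q.G.ka' - k.c q.G.ta * k.c q.G.si' + k.c q.G.P3) h.tp h.et
    fun g => by
      have := h.is.tp_et g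
      rw [h.c, h.H, h.B] at this
      linear_combination this
  have i : ∀ D : Der A, D ri = -(ri * ri * D k.r) := fun D => KC.D_inv D (by rw [mul_comm, hr])
  rw [h.tp, h.et] at b c d
  simp only [KC.V_ap, h.H_n, h.B_n, h.H_m, h.B_m] at b c d
  simp only [rhs, U, nt, mu, D_mul, map_mul, i, h.kc.tab]
  refine ⟨?_, ?_, ?_⟩
  · linear_combination k.N * b - k.N * (q.m 0 * k.T (q.n 1) + q.m 2 * k.P (q.n 1) +
      q.m 3 * k.Q (q.n 1) + q.m 1 * k.R (q.n 1) - q.n 1 * k.R (q.m 1) - (q.m 4 + q.m 5) * q.n 1 -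
      q.G.ta * q.n 1 - ri * q.n 1 * q.m 1) * hr
  · linear_combination k.N * k.r * c + k.N * q.n 1 * k.r * k.R (q.m 2) * hr
  · linear_combination k.N * k.r * d + k.N * q.n 1 * k.r * k.R (q.m 3) * hr

end Is
end Pr
end Vale.Agent.P354YO
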