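import Vale.Agent.P354YO.Pr

/-!
The stationary symbols, and the shift.
-/

noncomputable section

namespace Vale.Agent.P354YO

open Vale.Agent.P354XG Vale.Agent.P354XD Vale.Agent.P354XR
open Vale.Agent.P354XG.Geo (hf two_hf)
open Vale.Agent.P354YK Ev

variable {A : Type} [CommRing A] [Algebra ℂ A]

theorem cases5 (i : Fin 5) : i = 0 ∨ i = 1 ∨ ∃ j : Fin 3, i = j.succ.succ := by
  revert i; decide

theorem cases3 (i j : Fin 3) : i = j ∨ i = j + 1 ∨ i = j + 2 := by revert i j; decide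

namespace Dt
variable {D : Dt A} {E : Ev A} {e ρ μ : E.J → ℝ} {f g : A} {n : ℕ}

/-- Stationary symbols. -/
structure Sy (D : Dt A) (E : Ev A) (f : A) : Prop where
  t : D.T f = 0
  o : ∀ n, E.Ob n f 1

theorem Sy.of (h : D.Sy E f) (e : g = f) : D.Sy E g := e ▸ h
theorem Sy.add (h : D.Sy E f) (h' : D.Sy E g) : D.Sy E (f + g) :=
  ⟨by rw [D_add, h.t, h'.t, add_zero], fun n => (h.o n).add (h'.o n)⟩
theorem Sy.neg (h : D.Sy E f) : D.Sy E (-f) := ⟨by rw [D_neg, h.t, neg_zero], fun n => (h.o n).neg⟩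
theorem Sy.sub (h : D.Sy E f) (h' : D.Sy E g) : D.Sy E (f - g) :=
  (h.add h'.neg).of (sub_eq_add_neg _ _)
theorem Sy.mul (h : D.Sy E f) (h' : D.Sy E g) : D.Sy E (f * g) :=
  ⟨by rw [D_mul, h.t, h'.t]; ring, fun n => (h.o n).lm (h'.o n)⟩
theorem sy_alg (z : ℂ) : D.Sy E (algebraMap ℂ A z) := ⟨D_alg _ _, ob_alg z⟩
theorem sy_one : D.Sy E 1 := ⟨D_one _, ob_one⟩
theorem sy_zero : D.Sy E 0 := ⟨D_zero _, ob_zero fun _ => zero_le_one⟩
theorem sy_two : D.Sy E 2 := ⟨D_num _ 2, ob_num 2⟩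
theorem sy_i : D.Sy E (ii A) := sy_alg _
theorem sy_hf : D.Sy E (hf A) := sy_alg _
theorem Sy.inv {u y : A} (h : D.Sy E u) (l : E.Low u) (e : u * y = 1) : D.Sy E y :=
  ⟨by rw [KC.D_inv _ (show y * u = 1 by rw [mul_comm, e]), h.t]; ring, fun n => (h.o n).inv l e⟩

theorem Is.kc (h : D.Is) : D.k.Is := h.q.kc
theorem Is.kc0 (h : D.Is) : D.k0.Is := kk_is h.K h.p0
theorem Is.qK (h : D.Is) : D.qK.Is D.k := prK_is h.kc h.q.free h.w
theorem Is.hr (h : D.Is) : D.k.r * D.ri = 1 := h.K.hr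
theorem Is.R_ap (h : D.Is) (f : A) : D.k.R f = D.K.d 1 f - D.p.h1 * D.T f := by
  rw [k, kk_R, h.j1, zero_mul, sub_zero]; rfl

/-- The shift in the components. -/
theorem b_sum (h : D.K.Is) (q : Pr A) :
    eT A + ∑ i, q.b D.K i • eO D.K i = q.Nt D.k := by
  obtain ⟨-, -, -, p4, p5, p6⟩ := pw h
  have t := two_hf (A := A)
  have i := ii_sq (A := A)
  simp only [Fin.sum_univ_three] at p4 p5 p6
  funext a
  fin_cases a <;> simp [eT, eO, Pr.b, Pr.Nt, Pr.nt, Fin.sum_univ_three, k, kk, Hp.kc]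
  · linear_combination -(ii A * ii A * hf A * q.v * D.K.N) * (q.n 2 * p6 - q.n 3 * p4) +
      q.v * D.K.N * q.n 2 * (t - 2 * hf A * i)
  · linear_combination (ii A * ii A * hf A * q.v * D.K.N) * (q.n 2 * p5 - q.n 3 * p6) +
      q.v * D.K.N * q.n 3 * (t - 2 * hf A * i)

theorem ga_PQ (h : D.K.Is) (q : Pr A) : q.γ 1 2 = ii A * ∑ i, wb D.K i * q.lam (eO D.K i) ∧
    q.γ 1 3 = -(ii A * ∑ i, wm D.K i * q.lam (eO D.K i)) := by
  obtain ⟨-, -, -, p4, p5, p6⟩ := pw h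
  have t := two_hf (A := A)
  have i := ii_sq (A := A)
  simp only [Fin.sum_univ_three] at p4 p5 p6
  simp only [Pr.lam, bl, eR, eO, Fin.sum_univ_three, Fin.sum_univ_four, Matrix.cons_val]
  constructor
  · linear_combination (ii A * ii A * hf A) * (q.γ 1 2 * p6 - q.γ 1 3 * p5) -
      q.γ 1 2 * (t - 2 * hf A * i)
  · linear_combination (ii A * ii A * hf A) * (q.γ 1 3 * p6 - q.γ 1 2 * p4) -
      q.γ 1 3 * (t - 2 * hf A * i)

theorem b_base (h : D.K.Is) {q : Pr A} (o : q.Is D.k) (i : Fin 3) :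
    D.K.c (q.b D.K i) = q.b D.K i ∧ D.K.H (q.b D.K i) = 0 := by
  have c : D.K.c (q.n 0) = q.n 0 ∧ D.K.c (q.n 2) = q.n 3 ∧ D.K.c (q.n 3) = q.n 2 := o.c_n
  have w : D.K.H (q.n 0) = -q.n 0 ∧ D.K.H (q.n 1) = -q.n 1 ∧ D.K.H (q.n 2) = 0 ∧
    D.K.H (q.n 3) = -(2 * q.n 3) := o.H_n
  have v : D.K.N * q.n 0 * q.v = 1 := o.hv
  have N : D.K.H D.K.N = D.K.N := h.kc.H_N
  have cv : D.K.c q.v = q.v := by
    have := congrArg D.K.c v
    rw [map_mul, map_mul, map_one, h.c_N, c.1] at this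
    linear_combination q.v * this - D.K.c q.v * v
  have Hv : D.K.H q.v = 0 := by
    rw [KC.D_inv _ (show q.v * (D.K.N * q.n 0) = 1 by rw [mul_comm, v]), D_mul, w.1, N]; ring
  constructor
  · simp only [Pr.b, map_mul, map_sub, h.c_ii, cv, h.c_N, c, wb, wm, h.c_mu, h.c_mub]; ring
  · simp only [Pr.b, D_mul, D_sub, D_ii, Hv, N, w, tw h i]; ring

end Dt

theorem bas : BAS := fun _ _ _ D h i => by
  have a := Dt.b_base h.K h.q i
  have b := Dt.b_base h.K h.qK i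
  rw [Dt.β, map_sub, D_sub, a.1, a.2, b.1, b.2, sub_zero]
  exact ⟨rfl, rfl⟩

namespace Dt
variable {D : Dt A} {E : Ev A} {e ρ μ : E.J → ℝ} {f g : A} {n : ℕ}

namespace Pt
variable (h : D.Is) (p : D.Pt E e ρ)
include h p

theorem sy_cj (s : D.Sy E f) : D.Sy E (D.k.c f) :=
  ⟨(h.kc.c_T f).symm.trans (by rw [show D.k.T f = 0 from s.t, map_zero]),
    fun n => (s.o n).cj.of (by rw [p.c]; rfl)⟩

omit h in
theorem X_zero (t : D.T f = 0) (r : D.k.R f = 0) (o : ∀ j, Om D.K j f = 0) (i : Fin 5) :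
    E.X i f = 0 := by
  rcases cases5 i with rfl | rfl | ⟨j, rfl⟩
  · exact p.X0 f t
  · rw [p.X1, Derivation.smul_apply, r, smul_zero]
  · rw [p.Xo, o]

theorem X_r (i : Fin 5) : E.X i D.r = 0 ∨ E.X i D.r = D.r := by
  rcases cases5 i with rfl | rfl | ⟨j, rfl⟩
  · exact .inl (p.X0 _ h.kc.T_r)
  · exact .inr (by rw [p.X1, Derivation.smul_apply, show D.k.R D.r = 1 from h.kc.R_r, smul_eq_mul,
      mul_one])
  · exact .inl (by rw [p.Xo]; exact (Om_z h.K j).2.1)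

theorem X_ri (i : Fin 5) : E.X i D.ri = 0 ∨ E.X i D.ri = -D.ri := by
  have r : D.r * D.ri = 1 := h.hr
  rw [KC.D_inv _ (show D.ri * D.r = 1 by rw [mul_comm, r])]
  rcases p.X_r h i with e | e <;> rw [e]
  · exact .inl (by ring)
  · exact .inr (by linear_combination -D.ri * r)

omit h in
theorem pos (j : E.J) : 0 < ρ j := let ⟨_, a, b⟩ := p.rho; a.trans_le (b j)

omit h in
theorem rho_le : E.Le ρ⁻¹ 1 :=
  let ⟨c, a, b⟩ := p.rho
  ⟨fun _ => zero_le_one, c⁻¹, fun j => by simpa using inv_anti₀ a (b j)⟩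

omit h in
theorem e_le : E.Le e 1 := .of (fun _ => zero_le_one) fun j => (p.e01 j).2

theorem ev_ri (j : E.J) : E.ev j D.ri = (ρ⁻¹ j : ℝ) := by
  have := congrArg (E.ev j) (show D.r * D.ri = 1 from h.hr)
  rw [map_mul, map_one, p.r] at this
  rw [Pi.inv_apply, Complex.ofReal_inv]
  exact eq_inv_of_mul_eq_one_right this

theorem ob_r (n : ℕ) : E.Ob n D.r ρ :=
  ob_fam (f := fun _ : Unit => D.r) (fun _ => ⟨fun j => (p.pos j).le, 1, fun j => by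
    rw [p.r, one_mul, Complex.norm_real, Real.norm_of_nonneg (p.pos j).le]⟩)
    (fun n a _ i => (p.X_r h i).elim (ob_zero (a ()).nn n).of (a ()).of) n ()

theorem ob_ri (n : ℕ) : E.Ob n D.ri ρ⁻¹ :=
  ob_fam (f := fun _ : Unit => D.ri) (fun _ => ⟨fun j => inv_nonneg.2 (p.pos j).le, 1, fun j => by
    rw [p.ev_ri h, one_mul, Complex.norm_real]
    exact (Real.norm_of_nonneg (inv_nonneg.2 (p.pos j).le)).le⟩)
    (fun n a _ i => (p.X_ri h i).elim (ob_zero (a ()).nn n).of (a ()).neg.of) n ()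

theorem ri : D.Sy E D.ri := ⟨h.K.tab.2.2.2.2.2.2.1, fun n => (p.ob_ri h n).mono p.rho_le⟩

theorem N' : D.Sy E D.k.N := ⟨h.kc.T_N, ob_cst ⟨fun _ => zero_le_one, 1, fun j => by
  rw [show E.ev j D.k.N = 1 from p.N j]; simp⟩
  (p.X_zero h.kc.T_N h.kc.R_N fun j => (Om_z h.K j).2.2.1)⟩

theorem cst (d : ∀ i, D.K.d i f = 0) (b : E.Bd f μ) (n : ℕ) : E.Ob n f μ :=
  ob_cst b (p.X_zero (d 0) (by rw [h.R_ap, d, T, d]; ring) fun j => by
    fin_cases j <;> simp [Om, d]) n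

theorem dfa (n : ℕ) : E.Df n e D.p.a D.p0.a :=
  ⟨p.e_le, p.cst h h.p0.da p.a0 n, p.cst h (fun i => by rw [D_sub, h.p.da, h.p0.da, sub_zero]) p.da n⟩
theorem dfM (n : ℕ) : E.Df n e D.p.M D.p0.M :=
  ⟨p.e_le, p.cst h h.p0.dM p.M0 n, p.cst h (fun i => by rw [D_sub, h.p.dM, h.p0.dM, sub_zero]) p.dM n⟩
theorem a : D.Sy E D.k.a := ⟨h.kc.T_a, fun n => (p.dfa h n).b⟩
theorem M : D.Sy E D.k.M := ⟨h.kc.T_M, fun n => (p.dfM h n).b⟩

omit h in
theorem sq_le {u : Fin 3 → A} {c : ℝ} (e : ∑ i, u i * D.K.c (u i) = algebraMap ℂ A c) (i : Fin 3)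
    (j : E.J) : ‖E.ev j (u i)‖ ^ 2 ≤ c := by
  have := congrArg (E.ev j) e
  simp only [← p.c, map_sum, ev_mc, E.alg, ← Complex.ofReal_sum, Complex.ofReal_inj] at this
  exact (Finset.single_le_sum (f := fun i => ‖E.ev j (u i)‖ ^ 2) (fun _ _ => sq_nonneg _)
    (Finset.mem_univ i)).trans this.le

theorem fam {Z : A →+ A} (c : ∀ j f, Om D.K j (Z f) = Z (Om D.K j f))
    (t : ∀ i, D.K.d 0 (Z (ww D.K i)) = 0 ∧ D.K.d 1 (Z (ww D.K i)) = 0)
    (b : ∀ i j, ‖E.ev j (Z (ww D.K i))‖ ^ 2 ≤ 2) (i : Fin 3) : D.Sy E (Z (ww D.K i)) := by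
  refine ⟨(t i).1, fun n => ob_fam (f := fun i => Z (ww D.K i)) (fun i => ⟨fun _ => zero_le_one, 2,
    fun j => ?_⟩) (fun n a i l => ?_) n i⟩
  · have := b i j
    show _ ≤ (2 : ℝ) * 1
    nlinarith [norm_nonneg (E.ev j (Z (ww D.K i)))]
  have z := ob_zero (E := E) (μ := 1) (fun _ => zero_le_one) n
  rcases cases5 l with rfl | rfl | ⟨j, rfl⟩
  · exact z.of (p.X0 _ (t i).1)
  · exact z.of (by rw [p.X1, Derivation.smul_apply, h.R_ap, T, (t i).1, (t i).2]; simp)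
  rw [p.Xo, c]
  rcases cases3 i j with rfl | rfl | rfl
  · exact z.of (by rw [(Om_ww h.K i).1, map_zero])
  · exact (a _).neg.of (by rw [(Om_ww h.K j).2.1, map_neg])
  · exact (a _).of (by rw [(Om_ww h.K j).2.2])

theorem ww_le (i : Fin 3) (j : E.J) : ‖E.ev j (ww D.K i)‖ ^ 2 ≤ 1 :=
  p.sq_le (by simpa only [ww, h.K.c_om, Complex.ofReal_one, map_one] using (pw h.K).1) i j

theorem x : D.Sy E D.k.x :=
  p.fam h (Z := .id A) (fun _ _ => rfl) (fun i => ⟨(tw h.K i).1, (tw h.K i).2.1⟩)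
    (fun i j => (p.ww_le h i j).trans one_le_two) 2

theorem wm' (i : Fin 3) : D.Sy E (wm D.K i) := by
  have t := tw h.K
  refine (p.fam h (Z := (D.K.Q : A →ₗ[ℂ] A).toAddMonoidHom)
    (fun j f => (Om_comm h.K j f).2.2.2.1.symm) (fun i => ?_) (fun i j => ?_) i).of
    (t i).2.2.2.1.symm
  · show D.K.d 0 (D.K.Q _) = 0 ∧ D.K.d 1 (D.K.Q _) = 0
    simp only [t i, and_self]
  · show ‖E.ev j (D.K.Q _)‖ ^ 2 ≤ 2
    rw [(t i).2.2.2.1]
    exact p.sq_le (by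
      simpa only [wm, wb, h.K.c_mu, Complex.ofReal_ofNat, map_ofNat] using (pw h.K).2.2.2.2.2) i j

theorem wb' (i : Fin 3) : D.Sy E (wb D.K i) := (p.sy_cj h (p.wm' h i)).of (h.K.c_mu _).symm
theorem s : D.Sy E D.k.s := (p.wm' h 2).neg.of (neg_neg _).symm
theorem sb : D.Sy E D.k.sb := (p.wb' h 2).neg.of (neg_neg _).symm

omit h in
theorem ev_sq (c : D.K.c f = f) (j : E.J) : E.ev j (1 + f * f) = (1 + ‖E.ev j f‖ ^ 2 : ℝ) := by
  have := ev_mc (E := E) j f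
  rw [p.c, c] at this
  rw [map_add, map_one, this, Complex.ofReal_add, Complex.ofReal_one]

omit h in
theorem nm_sq (c : D.K.c f = f) (j : E.J) : ‖E.ev j (1 + f * f)‖ = 1 + ‖E.ev j f‖ ^ 2 := by
  rw [p.ev_sq c, Complex.norm_real, Real.norm_of_nonneg (by positivity)]

omit p in
theorem s2_eq {p' : Pm A} (o : p'.Is D.K) :
    (1 + p'.a * D.ri * D.k.x * (p'.a * D.ri * D.k.x)) * (D.k.r * D.k.r * p'.sg) = 1 := by
  have g : p'.sg * (D.k.r * D.k.r + p'.a * p'.a * D.k.x * D.k.x) = 1 := o.hg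
  linear_combination g + p'.sg * p'.a * p'.a * D.k.x * D.k.x * (D.k.r * D.ri + 1) * h.hr

omit p in
theorem c_ar {p' : Pm A} (o : p'.Is D.K) : D.K.c (p'.a * D.ri) = p'.a * D.ri := by
  rw [map_mul, o.ca, show D.K.c D.ri = D.ri from h.K.c_ri]

omit p in
theorem c_arx {p' : Pm A} (o : p'.Is D.K) :
    D.K.c (p'.a * D.ri * D.k.x) = p'.a * D.ri * D.k.x := by
  rw [map_mul, c_ar h o, show D.K.c D.k.x = D.k.x from h.kc.c_x]

theorem low_u {p' : Pm A} (o : p'.Is D.K) :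
    E.Low (1 + p'.a * D.ri * D.k.x * (p'.a * D.ri * D.k.x)) :=
  ⟨1, one_pos, fun j => by rw [p.nm_sq (c_arx h o)]; exact le_add_of_nonneg_right (sq_nonneg _)⟩

theorem dfs (n : ℕ) : E.Df n e (D.k.r * D.k.r * D.k.sg) (D.k.r * D.k.r * D.k0.sg) := by
  have o := Df.refl (ob_one n) p.e_le fun j => (p.e01 j).1
  have u := ((p.dfa h n).mul (Df.refl ((p.ri h).o n) p.e_le fun j => (p.e01 j).1)).mul
    (Df.refl ((p.x h).o n) p.e_le fun j => (p.e01 j).1)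
  exact Df.div (p.low_u h h.p) (p.low_u h h.p0) (o.add (u.mul u)) (o.of (s2_eq h h.p) (s2_eq h h.p0))

theorem s2 : D.Sy E (D.k.r * D.k.r * D.k.sg) :=
  ⟨by show D.k.T _ = 0; simp only [D_mul, h.kc.tab]; ring, fun n => (p.dfs h n).b⟩

/-- The values of r^2 sg. -/
theorem s2_ev (j : E.J) : 1 / 2 ≤ ‖E.ev j (D.k.r * D.k.r * D.k.sg)‖ ∧
    1 ≤ ‖E.ev j (D.k.r * D.k.r * D.k.sg * (1 + D.p.a * D.ri * (D.p.a * D.ri)))‖ := by
  have e := congrArg (fun u => ‖E.ev j u‖) (s2_eq h h.p)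
  simp only [map_one, norm_one] at e
  rw [map_mul, norm_mul, p.nm_sq (c_arx h h.p), map_mul _ _ D.k.x, norm_mul, mul_pow] at e
  rw [map_mul _ _ (1 + _), norm_mul, p.nm_sq (c_ar h h.p)]
  have x : ‖E.ev j D.k.x‖ ^ 2 ≤ 1 := p.ww_le h 2 j
  have a : ‖E.ev j (D.p.a * D.ri)‖ ≤ 1 := by
    rw [map_mul, norm_mul, p.ev_ri h, Complex.norm_real, Pi.inv_apply,
      Real.norm_of_nonneg (inv_nonneg.2 (p.pos j).le), ← div_eq_mul_inv, div_le_one (p.pos j)]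
    exact p.ar j
  have a' : ‖E.ev j (D.p.a * D.ri)‖ ^ 2 ≤ 1 := pow_le_one₀ (norm_nonneg _) a
  have m := mul_le_mul_of_nonneg_left x (sq_nonneg ‖E.ev j (D.p.a * D.ri)‖)
  have S : 0 ≤ ‖E.ev j (D.k.r * D.k.r * D.k.sg)‖ := norm_nonneg _
  change _ * ‖E.ev j (D.k.r * D.k.r * D.k.sg)‖ = 1 at e
  constructor <;> nlinarith

end Pt
end Dt
end Vale.Agent.P354YO
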